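import Crest.Agent.R114.DefsQ

/-!
# Row 114: almost open maps give separable quotients
-/

set_option autoImplicit false

open Filter Finset Topology

namespace Crest.Agent.R114

variable {𝕜 : Type} [RCLike 𝕜] {X : Type*} [NormedAddCommGroup X] [NormedSpace 𝕜 X]
  {F : Type*} [NormedAddCommGroup F] [NormedSpace 𝕜 F]

/-- Hahn-Banach separation from the image of a ball. -/
theorem hb_sep (T : X →L[𝕜] F) (y : F) (r : ℝ) (hr : 0 ≤ r)
    (h : ∀ f : StrongDual 𝕜 F, ‖f y‖ ≤ r * ‖f.comp T‖) (ε : ℝ) (hε : 0 < ε) :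
    ∃ z : X, ‖z‖ ≤ r ∧ ‖T z - y‖ < ε := by
  let _ : NormedSpace ℝ X := NormedSpace.restrictScalars ℝ 𝕜 X
  let _ : NormedSpace ℝ F := NormedSpace.restrictScalars ℝ 𝕜 F
  have : IsScalarTower ℝ 𝕜 X := RestrictScalars.isScalarTower ℝ 𝕜 X
  have : IsScalarTower ℝ 𝕜 F := RestrictScalars.isScalarTower ℝ 𝕜 F
  have hmem : y ∈ closure (T '' Metric.closedBall 0 r) := by
    by_contra hy
    have hconv : Convex ℝ (closure (T '' Metric.closedBall (0 : X) r)) :=
      ((convex_closedBall (0 : X) r).linear_image ((T.restrictScalars ℝ).toLinearMap)).closure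
    obtain ⟨f, u, hfu, huy⟩ :=
      RCLike.geometric_hahn_banach_closed_point (𝕜 := 𝕜) hconv isClosed_closure hy
    have hu0 : 0 < u := by
      have := hfu (T 0) (subset_closure ⟨0, by simpa using hr, rfl⟩)
      simpa using this
    have hb : ∀ z : X, ‖z‖ ≤ r → ‖f (T z)‖ ≤ u := by
      intro z hz
      obtain ⟨c, hc1, hc⟩ := RCLike.exists_norm_eq_mul_self (f (T z))
      have hz' : c • z ∈ Metric.closedBall (0 : X) r := by
        simp [norm_smul, hc1, hz]
      have := hfu (T (c • z)) (subset_closure ⟨_, hz', rfl⟩)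
      rw [map_smul, map_smul, smul_eq_mul, ← hc, RCLike.ofReal_re] at this
      exact this.le
    have h1 : r * ‖f.comp T‖ ≤ u := by
      rcases hr.eq_or_lt with h0 | h0
      · rw [← h0]; simpa using hu0.le
      · have : ‖f.comp T‖ ≤ u / r := by
          refine ContinuousLinearMap.opNorm_le_of_unit_norm (by positivity) ?_
          intro x hx
          have h2 := hb ((r : 𝕜) • x) (by simp [norm_smul, hx, abs_of_pos h0])
          rw [map_smul, map_smul, norm_smul, RCLike.norm_ofReal, abs_of_pos h0] at h2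
          rw [le_div_iff₀ h0]
          simpa [mul_comm] using h2
        rw [le_div_iff₀ h0] at this
        linarith
    have h2 : RCLike.re (f y) ≤ ‖f y‖ := RCLike.re_le_norm _
    have := h f
    linarith
  obtain ⟨_, ⟨z, hz, rfl⟩, hd⟩ := Metric.mem_closure_iff.1 hmem ε hε
  refine ⟨z, by simpa using hz, ?_⟩
  rw [dist_comm, dist_eq_norm] at hd
  exact hd

/-- exact lifting from approximate lifting -/
theorem exists_lift_of_AO [CompleteSpace X] (T : X →L[𝕜] F) (C : ℝ) (hC : 0 ≤ C)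
    (hAO : ∀ (x : X) (ε : ℝ), 0 < ε → ∃ z : X, ‖z‖ ≤ C * ‖T x‖ + ε ∧ ‖T z - T x‖ < ε)
    (x : X) (ε : ℝ) (hε : 0 < ε) : ∃ z : X, ‖z‖ ≤ C * ‖T x‖ + ε ∧ T z = T x := by
  set η : ℝ := ε / (4 * (C + 1)) with hη
  have hη0 : 0 < η := by positivity
  choose g hg1 hg2 using hAO
  -- remainders
  let R : ℕ → X := fun n => Nat.rec x (fun k r => r - g r (η / 2 ^ k) (by positivity)) n
  let z : ℕ → X := fun k => g (R k) (η / 2 ^ k) (by positivity)
  have hR : ∀ k, R (k + 1) = R k - z k := fun k => rfl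
  have hTR : ∀ k, ‖T (R (k + 1))‖ ≤ η / 2 ^ k := by
    intro k
    rw [hR, map_sub, norm_sub_rev]
    exact (hg2 _ _ _).le
  have hz0 : ‖z 0‖ ≤ C * ‖T x‖ + η := by
    have h0 : ‖z 0‖ ≤ C * ‖T x‖ + η / 2 ^ 0 := hg1 x (η / 2 ^ 0) (by positivity)
    simpa using h0
  have hz : ∀ k, ‖z (k + 1)‖ ≤ (C + 1) * η * (1 / 2) ^ k := by
    intro k
    have h1 := hg1 (R (k + 1)) (η / 2 ^ (k + 1)) (by positivity)
    have h2 := mul_le_mul_of_nonneg_left (hTR k) hC
    have h3 : η / 2 ^ (k + 1) ≤ η / 2 ^ k :=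
      div_le_div_of_nonneg_left hη0.le (by positivity) (pow_le_pow_right₀ (by norm_num) (by omega))
    have h4 : (C + 1) * η * (1 / 2) ^ k = C * (η / 2 ^ k) + η / 2 ^ k := by
      rw [one_div, inv_pow]; field_simp
    rw [h4]
    exact h1.trans (by linarith)
  have hsum1 : Summable fun k => (C + 1) * η * (1 / 2 : ℝ) ^ k :=
    summable_geometric_two.mul_left _
  have hs1 : Summable fun k => ‖z (k + 1)‖ :=
    Summable.of_nonneg_of_le (fun _ => norm_nonneg _) hz hsum1
  have hsn : Summable fun k => ‖z k‖ := (summable_nat_add_iff 1).1 hs1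
  have hs : Summable z := hsn.of_norm
  refine ⟨∑' k, z k, ?_, ?_⟩
  · have h1 : ‖∑' k, z k‖ ≤ ∑' k, ‖z k‖ := norm_tsum_le_tsum_norm hsn
    rw [hsn.tsum_eq_zero_add] at h1
    have h2 : ∑' k, ‖z (k + 1)‖ ≤ ∑' k, (C + 1) * η * (1 / 2 : ℝ) ^ k :=
      hs1.tsum_le_tsum hz hsum1
    rw [tsum_mul_left, tsum_geometric_two] at h2
    have h3 : (C + 1) * η = ε / 4 := by rw [hη]; field_simp
    have h4 : η ≤ ε / 4 := by rw [← h3]; nlinarith
    rw [h3] at h2
    linarith
  · have hpart : ∀ n, ∑ k ∈ range n, z k = x - R n := by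
      intro n
      induction n with
      | zero => simp [R]
      | succ n ih => rw [sum_range_succ, ih, hR]; abel
    have h1 : Tendsto (fun n => T (∑ k ∈ range n, z k)) atTop (𝓝 (T (∑' k, z k))) :=
      (T.continuous.tendsto _).comp hs.hasSum.tendsto_sum_nat
    have h2 : Tendsto (fun n => T (R n)) atTop (𝓝 0) := by
      rw [← tendsto_add_atTop_iff_nat 1]
      refine squeeze_zero_norm hTR ?_
      have := (tendsto_pow_atTop_nhds_zero_of_lt_one (r := (1 / 2 : ℝ)) (by norm_num)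
        (by norm_num)).const_mul η
      simpa [div_eq_mul_inv] using this
    have h3 : Tendsto (fun n => T (∑ k ∈ range n, z k)) atTop (𝓝 (T x)) := by
      simp only [hpart, map_sub]
      simpa using tendsto_const_nhds.sub h2
    exact tendsto_nhds_unique h1 h3

/-- An almost open map onto a separable infinite-dimensional range gives a separable quotient. -/
theorem hasSQ_of_AO [CompleteSpace X] (T : X →L[𝕜] F) (C : ℝ) (hC : 0 ≤ C)
    (hsep : TopologicalSpace.IsSeparable (Set.range T))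
    (hAO : ∀ (x : X) (ε : ℝ), 0 < ε → ∃ z : X, ‖z‖ ≤ C * ‖T x‖ + ε ∧ ‖T z - T x‖ < ε)
    (hinf : ¬ FiniteDimensional 𝕜 (LinearMap.range (T : X →ₗ[𝕜] F))) : HasSQ 𝕜 X := by
  refine ⟨LinearMap.ker (T : X →ₗ[𝕜] F), T.isClosed_ker, ?_, ?_⟩
  · obtain ⟨c, hcs, hcc, hcd⟩ := hsep.exists_countable_dense_subset
    choose! pre hpre using fun y (hy : y ∈ c) => hcs hy
    refine ⟨⟨(fun y => Submodule.Quotient.mk (pre y)) '' c, hcc.image _, ?_⟩⟩
    intro q
    obtain ⟨x, rfl⟩ := Submodule.Quotient.mk_surjective _ q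
    have hcont : Continuous (Submodule.Quotient.mk : X → X ⧸ LinearMap.ker (T : X →ₗ[𝕜] F)) :=
      continuous_quot_mk
    have hx : x ∈ closure ((Submodule.Quotient.mk : X → X ⧸ LinearMap.ker (T : X →ₗ[𝕜] F)) ⁻¹'
        ((fun y => Submodule.Quotient.mk (pre y)) '' c)) := by
      rw [Metric.mem_closure_iff]
      intro ε hε
      set η : ℝ := ε / (2 * (C + 1)) with hη
      have hη0 : 0 < η := by positivity
      obtain ⟨y, hy, hxy⟩ := Metric.mem_closure_iff.1 (hcd ⟨x, rfl⟩) η hη0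
      obtain ⟨z, hz1, hz2⟩ := exists_lift_of_AO T C hC hAO (x - pre y) η hη0
      refine ⟨x - z, ⟨y, hy, ?_⟩, ?_⟩
      · rw [eq_comm, Submodule.Quotient.eq, LinearMap.mem_ker]
        simp only [ContinuousLinearMap.coe_coe, map_sub] at hz2 ⊢
        rw [hz2]; abel
      · rw [dist_eq_norm, sub_sub_cancel]
        rw [map_sub, hpre y hy, ← dist_eq_norm] at hz1
        have h3 : (C + 1) * η = ε / 2 := by rw [hη]; field_simp
        have := mul_le_mul_of_nonneg_left hxy.le hC
        nlinarith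
    exact closure_mono (Set.image_preimage_subset _ _) (mem_closure_image hcont.continuousAt hx)
  · intro hfin
    exact hinf (LinearEquiv.finiteDimensional (LinearMap.quotKerEquivRange (T : X →ₗ[𝕜] F)))

end Crest.Agent.R114
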