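import Crest.Agent.R114.Params

/-!
# Row 114: basic properties of the norming set
-/

set_option autoImplicit false
set_option linter.unusedSectionVars false

open Filter Finset Topology

namespace Crest.Agent.R114

variable {Γ : Type} [LinearOrder Γ] {ρ : Rho Γ} {𝕜 : Type} [RCLike 𝕜]

/-! ## `SLt` -/

theorem SLt.mono {s s' t t' : Finset Γ} (h : SLt s t) (hs : s' ⊆ s) (ht : t' ⊆ t) : SLt s' t' :=
  fun δ hδ ξ hξ => h δ (hs hδ) ξ (ht hξ)

theorem SLt.trans {s t u : Finset Γ} (h : SLt s t) (h' : SLt t u) (ht : t.Nonempty) : SLt s u :=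
  fun δ hδ ξ hξ => let ⟨a, ha⟩ := ht; (h δ hδ a ha).trans (h' a ha ξ hξ)

theorem SLt.disjoint {s t : Finset Γ} (h : SLt s t) : Disjoint s t :=
  Finset.disjoint_left.2 fun a ha hb => lt_irrefl a (h a ha a hb)

theorem SLt.empty_left (t : Finset Γ) : SLt ∅ t := fun _ h => by simp at h

theorem SLt.empty_right (t : Finset Γ) : SLt t ∅ := fun _ _ _ h => by simp at h

/-! ## `res` -/

section res
variable {R : Type}

open Classical in
theorem res_apply [Zero R] (E : Set Γ) (w : Γ →₀ R) (δ : Γ) :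
    res E w δ = if δ ∈ E then w δ else 0 := by
  unfold res; rw [Finsupp.filter_apply]

theorem res_apply_of_mem [Zero R] {E : Set Γ} (w : Γ →₀ R) {δ : Γ} (h : δ ∈ E) :
    res E w δ = w δ := by rw [res_apply, if_pos h]

theorem res_apply_of_notMem [Zero R] {E : Set Γ} (w : Γ →₀ R) {δ : Γ} (h : δ ∉ E) :
    res E w δ = 0 := by rw [res_apply, if_neg h]

theorem mem_support_res [Zero R] {E : Set Γ} {w : Γ →₀ R} {δ : Γ} :
    δ ∈ (res E w).support ↔ δ ∈ E ∧ δ ∈ w.support := by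
  simp only [Finsupp.mem_support_iff, res_apply]
  by_cases h : δ ∈ E <;> simp [h]

theorem support_res_subset [Zero R] (E : Set Γ) (w : Γ →₀ R) : (res E w).support ⊆ w.support :=
  fun _ h => (mem_support_res.1 h).2

theorem coe_res [Zero R] (E : Set Γ) (w : Γ →₀ R) : (res E w : Γ → R) = E.indicator w := by
  funext δ; rw [res_apply]; by_cases h : δ ∈ E <;> simp [h]

theorem res_res [Zero R] (E E' : Set Γ) (w : Γ →₀ R) : res E (res E' w) = res (E' ∩ E) w := by
  ext δ; simp only [res_apply, Set.mem_inter_iff]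
  by_cases h : δ ∈ E <;> by_cases h' : δ ∈ E' <;> simp [h, h']

theorem res_univ [Zero R] (w : Γ →₀ R) : res Set.univ w = w := by
  ext δ; simp [res_apply]

theorem res_of_subset [Zero R] {E : Set Γ} {w : Γ →₀ R} (h : ∀ δ ∈ w.support, δ ∈ E) :
    res E w = w := by
  ext δ; rw [res_apply]
  split_ifs with h1
  · rfl
  · by_contra h2; exact h1 (h δ (Finsupp.mem_support_iff.2 (Ne.symm h2)))

theorem res_zero [Zero R] (E : Set Γ) : res E (0 : Γ →₀ R) = 0 := by
  ext δ; simp [res_apply]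

theorem res_add [AddZeroClass R] (E : Set Γ) (w w' : Γ →₀ R) :
    res E (w + w') = res E w + res E w' := by
  ext δ; simp only [res_apply, Finsupp.add_apply]; split_ifs <;> simp

theorem res_sum [AddCommMonoid R] {ι : Type*} (E : Set Γ) (s : Finset ι) (w : ι → Γ →₀ R) :
    res E (∑ i ∈ s, w i) = ∑ i ∈ s, res E (w i) := by
  classical
  induction s using Finset.induction_on with
  | empty => simp [res_zero]
  | insert a s ha ih => rw [sum_insert ha, sum_insert ha, res_add, ih]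

theorem res_smul [Semiring R] (E : Set Γ) (c : R) (w : Γ →₀ R) :
    res E (c • w) = c • res E w := by
  ext δ; simp only [res_apply, Finsupp.smul_apply]; split_ifs <;> simp

end res

/-! ## `act` -/

theorem act_eq_of_subset (w : Fn Γ) (a : Γ → 𝕜) {s : Finset Γ} (h : w.support ⊆ s) :
    act w a = ∑ δ ∈ s, (w δ : 𝕜) * a δ := by
  unfold act
  refine sum_subset h fun δ _ hδ => ?_
  rw [Finsupp.notMem_support_iff.1 hδ]; simp

theorem act_zero (a : Γ → 𝕜) : act (0 : Fn Γ) a = 0 := by simp [act]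

theorem act_add (w w' : Fn Γ) (a : Γ → 𝕜) : act (w + w') a = act w a + act w' a := by
  classical
  rw [act_eq_of_subset (w + w') a Finsupp.support_add,
    act_eq_of_subset w a (subset_union_left (s₂ := w'.support)),
    act_eq_of_subset w' a (subset_union_right (s₁ := w.support)), ← sum_add_distrib]
  refine sum_congr rfl fun δ _ => ?_
  simp [add_mul]

theorem act_smul (q : ℚ) (w : Fn Γ) (a : Γ → 𝕜) : act (q • w) a = (q : 𝕜) * act w a := by
  rw [act_eq_of_subset (q • w) a Finsupp.support_smul, act, mul_sum]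
  refine sum_congr rfl fun δ _ => ?_
  simp [mul_assoc]

theorem act_neg (w : Fn Γ) (a : Γ → 𝕜) : act (-w) a = -act w a := by
  have := act_smul (-1) w a
  simpa using this

theorem act_sub (w w' : Fn Γ) (a : Γ → 𝕜) : act (w - w') a = act w a - act w' a := by
  rw [sub_eq_add_neg, act_add, act_neg, ← sub_eq_add_neg]

theorem act_sum {ι : Type*} (s : Finset ι) (w : ι → Fn Γ) (a : Γ → 𝕜) :
    act (∑ i ∈ s, w i) a = ∑ i ∈ s, act (w i) a := by
  classical
  induction s using Finset.induction_on with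
  | empty => simp [act_zero]
  | insert b s hb ih => rw [sum_insert hb, sum_insert hb, act_add, ih]

theorem act_single (α : Γ) (q : ℚ) (a : Γ → 𝕜) : act (Finsupp.single α q) a = (q : 𝕜) * a α := by
  rw [act_eq_of_subset _ a Finsupp.support_single_subset]; simp

theorem act_congr (w : Fn Γ) {a a' : Γ → 𝕜} (h : ∀ δ ∈ w.support, a δ = a' δ) :
    act w a = act w a' :=
  sum_congr rfl fun δ hδ => by rw [h δ hδ]

/-- two functionals that agree where `a` is nonzero act in the same way -/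
theorem act_congr_left {w w' : Fn Γ} (a : Γ → 𝕜) (h : ∀ δ, a δ ≠ 0 → w δ = w' δ) :
    act w a = act w' a := by
  classical
  rw [act_eq_of_subset w a (subset_union_left (s₂ := w'.support)),
    act_eq_of_subset w' a (subset_union_right (s₁ := w.support))]
  refine sum_congr rfl fun δ _ => ?_
  by_cases h0 : a δ = 0
  · simp [h0]
  · rw [h δ h0]

theorem act_eq_zero (w : Fn Γ) {a : Γ → 𝕜} (h : ∀ δ ∈ w.support, a δ = 0) : act w a = 0 :=
  sum_eq_zero fun δ hδ => by rw [h δ hδ, mul_zero]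

theorem act_eq_zero_of_disjoint (w : Fn Γ) (y : Γ →₀ 𝕜) (h : Disjoint w.support y.support) :
    act w y = 0 :=
  act_eq_zero w fun _ hδ => Finsupp.notMem_support_iff.1 (Finset.disjoint_left.1 h hδ)

theorem exists_mem_of_act_ne_zero {w : Fn Γ} {y : Γ →₀ 𝕜} (h : act w y ≠ 0) :
    ∃ δ, δ ∈ w.support ∧ δ ∈ y.support := by
  by_contra h1
  push Not at h1
  exact h (act_eq_zero_of_disjoint w y (Finset.disjoint_left.2 fun δ hδ => h1 δ hδ))

theorem act_zero_right (w : Fn Γ) : act w (0 : Γ → 𝕜) = 0 := by simp [act]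

theorem act_add_right (w : Fn Γ) (a a' : Γ → 𝕜) : act w (a + a') = act w a + act w a' := by
  simp [act, mul_add, sum_add_distrib]

theorem act_sub_right (w : Fn Γ) (a a' : Γ → 𝕜) : act w (a - a') = act w a - act w a' := by
  simp [act, mul_sub, sum_sub_distrib]

theorem act_smul_right (w : Fn Γ) (c : 𝕜) (a : Γ → 𝕜) : act w (c • a) = c * act w a := by
  simp only [act, mul_sum, Pi.smul_apply, smul_eq_mul]
  exact sum_congr rfl fun δ _ => by ring

theorem act_sum_right {ι : Type*} (w : Fn Γ) (s : Finset ι) (a : ι → Γ → 𝕜) :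
    act w (∑ i ∈ s, a i) = ∑ i ∈ s, act w (a i) := by
  simp only [act, Finset.sum_apply, mul_sum]
  exact sum_comm

theorem act_fsum {ι : Type*} (w : Fn Γ) (s : Finset ι) (y : ι → Γ →₀ 𝕜) :
    act w (∑ i ∈ s, y i : Γ →₀ 𝕜) = ∑ i ∈ s, act w (y i) := by
  rw [Finsupp.coe_finsetSum, act_sum_right]

theorem act_fsmul (w : Fn Γ) (c : 𝕜) (y : Γ →₀ 𝕜) :
    act w (c • y : Γ →₀ 𝕜) = c * act w y := by
  rw [Finsupp.coe_smul, act_smul_right]

theorem act_res (E : Set Γ) (w : Fn Γ) (a : Γ → 𝕜) : act (res E w) a = act w (E.indicator a) := by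
  rw [act_eq_of_subset _ a (support_res_subset E w), act]
  refine sum_congr rfl fun δ _ => ?_
  rw [res_apply]
  by_cases h : δ ∈ E <;> simp [h]

theorem act_res_of_subset {E : Set Γ} (w : Fn Γ) {a : Γ → 𝕜} (h : ∀ δ, a δ ≠ 0 → δ ∈ E) :
    act (res E w) a = act w a :=
  act_congr_left a fun δ hδ => res_apply_of_mem w (h δ hδ)

theorem norm_ratCast' (q : ℚ) : ‖(q : 𝕜)‖ = |(q : ℝ)| := by
  rw [← RCLike.ofReal_ratCast, RCLike.norm_ofReal]

theorem norm_act_le_l1 (w : Fn Γ) (μ : ℝ) (hw : ∀ δ, |(w δ : ℝ)| ≤ μ) (y : Γ →₀ 𝕜) :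
    ‖act w y‖ ≤ μ * l1 y := by
  classical
  rw [act_eq_of_subset w y (subset_union_left (s₂ := y.support))]
  rw [← sum_subset (subset_union_right (s₁ := w.support) (s₂ := y.support))
    (fun δ _ hδ => by rw [Finsupp.notMem_support_iff.1 hδ, mul_zero])]
  refine (norm_sum_le _ _).trans ?_
  rw [l1, mul_sum]
  refine sum_le_sum fun δ _ => ?_
  rw [norm_mul, norm_ratCast']
  exact mul_le_mul_of_nonneg_right (hw δ) (norm_nonneg _)

theorem l1_nonneg (y : Γ →₀ 𝕜) : 0 ≤ l1 y := sum_nonneg fun _ _ => norm_nonneg _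

/-! ## closure properties of `T` -/

theorem T_wt_zero (j : ℕ) : T ρ (some j) 0 := by
  have := T.avg (ρ := ρ) j 0 (fun _ => 0) (Nat.zero_le _) (by simp) (by simp)
  simpa using this

theorem T_zero : T ρ none 0 := T.ofWt 0 0 (T_wt_zero 0)

theorem T_neg {o : Option ℕ} {w : Fn Γ} (h : T ρ o w) : T ρ o (-w) := by
  induction h with
  | ground α ε hε =>
    rw [← Finsupp.single_neg]
    exact T.ground α (-ε) (by rcases hε with h | h <;> simp [h])
  | ofWt j w _ ih => exact T.ofWt j _ ih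
  | avg j n u hn _ hs ih =>
    have := T.avg (ρ := ρ) j n (fun i => -u i) hn ih (by simpa using hs)
    simpa [sum_neg_distrib] using this
  | sum M t ε hw hc hE hε hM hd _ =>
    have := T.sum (ρ := ρ) M t (fun l => -ε l) hw hc hE
      (fun l hl => by rcases hε l hl with h | h <;> simp [h]) hM hd
    simpa [sum_neg_distrib] using this

theorem T_sign {o : Option ℕ} {w : Fn Γ} (h : T ρ o w) {ε : ℚ} (hε : ε = 1 ∨ ε = -1) :
    T ρ o (ε • w) := by
  rcases hε with h1 | h1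
  · simpa [h1] using h
  · simpa [h1] using T_neg h

/-- a segment with a smaller restriction set -/
def Seg.inter (t : Seg Γ) (E : Set Γ) : Seg Γ := { t with E := t.E ∩ E }

theorem Seg.inter_val (t : Seg Γ) (E : Set Γ) : (t.inter E).val = res E t.val := by
  simp only [Seg.val, Seg.inter, res_sum, res_res]

theorem T_res {o : Option ℕ} {w : Fn Γ} (h : T ρ o w) {E : Set Γ} (hE : E.OrdConnected) :
    T ρ o (res E w) := by
  induction h with
  | ground α ε hε =>
    by_cases hα : α ∈ E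
    · rw [res_of_subset]
      · exact T.ground α ε hε
      · intro δ hδ
        rw [Finset.mem_singleton.1 (Finsupp.support_single_subset hδ)]; exact hα
    · have : res E (Finsupp.single α ε) = 0 := by
        ext δ; rw [res_apply]
        split_ifs with h1
        · rw [Finsupp.single_eq_of_ne (by rintro rfl; exact hα h1)]; rfl
        · rfl
      rw [this]; exact T_zero
  | ofWt j w _ ih => exact T.ofWt j _ ih
  | avg j n u hn _ hs ih =>
    rw [res_smul, res_sum]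
    exact T.avg j n (fun i => res E (u i)) hn ih fun i i' h1 h2 =>
      (hs i i' h1 h2).mono (support_res_subset _ _) (support_res_subset _ _)
  | sum M t ε hw hc hE' hε hM hd _ =>
    rw [res_sum]
    simp only [res_smul, ← Seg.inter_val]
    exact T.sum M (fun l => (t l).inter E) ε hw hc (fun l hl => (hE' l hl).inter hE) hε hM hd

/-- inversion for weighted functionals -/
theorem T_wt_inv {j : ℕ} {w : Fn Γ} (h : T ρ (some j) w) :
    ∃ (n : ℕ) (u : ℕ → Fn Γ), n ≤ nn j ∧ (∀ i < n, T ρ none (u i)) ∧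
      (∀ i i', i < i' → i' < n → SLt (u i).support (u i').support) ∧
      w = ((mm j : ℚ)⁻¹) • ∑ i ∈ range n, u i := by
  cases h with
  | avg j n u hn hu hs => exact ⟨n, u, hn, hu, hs, rfl⟩

/-- inversion for general functionals -/
theorem T_none_inv {w : Fn Γ} (h : T ρ none w) :
    (∃ α ε, (ε = 1 ∨ ε = -1) ∧ w = Finsupp.single α ε) ∨ (∃ j, T ρ (some j) w) ∨
    ∃ (M : ℕ) (t : ℕ → Seg Γ) (ε : ℕ → ℚ), (∀ l < M, (t l).OK ρ) ∧
      (∀ l < M, ε l = 1 ∨ ε l = -1) ∧ (∀ l < M, (t l).Above M) ∧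
      (∀ l < M, ∀ l' < M, l ≠ l' → ∀ i ∈ Ico (t l).a (t l).n, ∀ i' ∈ Ico (t l').a (t l').n,
        (t l).j i ≠ (t l').j i') ∧ w = ∑ l ∈ range M, ε l • (t l).val := by
  cases h with
  | ground α ε hε => exact Or.inl ⟨α, ε, hε, rfl⟩
  | ofWt j w h => exact Or.inr (Or.inl ⟨j, h⟩)
  | sum M t ε hw hc hE hε hM hd =>
    exact Or.inr (Or.inr ⟨M, t, ε, fun l hl => ⟨⟨hw l hl, hc l hl⟩, hE l hl⟩, hε, hM, hd, rfl⟩)

theorem T_sum' (M : ℕ) (t : ℕ → Seg Γ) (ε : ℕ → ℚ) (hok : ∀ l < M, (t l).OK ρ)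
    (hε : ∀ l < M, ε l = 1 ∨ ε l = -1) (hM : ∀ l < M, (t l).Above M)
    (hd : ∀ l < M, ∀ l' < M, l ≠ l' → ∀ i ∈ Ico (t l).a (t l).n, ∀ i' ∈ Ico (t l').a (t l').n,
      (t l).j i ≠ (t l').j i') : T ρ none (∑ l ∈ range M, ε l • (t l).val) :=
  T.sum M t ε (fun l hl => (hok l hl).1.1) (fun l hl => (hok l hl).1.2) (fun l hl => (hok l hl).2)
    hε hM hd

theorem Seg.OK.T_val {t : Seg Γ} (h : t.OK ρ) (h1 : t.Above 1) : T ρ none t.val := by
  have := T_sum' (ρ := ρ) 1 (fun _ => t) (fun _ => 1) (fun _ _ => h) (fun _ _ => Or.inl rfl)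
    (fun _ _ => h1) (fun l hl l' hl' hne => by omega)
  simpa using this

theorem Seg.OK.T_comp {t : Seg Γ} (h : t.OK ρ) {i : ℕ} (hi : i < t.n) :
    T ρ (some (t.j i)) (res t.E (t.w i)) := T_res (h.1.1 i hi) h.2

theorem Comb.injOn {n : ℕ} {w : ℕ → Fn Γ} {j : ℕ → ℕ} (h : Comb ρ n w j) :
    Set.InjOn j (Set.Iio n) := by
  intro a ha b hb hab
  rcases lt_trichotomy a b with h1 | h1 | h1
  · exact absurd hab (h.mono a b h1 hb).ne
  · exact h1
  · exact absurd hab (h.mono b a h1 ha).ne'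

theorem Comb.le_iff {n : ℕ} {w : ℕ → Fn Γ} {j : ℕ → ℕ} (h : Comb ρ n w j) {a b : ℕ}
    (ha : a < n) (hb : b < n) : j a ≤ j b ↔ a ≤ b := by
  constructor
  · intro h1; by_contra h2; exact absurd (h.mono b a (by omega) ha) (by omega)
  · intro h1
    rcases h1.eq_or_lt with h2 | h2
    · rw [h2]
    · exact (h.mono a b h2 hb).le

theorem Comb.self_le {n : ℕ} {w : ℕ → Fn Γ} {j : ℕ → ℕ} (h : Comb ρ n w j) {i : ℕ} (hi : i < n) :
    i ≤ j i := by
  induction i with
  | zero => exact Nat.zero_le _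
  | succ i ih => have := h.mono i (i + 1) (by omega) hi; have := ih (by omega); omega

theorem Comb.even {n : ℕ} {w : ℕ → Fn Γ} {j : ℕ → ℕ} (h : Comb ρ n w j) {i : ℕ} (hi : i < n) :
    Even (j i) := by
  obtain ⟨p, -, -, hp⟩ := h.code i hi
  rw [hp]; exact even_two_mul _

/-- the index set of all components of a sum of segments -/
def comps (M : ℕ) (t : ℕ → Seg Γ) : Finset (Σ _ : ℕ, ℕ) :=
  (range M).sigma fun l => Ico (t l).a (t l).n

theorem mem_comps {M : ℕ} {t : ℕ → Seg Γ} {c : Σ _ : ℕ, ℕ} :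
    c ∈ comps M t ↔ c.1 < M ∧ c.2 ∈ Ico (t c.1).a (t c.1).n := by
  simp [comps]

theorem comps_injOn {M : ℕ} {t : ℕ → Seg Γ} (hc : ∀ l < M, Comb ρ (t l).n (t l).w (t l).j)
    (hd : ∀ l < M, ∀ l' < M, l ≠ l' → ∀ i ∈ Ico (t l).a (t l).n, ∀ i' ∈ Ico (t l').a (t l').n,
      (t l).j i ≠ (t l').j i') :
    Set.InjOn (fun c : (Σ _ : ℕ, ℕ) => (t c.1).j c.2) (comps M t) := by
  rintro ⟨l, i⟩ h1 ⟨l', i'⟩ h2 he
  have h1 := mem_comps.1 h1
  have h2 := mem_comps.1 h2
  simp only at h1 h2 he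
  by_cases hl : l = l'
  · subst hl
    have := (hc l h1.1).injOn (mem_Ico.1 h1.2).2 (mem_Ico.1 h2.2).2 he
    rw [this]
  · exact absurd he (hd l h1.1 l' h2.1 hl i h1.2 i' h2.2)

theorem sum_val_eq (M : ℕ) (t : ℕ → Seg Γ) (ε : ℕ → ℚ) :
    ∑ l ∈ range M, ε l • (t l).val =
      ∑ c ∈ comps M t, ε c.1 • res (t c.1).E ((t c.1).w c.2) := by
  rw [comps, sum_sigma]
  exact sum_congr rfl fun l _ => by rw [Seg.val, smul_sum]

/-- sup bound -/
theorem T_sup {o : Option ℕ} {w : Fn Γ} (h : T ρ o w) (δ : Γ) :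
    |(w δ : ℝ)| ≤ o.elim 1 fun j => 1 / (mm j : ℝ) := by
  induction h with
  | ground α ε hε =>
    simp only [Option.elim, Finsupp.single_apply]
    split_ifs
    · rcases hε with h | h <;> simp [h]
    · simp
  | ofWt j w _ ih =>
    refine ih.trans ?_
    simp only [Option.elim]
    have : (1 : ℝ) ≤ mm j := by exact_mod_cast mm_pos j
    rw [div_le_one (mm_posR j)]; exact this
  | avg j n u hn _ hs ih =>
    simp only [Option.elim] at ih ⊢
    have h1 : |((∑ i ∈ range n, u i) δ : ℝ)| ≤ 1 := by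
      rw [Finsupp.finsetSum_apply]
      by_cases h0 : ∃ i < n, δ ∈ (u i).support
      · obtain ⟨i, hi, hδ⟩ := h0
        rw [sum_eq_single i]
        · exact ih i hi
        · intro b hb hbi
          by_contra h2
          have hb' : δ ∈ (u b).support := Finsupp.mem_support_iff.2 h2
          rcases lt_or_gt_of_ne hbi with h3 | h3
          · exact lt_irrefl _ (hs b i h3 hi δ hb' δ hδ)
          · exact lt_irrefl _ (hs i b h3 (mem_range.1 hb) δ hδ δ hb')
        · intro h2; exact absurd (mem_range.2 hi) h2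
      · push Not at h0
        rw [sum_eq_zero fun i hi => Finsupp.notMem_support_iff.1 (h0 i (mem_range.1 hi))]
        simp
    rw [Finsupp.smul_apply, smul_eq_mul, Rat.cast_mul, Rat.cast_inv, Rat.cast_natCast,
      abs_mul, abs_inv, Nat.abs_cast, one_div]
    have := mm_posR j
    exact mul_le_of_le_one_right (by positivity) h1
  | sum M t ε hw hc hE hε hM hd ih =>
    simp only [Option.elim] at ih ⊢
    rw [sum_val_eq, Finsupp.finsetSum_apply]
    push_cast
    refine (abs_sum_le_sum_abs _ _).trans ?_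
    have h1 : ∀ c ∈ comps M t, |((ε c.1 • res (t c.1).E ((t c.1).w c.2)) δ : ℝ)| ≤
        1 / mm ((t c.1).j c.2) := by
      intro c hc'
      have hc' := mem_comps.1 hc'
      have h2 := ih c.1 hc'.1 c.2 (mem_Ico.1 hc'.2).2
      rw [Finsupp.smul_apply, smul_eq_mul]
      push_cast
      rw [abs_mul, res_apply]
      have h3 : |(ε c.1 : ℝ)| = 1 := by rcases hε c.1 hc'.1 with h | h <;> simp [h]
      rw [h3, one_mul]
      split_ifs
      · exact h2
      · have := mm_posR ((t c.1).j c.2); simp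
    refine (sum_le_sum h1).trans ?_
    have := sum_inv_mm_of_injOn (comps M t) (fun c => (t c.1).j c.2) 0 (comps_injOn hc hd)
      (fun _ _ => Nat.zero_le _)
    rw [two_div_mm_zero] at this
    linarith

theorem T_sup_none {w : Fn Γ} (h : T ρ none w) (δ : Γ) : |(w δ : ℝ)| ≤ 1 := T_sup h δ

theorem T_sup_wt {j : ℕ} {w : Fn Γ} (h : T ρ (some j) w) (δ : Γ) : |(w δ : ℝ)| ≤ 1 / mm j :=
  T_sup h δ

theorem act_le_l1 {w : Fn Γ} (h : T ρ none w) (y : Γ →₀ 𝕜) : ‖act w y‖ ≤ l1 y := by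
  simpa using norm_act_le_l1 w 1 (T_sup_none h) y

theorem act_le_l1_wt {j : ℕ} {w : Fn Γ} (h : T ρ (some j) w) (y : Γ →₀ 𝕜) :
    ‖act w y‖ ≤ l1 y * (1 / mm j) := by
  rw [mul_comm]; exact norm_act_le_l1 w _ (T_sup_wt h) y

/-! ## `NLe`, `NGe` -/

theorem NLe.nonneg {a : Γ → 𝕜} {C : ℝ} (h : NLe ρ a C) : 0 ≤ C :=
  (norm_nonneg _).trans (h 0 T_zero)

theorem NLe.mono {a : Γ → 𝕜} {C C' : ℝ} (h : NLe ρ a C) (hC : C ≤ C') : NLe ρ a C' :=
  fun w hw => (h w hw).trans hC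

theorem NLe.apply {a : Γ → 𝕜} {C : ℝ} (h : NLe ρ a C) (δ : Γ) : ‖a δ‖ ≤ C := by
  have := h _ (T.ground δ 1 (Or.inl rfl))
  rwa [act_single, Rat.cast_one, one_mul] at this

theorem NLe.wt {a : Γ → 𝕜} {C : ℝ} (h : NLe ρ a C) {j : ℕ} {w : Fn Γ} (hw : T ρ (some j) w) :
    ‖act w a‖ ≤ C := h w (T.ofWt j w hw)

theorem NLe.add {a a' : Γ → 𝕜} {C C' : ℝ} (h : NLe ρ a C) (h' : NLe ρ a' C') :
    NLe ρ (a + a') (C + C') := fun w hw => by
  rw [act_add_right]; exact (norm_add_le _ _).trans (add_le_add (h w hw) (h' w hw))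

theorem NLe.smul {a : Γ → 𝕜} {C : ℝ} (h : NLe ρ a C) (c : 𝕜) : NLe ρ (c • a) (‖c‖ * C) :=
  fun w hw => by
    rw [act_smul_right, norm_mul]; exact mul_le_mul_of_nonneg_left (h w hw) (norm_nonneg _)

theorem NLe.indicator {a : Γ → 𝕜} {C : ℝ} (h : NLe ρ a C) {E : Set Γ} (hE : E.OrdConnected) :
    NLe ρ (E.indicator a) C := fun w hw => by
  rw [← act_res]; exact h _ (T_res hw hE)

theorem NLe_l1 (y : Γ →₀ 𝕜) : NLe ρ y (l1 y) := fun _ hw => act_le_l1 hw y

theorem NLe_fsum {ι : Type*} (s : Finset ι) (y : ι → Γ →₀ 𝕜) (C : ι → ℝ)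
    (h : ∀ i ∈ s, NLe ρ (y i) (C i)) : NLe ρ (∑ i ∈ s, y i : Γ →₀ 𝕜) (∑ i ∈ s, C i) :=
  fun w hw => by
    rw [act_fsum]; exact (norm_sum_le _ _).trans (sum_le_sum fun i hi => h i hi w hw)

theorem NLe_or_NGe (a : Γ → 𝕜) (c : ℝ) : NLe ρ a c ∨ NGe ρ a c := by
  by_cases h : NGe ρ a c
  · exact Or.inr h
  · left
    intro w hw
    by_contra h1
    exact h ⟨w, hw, (not_le.1 h1).le⟩

theorem NGe.ne_zero {y : Γ →₀ 𝕜} {c : ℝ} (h : NGe ρ y c) (hc : 0 < c) : y ≠ 0 := by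
  rintro rfl
  obtain ⟨w, -, hw⟩ := h
  rw [Finsupp.coe_zero, act_zero_right, norm_zero] at hw
  linarith

/-- normalisation of a nonzero finitely supported vector -/
theorem exists_normalize (y : Γ →₀ 𝕜) (hy : y ≠ 0) :
    ∃ c : 𝕜, c ≠ 0 ∧ NLe ρ (c • y : Γ →₀ 𝕜) 1 ∧ NGe ρ (c • y : Γ →₀ 𝕜) (1 / 2) := by
  set S : Set ℝ := {r | ∃ w, T ρ none w ∧ r = ‖act w y‖} with hS
  have hbdd : BddAbove S := ⟨l1 y, by rintro _ ⟨w, hw, rfl⟩; exact act_le_l1 hw y⟩
  have hne : S.Nonempty := ⟨_, 0, T_zero, rfl⟩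
  have hle : NLe ρ y (sSup S) := fun w hw => le_csSup hbdd ⟨w, hw, rfl⟩
  obtain ⟨δ, hδ⟩ := Finsupp.ne_iff.1 hy
  have hpos : 0 < sSup S := (norm_pos_iff.2 (by simpa using hδ)).trans_le (hle.apply δ)
  obtain ⟨_, ⟨w, hw, rfl⟩, h1⟩ := exists_lt_of_lt_csSup hne (half_lt_self hpos)
  have hn : ‖(((sSup S)⁻¹ : ℝ) : 𝕜)‖ = (sSup S)⁻¹ := by
    rw [RCLike.norm_ofReal, abs_of_pos (inv_pos.2 hpos)]
  refine ⟨((sSup S)⁻¹ : ℝ), by simpa using hpos.ne', ?_, w, hw, ?_⟩
  · have := hle.smul (((sSup S)⁻¹ : ℝ) : 𝕜)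
    rw [hn, inv_mul_cancel₀ hpos.ne'] at this
    rw [Finsupp.coe_smul]; exact this
  · rw [act_fsmul, norm_mul, hn, inv_mul_eq_div, le_div_iff₀ hpos]
    linarith

/-! ## signs -/

theorem exists_signs (c : ℕ → 𝕜) (n : ℕ) :
    ∃ ε : ℕ → ℚ, (∀ i, ε i = 1 ∨ ε i = -1) ∧
      ∑ i ∈ range n, ‖c i‖ ≤ 2 * ‖∑ i ∈ range n, (ε i : 𝕜) * c i‖ := by
  have key : ∀ f : 𝕜 →+ ℝ, (∀ z, |f z| ≤ ‖z‖) → ∃ ε : ℕ → ℚ, (∀ i, ε i = 1 ∨ ε i = -1) ∧
      ∑ i ∈ range n, |f (c i)| ≤ ‖∑ i ∈ range n, (ε i : 𝕜) * c i‖ := by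
    intro f hf
    refine ⟨fun i => if 0 ≤ f (c i) then 1 else -1, fun i => by dsimp only; split_ifs <;> simp, ?_⟩
    refine le_trans (le_of_eq ?_) ((le_abs_self _).trans (hf _))
    rw [map_sum]
    refine sum_congr rfl fun i _ => ?_
    dsimp only
    split_ifs with h
    · simp [abs_of_nonneg h]
    · simp [abs_of_neg (not_le.1 h)]
  obtain ⟨ε1, h1, h1'⟩ := key RCLike.re RCLike.abs_re_le_norm
  obtain ⟨ε2, h2, h2'⟩ := key RCLike.im RCLike.abs_im_le_norm
  have h3 : ∑ i ∈ range n, ‖c i‖ ≤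
      ∑ i ∈ range n, |RCLike.re (c i)| + ∑ i ∈ range n, |RCLike.im (c i)| := by
    rw [← sum_add_distrib]
    refine sum_le_sum fun i _ => ?_
    calc ‖c i‖ = ‖((RCLike.re (c i) : ℝ) : 𝕜) + (RCLike.im (c i) : ℝ) * RCLike.I‖ := by
          rw [RCLike.re_add_im]
      _ ≤ ‖((RCLike.re (c i) : ℝ) : 𝕜)‖ + ‖((RCLike.im (c i) : ℝ) : 𝕜) * RCLike.I‖ :=
          norm_add_le _ _
      _ ≤ _ := by
          rw [norm_mul, RCLike.norm_ofReal, RCLike.norm_ofReal]
          have : ‖(RCLike.I : 𝕜)‖ ≤ 1 := by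
            rcases RCLike.I_eq_zero_or_im_I_eq_one (K := 𝕜) with h | h
            · simp [h]
            · rw [RCLike.norm_I_of_ne_zero (by rintro h0; simp [h0] at h)]
          nlinarith [abs_nonneg (RCLike.im (c i))]
  rcases le_total (∑ i ∈ range n, |RCLike.re (c i)|) (∑ i ∈ range n, |RCLike.im (c i)|) with h | h
  · exact ⟨ε2, h2, by linarith⟩
  · exact ⟨ε1, h1, by linarith⟩

/-- sums of `M` segments with disjoint weights `≥ M` -/
theorem sum_segs_le {a : Γ → 𝕜} {C : ℝ} (ha : NLe ρ a C) (M : ℕ) (t : ℕ → Seg Γ)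
    (hok : ∀ l < M, (t l).OK ρ) (hM : ∀ l < M, (t l).Above M)
    (hd : ∀ l < M, ∀ l' < M, l ≠ l' → ∀ i ∈ Ico (t l).a (t l).n, ∀ i' ∈ Ico (t l').a (t l').n,
      (t l).j i ≠ (t l').j i') : ∑ l ∈ range M, ‖act (t l).val a‖ ≤ 2 * C := by
  obtain ⟨ε, hε, h⟩ := exists_signs (fun l => act (t l).val a) M
  have := ha _ (T_sum' M t ε hok (fun l _ => hε l) hM hd)
  rw [act_sum] at this
  simp only [act_smul] at this
  linarith

/-- signed averages of successive functionals -/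
theorem exists_avg (j n : ℕ) (u : ℕ → Fn Γ) (hn : n ≤ nn j) (hu : ∀ i < n, T ρ none (u i))
    (hs : ∀ i i', i < i' → i' < n → SLt (u i).support (u i').support) (a : Γ → 𝕜) :
    ∃ w, T ρ (some j) w ∧ (∑ i ∈ range n, ‖act (u i) a‖) / (2 * mm j) ≤ ‖act w a‖ ∧
      ∀ δ ∈ w.support, ∃ i < n, δ ∈ (u i).support := by
  classical
  obtain ⟨ε, hε, h⟩ := exists_signs (fun i => act (u i) a) n
  refine ⟨_, T.avg j n (fun i => ε i • u i) hn (fun i hi => T_sign (hu i hi) (hε i))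
    (fun i i' h1 h2 => (hs i i' h1 h2).mono Finsupp.support_smul Finsupp.support_smul), ?_, ?_⟩
  · rw [act_smul, act_sum]
    simp only [act_smul]
    rw [norm_mul]
    have h1 : ‖(((mm j : ℚ)⁻¹ : ℚ) : 𝕜)‖ = 1 / mm j := by
      push_cast; simp
    rw [h1, div_le_iff₀ (by have := mm_posR j; positivity)]
    have := mm_posR j
    calc _ ≤ _ := h
      _ = _ := by field_simp
  · intro δ hδ
    have h1 := Finsupp.support_finsetSum (Finsupp.support_smul hδ)
    obtain ⟨i, hi, h2⟩ := mem_biUnion.1 h1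
    exact ⟨i, mem_range.1 hi, Finsupp.support_smul h2⟩

/-- the order-convex hull of a finite set -/
def hull (s : Finset Γ) : Set Γ := {δ | (∃ ξ ∈ s, ξ ≤ δ) ∧ ∃ ξ ∈ s, δ ≤ ξ}

theorem hull_ordConnected (s : Finset Γ) : (hull s).OrdConnected :=
  ⟨fun _ ⟨⟨ξ, h1, h2⟩, _⟩ _ ⟨_, ⟨ξ', h3, h4⟩⟩ _ hz => ⟨⟨ξ, h1, h2.trans hz.1⟩, ξ', h3, hz.2.trans h4⟩⟩

theorem mem_hull_of_mem {s : Finset Γ} {δ : Γ} (h : δ ∈ s) : δ ∈ hull s :=
  ⟨⟨δ, h, le_rfl⟩, δ, h, le_rfl⟩

theorem SLt.hull {s t : Finset Γ} (h : SLt s t) {δ ξ : Γ} (hδ : δ ∈ hull s) (hξ : ξ ∈ hull t) :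
    δ < ξ := by
  obtain ⟨-, a, ha, h1⟩ := hδ
  obtain ⟨⟨b, hb, h2⟩, -⟩ := hξ
  exact h1.trans_lt ((h a ha b hb).trans_le h2)

/-- The lower estimate for successive vectors. -/
theorem lower_est (j n : ℕ) (z : ℕ → Γ →₀ 𝕜) (c : ℝ) (hn : n ≤ nn j)
    (hs : ∀ i i', i < i' → i' < n → SLt (z i).support (z i').support)
    (hz : ∀ i < n, NGe ρ (z i) c) :
    ∃ w, T ρ (some j) w ∧ n * c / (2 * mm j) ≤ ‖act w (∑ i ∈ range n, z i : Γ →₀ 𝕜)‖ ∧
      ∀ δ ∈ w.support, ∃ i < n, δ ∈ hull (z i).support := by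
  choose! u hu hc using hz
  obtain ⟨w, hw, h1, h2⟩ := exists_avg (ρ := ρ) j n (fun i => res (hull (z i).support) (u i)) hn
    (fun i hi => T_res (hu i hi) (hull_ordConnected _))
    (fun i i' h1 h2 δ hδ ξ hξ =>
      (hs i i' h1 h2).hull (mem_support_res.1 hδ).1 (mem_support_res.1 hξ).1)
    (∑ i ∈ range n, z i : Γ →₀ 𝕜)
  refine ⟨w, hw, le_trans ?_ h1, fun δ hδ => ?_⟩
  · have := mm_posR j
    gcongr
    calc (n : ℝ) * c = ∑ _i ∈ range n, c := by simp
      _ ≤ _ := sum_le_sum fun i hi => ?_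
    have hi := mem_range.1 hi
    rw [act_fsum, sum_eq_single i]
    · rw [act_res_of_subset]
      · exact hc i hi
      · intro δ hδ; exact mem_hull_of_mem (Finsupp.mem_support_iff.2 hδ)
    · intro b hb hbi
      refine act_eq_zero _ fun δ hδ => ?_
      by_contra h3
      have h4 : δ ∈ hull (z b).support := mem_hull_of_mem (Finsupp.mem_support_iff.2 h3)
      have h5 := (mem_support_res.1 hδ).1
      rcases lt_or_gt_of_ne hbi with h6 | h6
      · exact lt_irrefl _ ((hs b i h6 hi).hull h4 h5)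
      · exact lt_irrefl _ ((hs i b h6 (mem_range.1 hb)).hull h5 h4)
    · intro h3; exact absurd (mem_range.2 hi) h3
  · obtain ⟨i, hi, h3⟩ := h2 δ hδ
    exact ⟨i, hi, (mem_support_res.1 h3).1⟩

/-! ## sub-segments -/

/-- the sub-segment with index range `[a', n')` -/
def Seg.sub (t : Seg Γ) (a' n' : ℕ) : Seg Γ := { t with a := a', n := n' }

theorem Seg.OK.sub {t : Seg Γ} (h : t.OK ρ) (a' : ℕ) {n' : ℕ} (hn : n' ≤ t.n) :
    (t.sub a' n').OK ρ :=
  ⟨⟨fun i hi => h.1.1 i (lt_of_lt_of_le hi hn),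
    ⟨fun k i h1 h2 => h.1.2.succ k i h1 (lt_of_lt_of_le h2 hn),
     fun k i h1 h2 => h.1.2.mono k i h1 (lt_of_lt_of_le h2 hn),
     fun i hi => h.1.2.code i (lt_of_lt_of_le hi hn)⟩⟩, h.2⟩

/-- the members of a segment with weights in a window form a sub-segment -/
theorem Seg.OK.exists_window {t : Seg Γ} (h : t.OK ρ) (P : ℕ → Prop) [DecidablePred P]
    (hP : ∀ a b c, a ≤ b → b ≤ c → P a → P c → P b) :
    ∃ a' n', n' ≤ t.n ∧ Ico a' n' = (Ico t.a t.n).filter fun i => P (t.j i) := by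
  set S := (Ico t.a t.n).filter fun i => P (t.j i) with hS
  rcases S.eq_empty_or_nonempty with h0 | h0
  · exact ⟨0, 0, Nat.zero_le _, by simp [h0]⟩
  · have h1 := mem_filter.1 (S.min'_mem h0)
    have h2 := mem_filter.1 (S.max'_mem h0)
    have h1' := mem_Ico.1 h1.1
    have h2' := mem_Ico.1 h2.1
    refine ⟨S.min' h0, S.max' h0 + 1, h2'.2, ?_⟩
    ext i
    rw [mem_Ico]
    constructor
    · rintro ⟨h3, h4⟩
      have hi : i < t.n := by omega
      refine mem_filter.2 ⟨mem_Ico.2 ⟨by omega, hi⟩, hP _ _ _ ?_ ?_ h1.2 h2.2⟩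
      · exact (h.1.2.le_iff h1'.2 hi).2 h3
      · exact (h.1.2.le_iff hi h2'.2).2 (by omega)
    · intro hi
      exact ⟨S.min'_le i hi, Nat.lt_succ_of_le (S.le_max' i hi)⟩

/-- the segment of a branch -/
def Branch.seg (b : Branch ρ) (a n : ℕ) : Seg Γ := ⟨n, a, b.w, b.j, Set.univ⟩

theorem Branch.seg_ok (b : Branch ρ) (a n : ℕ) : (b.seg a n).OK ρ :=
  ⟨b.spec n, Set.ordConnected_univ⟩

theorem Branch.seg_val (b : Branch ρ) (a n : ℕ) : (b.seg a n).val = ∑ i ∈ Ico a n, b.w i := by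
  simp [Seg.val, Branch.seg, res_univ]

theorem Branch.wt (b : Branch ρ) (i : ℕ) : T ρ (some (b.j i)) (b.w i) :=
  (b.spec (i + 1)).1 i (by omega)

theorem Branch.strictMono (b : Branch ρ) : StrictMono b.j :=
  fun k i h => (b.spec (i + 1)).2.mono k i h (by omega)

theorem Branch.succ (b : Branch ρ) {k i : ℕ} (h : k < i) : SLt (b.w k).support (b.w i).support :=
  (b.spec (i + 1)).2.succ k i h (by omega)

/-- partial sums of a branch have norm at most `2` -/
theorem Branch.norm_psum_le (b : Branch ρ) {a : Γ → 𝕜} {C : ℝ} (ha : NLe ρ a C) (n : ℕ) :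
    ‖act (b.psum n) a‖ ≤ 2 * C := by
  rcases n with _ | n
  · simp only [Branch.psum, range_zero, sum_empty, act_zero, norm_zero]
    have := ha.nonneg; positivity
  · have h1 : b.psum (n + 1) = b.w 0 + (b.seg 1 (n + 1)).val := by
      rw [Branch.seg_val, Branch.psum, range_eq_Ico, sum_eq_sum_Ico_succ_bot (by omega)]
    have h2 := ha _ ((b.seg_ok 1 (n + 1)).T_val fun i hi =>
      (mem_Ico.1 hi).1.trans (b.strictMono.le_apply))
    have h3 := ha.wt (b.wt 0)
    rw [h1, act_add]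
    exact (norm_add_le _ _).trans (by linarith)

/-! ## successive sequences -/

theorem Succ.comp {y : ℕ → Γ →₀ 𝕜} (h : Succ y) {φ : ℕ → ℕ} (hφ : StrictMono φ) :
    Succ fun l => y (φ l) := fun _ _ hl => h _ _ (hφ hl)

theorem Succ.eventually_disjoint {y : ℕ → Γ →₀ 𝕜} (h : Succ y) (s : Finset Γ) :
    ∀ᶠ l in atTop, Disjoint s (y l).support := by
  have : ∀ δ ∈ s, ∀ᶠ l in atTop, δ ∉ (y l).support := by
    intro δ _
    by_cases h0 : ∃ l, δ ∈ (y l).support
    · obtain ⟨l, hl⟩ := h0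
      filter_upwards [eventually_gt_atTop l] with l' hl' h1
      exact lt_irrefl _ (h l l' hl' δ hl δ h1)
    · exact Eventually.of_forall fun l hl => h0 ⟨l, hl⟩
  filter_upwards [(eventually_all_finset s).2 this] with l hl
  exact Finset.disjoint_left.2 hl

theorem Branch.eventually_disjoint (b : Branch ρ) (s : Finset Γ) :
    ∀ᶠ i in atTop, Disjoint (b.w i).support s := by
  have : ∀ δ ∈ s, ∀ᶠ i in atTop, δ ∉ (b.w i).support := by
    intro δ _
    by_cases h0 : ∃ l, δ ∈ (b.w l).support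
    · obtain ⟨l, hl⟩ := h0
      filter_upwards [eventually_gt_atTop l] with l' hl' h1
      exact lt_irrefl _ (b.succ hl' δ hl δ h1)
    · exact Eventually.of_forall fun l hl => h0 ⟨l, hl⟩
  filter_upwards [(eventually_all_finset s).2 this] with l hl
  exact Finset.disjoint_right.2 hl

/-- on a finitely supported vector the partial sums of a branch are eventually constant -/
theorem Branch.psum_eventually_const (b : Branch ρ) (y : Γ →₀ 𝕜) :
    ∃ N, ∀ n, N ≤ n → act (b.psum n) y = act (b.psum N) y := by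
  obtain ⟨N, hN⟩ := eventually_atTop.1 (b.eventually_disjoint y.support)
  refine ⟨N, fun n hn => ?_⟩
  induction n, hn using Nat.le_induction with
  | base => rfl
  | succ n hn ih =>
    rw [← ih, Branch.psum, sum_range_succ, act_add, act_eq_zero_of_disjoint _ _ (hN n hn),
      add_zero, Branch.psum]

/-- dependent choice of a successive sequence beyond a given vector -/
theorem exists_succ_seq (V : Submodule 𝕜 (Γ →₀ 𝕜)) (P : ℕ → (Γ →₀ 𝕜) → Prop)
    (hP : ∀ n, ∀ z ∈ V, ∃ y ∈ V, y ≠ 0 ∧ SLt z.support y.support ∧ P n y) (z : Γ →₀ 𝕜)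
    (hz : z ∈ V) : ∃ y : ℕ → Γ →₀ 𝕜, (∀ n, y n ∈ V) ∧ (∀ n, y n ≠ 0) ∧ Succ y ∧
      (∀ n, SLt z.support (y n).support) ∧ ∀ n, P n (y n) := by
  choose f hfV hf0 hfs hfP using hP
  let g : ℕ → V := fun n => Nat.rec ⟨f 0 z hz, hfV 0 z hz⟩
    (fun k v => ⟨f (k + 1) v.1 v.2, hfV _ _ _⟩) n
  have h0 : ∀ n, (g n).1 ≠ 0 := fun n => by cases n <;> exact hf0 _ _ _
  have hne : ∀ n, (g n).1.support.Nonempty := fun n => Finsupp.support_nonempty_iff.2 (h0 n)
  have hstep : ∀ n, SLt (g n).1.support (g (n + 1)).1.support := fun n => hfs _ _ _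
  have hsucc : Succ fun n => (g n).1 := by
    intro l l' hl
    induction l', hl using Nat.le_induction with
    | base => exact hstep l
    | succ n _ ih => exact SLt.trans ih (hstep n) (hne n)
  refine ⟨fun n => (g n).1, fun n => (g n).2, h0, hsucc, fun n => ?_, fun n => ?_⟩
  · cases n with
    | zero => exact hfs _ _ _
    | succ n => exact SLt.trans (hfs 0 z hz) (hsucc 0 (n + 1) (by omega)) (hne 0)
  · cases n <;> exact hfP _ _ _

end Crest.Agent.R114
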