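import Crest.Agent.R114.DefsQ
import Crest.Agent.R114.AO

/-! # Row 114: the shrinking case -/

set_option autoImplicit false

open Filter Finset Topology

namespace Crest.Agent.R114

universe u

variable {𝕜 : Type} [RCLike 𝕜] {X : Type u} [NormedAddCommGroup X] [NormedSpace 𝕜 X]

/-- suppression -/
theorem casea_supp {h : ℕ → StrongDual 𝕜 X} (hK : KProp h) {A s : Finset ℕ} (hA : A ⊆ s)
    (a : ℕ → 𝕜) : ‖∑ j ∈ A, a j • h j‖ ≤ 4 * ‖∑ j ∈ s, a j • h j‖ := by
  obtain ⟨x, hx, h0, hle⟩ := hK A a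
  have e : (∑ j ∈ A, a j • h j) x = (∑ j ∈ s, a j • h j) x := by
    simp only [_root_.sum_apply, _root_.smul_apply]
    exact Finset.sum_subset hA fun j _ hj => by simp [h0 j hj]
  rw [e] at hle
  refine hle.trans (mul_le_mul_of_nonneg_left ?_ (by norm_num))
  exact ((∑ j ∈ s, a j • h j).le_opNorm x).trans (mul_le_of_le_one_right (norm_nonneg _) hx)

/-- the span of the `h j`, as a normed space -/
def CaseaH (h : ℕ → StrongDual 𝕜 X) : Type u := Submodule.span 𝕜 (Set.range h)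

noncomputable instance (h : ℕ → StrongDual 𝕜 X) : NormedAddCommGroup (CaseaH h) :=
  inferInstanceAs (NormedAddCommGroup (Submodule.span 𝕜 (Set.range h)))

noncomputable instance (h : ℕ → StrongDual 𝕜 X) : NormedSpace 𝕜 (CaseaH h) :=
  inferInstanceAs (NormedSpace 𝕜 (Submodule.span 𝕜 (Set.range h)))

/-- the inclusion of the span -/
noncomputable def caseaι (h : ℕ → StrongDual 𝕜 X) : CaseaH h →L[𝕜] X →L[𝕜] 𝕜 :=
  (Submodule.span 𝕜 (Set.range h)).subtypeL

theorem caseaι_norm (h : ℕ → StrongDual 𝕜 X) (φ : CaseaH h) : ‖caseaι h φ‖ = ‖φ‖ := rfl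

/-- the evaluation map into the dual of the span -/
noncomputable def caseaT (h : ℕ → StrongDual 𝕜 X) : X →L[𝕜] StrongDual 𝕜 (CaseaH h) :=
  (caseaι h).flip

theorem caseaT_apply (h : ℕ → StrongDual 𝕜 X) (x : X) (φ : CaseaH h) :
    caseaT h x φ = caseaι h φ x := rfl

theorem casea_rep (h : ℕ → StrongDual 𝕜 X) (φ : CaseaH h) :
    ∃ (s : Finset ℕ) (a : ℕ → 𝕜), caseaι h φ = ∑ j ∈ s, a j • h j := by
  obtain ⟨c, hc⟩ := Finsupp.mem_span_range_iff_exists_finsupp.1 φ.2
  exact ⟨c.support, c, hc.symm⟩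

theorem casea_mem (h : ℕ → StrongDual 𝕜 X) (s : Finset ℕ) (a : ℕ → 𝕜) :
    ∃ φ : CaseaH h, caseaι h φ = ∑ j ∈ s, a j • h j :=
  ⟨⟨_, Submodule.sum_mem _ fun j _ => Submodule.smul_mem _ _ (Submodule.subset_span ⟨j, rfl⟩)⟩,
    rfl⟩

theorem casea_head {h : ℕ → StrongDual 𝕜 X} (hK : KProp h) (x : X) (n : ℕ) {ε : ℝ} (hε : 0 < ε) :
    ∃ z : X, (∀ i, n ≤ i → h i z = 0) ∧ ‖z‖ ≤ 4 * ‖caseaT h x‖ ∧
      ∀ j < n, ‖h j z - h j x‖ < ε := by
  let Xn : Submodule 𝕜 X :=
    { carrier := {z | ∀ i, n ≤ i → h i z = 0}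
      add_mem' := fun {a b} ha hb i hi => by rw [map_add, ha i hi, hb i hi, add_zero]
      zero_mem' := fun i _ => map_zero _
      smul_mem' := fun c a ha i hi => by rw [map_smul, ha i hi, smul_zero] }
  let L : Xn →L[𝕜] (Fin n → 𝕜) := ContinuousLinearMap.pi fun j => (h j).comp Xn.subtypeL
  obtain ⟨z, hz1, hz2⟩ := hb_sep L (fun j : Fin n => h j x) (4 * ‖caseaT h x‖) (by positivity)
    (fun f => by
      let a : ℕ → 𝕜 := fun j => if hj : j < n then f (Pi.single ⟨j, hj⟩ 1) else 0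
      have hf : ∀ w : X, f (fun j : Fin n => h j w) = (∑ j ∈ range n, a j • h j) w := by
        intro w
        have e : (fun j : Fin n => h j w) = ∑ j : Fin n, h j w • Pi.single j (1 : 𝕜) := by
          ext i; simp [Finset.sum_apply, Pi.single_apply]
        rw [e, map_sum, _root_.sum_apply, Finset.sum_range]
        refine Finset.sum_congr rfl fun j _ => ?_
        simp [a, mul_comm]
      obtain ⟨x₀, hx₀, h0, hle⟩ := hK (range n) a
      have h1 : ‖∑ j ∈ range n, a j • h j‖ ≤ 4 * ‖f.comp L‖ := by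
        refine hle.trans (mul_le_mul_of_nonneg_left ?_ (by norm_num))
        rw [← hf]
        have := (f.comp L).le_opNorm ⟨x₀, fun i hi => h0 i (by simpa using hi)⟩
        exact this.trans (mul_le_of_le_one_right (norm_nonneg _) hx₀)
      obtain ⟨φ, hφ⟩ := casea_mem h (range n) a
      have h2 := (caseaT h x).le_opNorm φ
      rw [caseaT_apply, ← caseaι_norm, hφ] at h2
      rw [hf]
      refine h2.trans ?_
      calc _ ≤ ‖caseaT h x‖ * (4 * ‖f.comp L‖) := mul_le_mul_of_nonneg_left h1 (norm_nonneg _)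
        _ = _ := by ring) ε hε
  exact ⟨z, z.2, hz1, fun j hj => (norm_le_pi_norm (L z - fun j : Fin n => h j x) ⟨j, hj⟩).trans_lt hz2⟩

theorem casea_approx {h : ℕ → StrongDual 𝕜 X} (hK : KProp h) (h0 : ∀ i, h i ≠ 0)
    (hT : TailNull h) (x : X) {ε : ℝ} (hε : 0 < ε) :
    ∃ (n : ℕ) (z : X), (∀ i, n ≤ i → h i z = 0) ∧ ‖z‖ ≤ 4 * ‖caseaT h x‖ ∧
      ‖caseaT h z - caseaT h x‖ < ε := by
  classical
  obtain ⟨n, hn⟩ := hT x (ε / 16) (by positivity)
  set S : ℝ := ∑ j ∈ range n, 4 / ‖h j‖ with hS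
  have hS0 : 0 ≤ S := Finset.sum_nonneg fun j _ => by positivity
  set η : ℝ := ε / (4 * (S + 1)) with hη
  have hη0 : 0 < η := by positivity
  have hηS : η * S ≤ ε / 4 := by
    rw [hη, div_mul_eq_mul_div, div_le_div_iff₀ (by positivity) (by positivity)]
    nlinarith
  obtain ⟨z, hz0, hz1, hz2⟩ := casea_head hK x n hη0
  refine ⟨n, z, hz0, hz1, lt_of_le_of_lt (b := ε / 2) ?_ (by linarith)⟩
  refine ContinuousLinearMap.opNorm_le_bound _ (by positivity) fun φ => ?_
  obtain ⟨s, a, hφ⟩ := casea_rep h φ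
  have hnφ : ‖φ‖ = ‖∑ j ∈ s, a j • h j‖ := by rw [← hφ, caseaι_norm]
  rw [_root_.sub_apply, caseaT_apply, caseaT_apply, hnφ, hφ]
  set N := ‖∑ j ∈ s, a j • h j‖ with hN
  have hN0 : 0 ≤ N := norm_nonneg _
  rw [← Finset.sum_filter_add_sum_filter_not s (· < n)]
  have e2 : (∑ j ∈ s with ¬j < n, a j • h j) z = 0 := by
    simp only [_root_.sum_apply, _root_.smul_apply]
    exact Finset.sum_eq_zero fun j hj => by
      rw [hz0 j (not_lt.1 (Finset.mem_filter.1 hj).2), smul_zero]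
  have b2 : ‖(∑ j ∈ s with ¬j < n, a j • h j) x‖ ≤ ε / 16 * (4 * N) :=
    (hn _ a fun j hj => not_lt.1 (Finset.mem_filter.1 hj).2).trans
      (mul_le_mul_of_nonneg_left (casea_supp hK (Finset.filter_subset _ _) a) (by positivity))
  have b1 : ‖(∑ j ∈ s with j < n, a j • h j) z - (∑ j ∈ s with j < n, a j • h j) x‖ ≤
      η * S * N := by
    simp only [_root_.sum_apply, _root_.smul_apply]
    rw [← Finset.sum_sub_distrib]
    calc _ ≤ ∑ j ∈ s with j < n, ‖a j • h j z - a j • h j x‖ := norm_sum_le _ _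
      _ ≤ ∑ j ∈ s with j < n, η * (4 / ‖h j‖) * N := Finset.sum_le_sum fun j hj => by
          obtain ⟨hjs, hjn⟩ := Finset.mem_filter.1 hj
          have hp : 0 < ‖h j‖ := norm_pos_iff.2 (h0 j)
          have h1 := casea_supp hK (Finset.singleton_subset_iff.2 hjs) a
          rw [Finset.sum_singleton, norm_smul, ← hN] at h1
          have h2 : ‖a j‖ ≤ 4 / ‖h j‖ * N := by
            rw [div_mul_eq_mul_div, le_div_iff₀ hp]; exact h1
          rw [← smul_sub, norm_smul, mul_assoc, mul_comm η]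
          exact mul_le_mul h2 (hz2 j hjn).le (norm_nonneg _) (by positivity)
      _ ≤ ∑ j ∈ range n, η * (4 / ‖h j‖) * N :=
          Finset.sum_le_sum_of_subset_of_nonneg
            (fun j hj => Finset.mem_range.2 (Finset.mem_filter.1 hj).2) fun j _ _ => by positivity
      _ = η * S * N := by rw [hS, Finset.mul_sum, Finset.sum_mul]
  rw [_root_.add_apply, _root_.add_apply, e2, add_zero, ← sub_sub]
  refine (norm_sub_le _ _).trans ?_
  nlinarith [mul_le_mul_of_nonneg_right hηS hN0]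

theorem casea_dual {h : ℕ → StrongDual 𝕜 X} (hK : KProp h) (h0 : ∀ i, h i ≠ 0) (i : ℕ) :
    ∃ u : X, h i u = 1 ∧ ∀ j, j ≠ i → h j u = 0 := by
  obtain ⟨x, -, hx, hle⟩ := hK {i} fun _ => 1
  simp only [Finset.sum_singleton, one_smul] at hle
  have : h i x ≠ 0 := fun e => by
    rw [e, norm_zero, mul_zero] at hle
    exact h0 i (norm_le_zero_iff.1 hle)
  exact ⟨(h i x)⁻¹ • x, by simp [this], fun j hj => by simp [hx j (by simpa using hj)]⟩

theorem casea_inf {F : Type*} [NormedAddCommGroup F] [NormedSpace 𝕜 F] (T : X →L[𝕜] F)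
    (u : ℕ → X) (e : ℕ → F →L[𝕜] 𝕜) (h1 : ∀ i, e i (T (u i)) = 1)
    (h0 : ∀ i j, j ≠ i → e j (T (u i)) = 0) :
    ¬ FiniteDimensional 𝕜 (LinearMap.range (T : X →ₗ[𝕜] F)) := by
  intro hfin
  have hli : LinearIndependent 𝕜 fun i => (T : X →ₗ[𝕜] F).rangeRestrict (u i) := by
    refine LinearIndependent.of_comp (LinearMap.range (T : X →ₗ[𝕜] F)).subtype ?_
    refine linearIndependent_iff'.2 fun s g hg i hi => ?_
    have h2 := congrArg (e i) hg
    simp only [map_sum, map_smul, map_zero] at h2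
    rw [Finset.sum_eq_single i] at h2
    · simpa [h1] using h2
    · intro j _ hj; simp [h0 j i hj.symm]
    · intro hi'; exact absurd hi hi'
  exact Module.Finite.not_linearIndependent_of_infinite _ hli

theorem caseA [CompleteSpace X] : CaseAStmt 𝕜 X := by
  classical
  intro h hK h0 hT
  choose u hu1 hu0 using casea_dual hK h0
  refine hasSQ_of_AO (caseaT h) 4 (by norm_num) ?_ (fun x ε hε => ?_) ?_
  · refine (((Set.countable_range fun i => caseaT h (u i)).isSeparable.span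
      (R := 𝕜)).closure).mono ?_
    rintro _ ⟨x, rfl⟩
    refine Metric.mem_closure_iff.2 fun ε hε => ?_
    obtain ⟨n, z, hz0, -, hz⟩ := casea_approx hK h0 hT x hε
    refine ⟨caseaT h z, ?_, by rwa [dist_comm, dist_eq_norm]⟩
    have e : caseaT h z = ∑ j ∈ range n, h j z • caseaT h (u j) := by
      have hw : ∀ i, h i z = h i (∑ j ∈ range n, h j z • u j) := by
        intro i
        rw [map_sum, Finset.sum_eq_single i]
        · simp [hu1]
        · intro j _ hj; simp [hu0 j i hj.symm]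
        · intro hi; simp [hz0 i (by simpa using hi)]
      simp only [← map_smul, ← map_sum]
      ext φ
      obtain ⟨s, a, hφ⟩ := casea_rep h φ
      rw [caseaT_apply, caseaT_apply, hφ]
      simp only [_root_.sum_apply, _root_.smul_apply]
      exact Finset.sum_congr rfl fun j _ => by rw [← hw]
    rw [e]
    exact Submodule.sum_mem _ fun j _ => Submodule.smul_mem _ _ (Submodule.subset_span ⟨j, rfl⟩)
  · obtain ⟨n, z, -, hz1, hz⟩ := casea_approx hK h0 hT x hε
    exact ⟨z, by linarith, hz⟩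
  · choose φ hφ using fun i => casea_mem h {i} fun _ => 1
    simp only [Finset.sum_singleton, one_smul] at hφ
    exact casea_inf _ u (fun i => ContinuousLinearMap.apply 𝕜 𝕜 (φ i))
      (fun i => by rw [ContinuousLinearMap.apply_apply, caseaT_apply, hφ, hu1])
      (fun i j hj => by rw [ContinuousLinearMap.apply_apply, caseaT_apply, hφ, hu0 i j hj])

end Crest.Agent.R114
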