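import Crest.Agent.R114.AO

/-!
# Row 114: the criterion `CritStmt`
-/

set_option autoImplicit false

open Filter Finset Topology

namespace Crest.Agent.R114

universe u

/-- prefix-dependent choice -/
theorem crit_dc {α : Type*} [Nonempty α] (Q : ℕ → (ℕ → α) → α → Prop)
    (hQ : ∀ k (w w' : ℕ → α) a, (∀ i < k, w i = w' i) → Q k w a → Q k w' a)
    (h : ∀ k (w : ℕ → α), (∀ i < k, Q i w (w i)) → ∃ a, Q k w a) :
    ∃ w : ℕ → α, ∀ k, Q k w (w k) := by
  classical
  let W : ℕ → ℕ → α := fun n => Nat.rec (fun _ => Classical.arbitrary α)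
    (fun k V => Function.update V k (Classical.epsilon (Q k V))) n
  have hW : ∀ k, W (k + 1) = Function.update (W k) k (Classical.epsilon (Q k (W k))) :=
    fun k => rfl
  let w : ℕ → α := fun k => W (k + 1) k
  have hw : ∀ n i, i < n → W n i = w i := by
    intro n
    induction n with
    | zero => intro i hi; omega
    | succ n ih =>
      intro i hi
      rcases Nat.lt_succ_iff_lt_or_eq.1 hi with h1 | h1
      · rw [hW, Function.update_of_ne h1.ne]
        exact ih i h1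
      · subst h1; rfl
  refine ⟨w, fun k => ?_⟩
  induction k using Nat.strong_induction_on with
  | _ k ih =>
    have h1 : ∃ a, Q k (W k) a := by
      refine h k (W k) fun i hi => ?_
      rw [hw k i hi]
      exact hQ i w (W k) _ (fun j hj => (hw k j (hj.trans hi)).symm) (ih i hi)
    have h2 : w k = Classical.epsilon (Q k (W k)) := by
      show W (k + 1) k = _
      rw [hW, Function.update_self]
    rw [h2]
    exact hQ k (W k) w _ (fun j hj => hw k j hj) (Classical.epsilon_spec h1)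

variable {𝕜 : Type} [RCLike 𝕜] {X : Type u} [NormedAddCommGroup X] [NormedSpace 𝕜 X]

/-- one step of the construction of the biorthogonal system -/
theorem crit_step (g : ℕ → StrongDual 𝕜 X) (Y : Submodule 𝕜 X) (hg : ∀ n, ‖g n‖ = 1)
    (hY : Dense (Y : Set X)) (c : X → ℝ) (hc : ∀ y ∈ Y, ∀ n : ℕ, (n : ℝ) * ‖g n y‖ ≤ c y)
    (k : ℕ) (u : ℕ → X) (f : ℕ → StrongDual 𝕜 X) (hu : ∀ i < k, u i ∈ Y)
    (h1 : ∀ i < k, f i (u i) = 1) (h0 : ∀ i < k, ∀ j < k, i ≠ j → f i (u j) = 0) :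
    ∃ (v : X) (φ : StrongDual 𝕜 X), v ∈ Y ∧ φ v = 1 ∧ (∀ i < k, φ (u i) = 0 ∧ f i v = 0) ∧
      ∀ y ∈ Y, ‖φ y‖ * ‖v‖ ≤ (1 / 2) ^ k * (c y + ‖y‖) := by
  have hc0 : ∀ y ∈ Y, 0 ≤ c y := fun y hy => by simpa using hc y hy 0
  set C : ℝ := 3 * (1 + ∑ i ∈ range k, ‖f i‖ * ‖u i‖) with hC
  set K : ℝ := ∑ i ∈ range k, c (u i) * ‖f i‖ with hK
  have hS0 : 0 ≤ ∑ i ∈ range k, ‖f i‖ * ‖u i‖ := sum_nonneg fun i _ => by positivity
  have hC0 : 0 ≤ C := by positivity
  have hK0 : 0 ≤ K :=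
    sum_nonneg fun i hi => mul_nonneg (hc0 _ (hu i (mem_range.1 hi))) (norm_nonneg _)
  obtain ⟨n, hn⟩ := exists_nat_ge (2 ^ k * C * (1 + K) + 2 * K + 1)
  have hA : 0 ≤ 2 ^ k * C * (1 + K) := by positivity
  have hn0 : (0 : ℝ) < n := by linarith
  set ψ : StrongDual 𝕜 X := ∑ i ∈ range k, g n (u i) • f i with hψ
  have hψn : (n : ℝ) * ‖ψ‖ ≤ K := by
    calc (n : ℝ) * ‖ψ‖ ≤ n * ∑ i ∈ range k, ‖g n (u i)‖ * ‖f i‖ := by
          refine mul_le_mul_of_nonneg_left ((norm_sum_le _ _).trans (le_of_eq ?_)) hn0.le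
          exact sum_congr rfl fun i _ => norm_smul _ _
      _ = ∑ i ∈ range k, ((n : ℝ) * ‖g n (u i)‖) * ‖f i‖ := by
          rw [mul_sum]; exact sum_congr rfl fun i _ => by ring
      _ ≤ K := sum_le_sum fun i hi =>
          mul_le_mul_of_nonneg_right (hc _ (hu i (mem_range.1 hi)) n) (norm_nonneg _)
  have hψ2 : ‖ψ‖ ≤ 1 / 2 := by
    have : (n : ℝ) * ‖ψ‖ ≤ n * (1 / 2) := by linarith
    exact le_of_mul_le_mul_left this hn0
  set φ : StrongDual 𝕜 X := g n - ψ with hφ
  have hφn : 1 / 3 < ‖φ‖ := by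
    have := norm_sub_norm_le (g n) ψ
    rw [hg n] at this
    linarith
  have hφu : ∀ j < k, φ (u j) = 0 := by
    intro j hj
    rw [hφ, hψ, sub_apply, _root_.sum_apply,
      sum_eq_single j]
    · simp [h1 j hj]
    · intro i hi hij
      simp [h0 i (mem_range.1 hi) j hj hij]
    · intro h; exact absurd (mem_range.2 hj) h
  obtain ⟨x, hx1, hx2⟩ := φ.exists_lt_apply_of_lt_opNorm hφn
  have hopen : IsOpen {x : X | ‖x‖ < 1 ∧ 1 / 3 < ‖φ x‖} :=
    (isOpen_lt continuous_norm continuous_const).inter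
      (isOpen_lt continuous_const φ.continuous.norm)
  obtain ⟨y0, hy0, hy1, hy2⟩ := hY.exists_mem_open hopen ⟨x, hx1, hx2⟩
  have hne : φ y0 ≠ 0 := by
    intro h; rw [h, norm_zero] at hy2; linarith
  set v0 : X := (φ y0)⁻¹ • y0 with hv0
  have hv0Y : v0 ∈ Y := Y.smul_mem _ hy0
  have hv01 : φ v0 = 1 := by rw [hv0, map_smul, smul_eq_mul, inv_mul_cancel₀ hne]
  have hv0n : ‖v0‖ ≤ 3 := by
    rw [hv0, norm_smul, norm_inv]
    have hp : 0 < ‖φ y0‖ := by linarith
    rw [inv_mul_le_iff₀ hp]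
    linarith
  set v : X := v0 - ∑ i ∈ range k, f i v0 • u i with hv
  have hvn : ‖v‖ ≤ C := by
    have h2 : ‖∑ i ∈ range k, f i v0 • u i‖ ≤ ∑ i ∈ range k, 3 * (‖f i‖ * ‖u i‖) := by
      refine (norm_sum_le _ _).trans (sum_le_sum fun i _ => ?_)
      rw [norm_smul]
      have h3 : ‖f i v0‖ ≤ ‖f i‖ * 3 :=
        ((f i).le_opNorm v0).trans (mul_le_mul_of_nonneg_left hv0n (norm_nonneg _))
      have := mul_le_mul_of_nonneg_right h3 (norm_nonneg (u i))
      linarith
    rw [← mul_sum] at h2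
    have := norm_sub_le v0 (∑ i ∈ range k, f i v0 • u i)
    rw [hC]
    linarith
  refine ⟨v, φ, ?_, ?_, fun j hj => ⟨hφu j hj, ?_⟩, fun y hy => ?_⟩
  · exact Y.sub_mem hv0Y (Y.sum_mem fun i hi => Y.smul_mem _ (hu i (mem_range.1 hi)))
  · rw [hv, map_sub, hv01, map_sum, sum_eq_zero, sub_zero]
    intro i hi
    rw [map_smul, hφu i (mem_range.1 hi), smul_zero]
  · rw [hv, map_sub, map_sum, sum_eq_single j]
    · simp [h1 j hj]
    · intro i hi hij
      simp [h0 j hj i (mem_range.1 hi) hij.symm]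
    · intro h; exact absurd (mem_range.2 hj) h
  · have h2 : (n : ℝ) * ‖φ y‖ ≤ (1 + K) * (c y + ‖y‖) := by
      have h3 : ‖φ y‖ ≤ ‖g n y‖ + ‖ψ‖ * ‖y‖ := by
        rw [hφ, sub_apply]
        exact (norm_sub_le _ _).trans (by linarith [ψ.le_opNorm y])
      have h4 := mul_le_mul_of_nonneg_left h3 hn0.le
      have h5 := mul_le_mul_of_nonneg_right hψn (norm_nonneg y)
      have h6 := hc y hy n
      have h7 := hc0 y hy
      have h8 := mul_nonneg hK0 h7
      have h9 := norm_nonneg y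
      nlinarith
    have hB : 0 ≤ c y + ‖y‖ := add_nonneg (hc0 y hy) (norm_nonneg _)
    have h3 : (n : ℝ) * (‖φ y‖ * ‖v‖) ≤ C * (1 + K) * (c y + ‖y‖) := by
      calc (n : ℝ) * (‖φ y‖ * ‖v‖) = (n * ‖φ y‖) * ‖v‖ := by ring
        _ ≤ ((1 + K) * (c y + ‖y‖)) * C :=
          mul_le_mul h2 hvn (norm_nonneg _) (by positivity)
        _ = _ := by ring
    have h4 : C * (1 + K) ≤ n * (1 / 2) ^ k := by
      have h5 : (2 : ℝ) ^ k * (1 / 2) ^ k = 1 := by rw [← mul_pow]; norm_num
      have h6 : 2 ^ k * C * (1 + K) ≤ n := by linarith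
      have h7 := mul_le_mul_of_nonneg_right h6 (show (0 : ℝ) ≤ (1 / 2) ^ k by positivity)
      calc C * (1 + K) = (2 ^ k * (1 / 2) ^ k) * (C * (1 + K)) := by rw [h5, one_mul]
        _ = 2 ^ k * C * (1 + K) * (1 / 2) ^ k := by ring
        _ ≤ _ := h7
    have h5 := mul_le_mul_of_nonneg_right h4 hB
    have h6 : (n : ℝ) * (‖φ y‖ * ‖v‖) ≤ n * ((1 / 2) ^ k * (c y + ‖y‖)) := by
      calc _ ≤ _ := h3
        _ ≤ _ := h5
        _ = _ := by ring
    exact le_of_mul_le_mul_left h6 hn0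

theorem crit [CompleteSpace X] : CritStmt 𝕜 X := by
  intro g Y hg hY hYc
  choose! c hc using hYc
  obtain ⟨w, hw⟩ := crit_dc (α := X × StrongDual 𝕜 X)
    (fun k w a => a.1 ∈ Y ∧ a.2 a.1 = 1 ∧ (∀ i < k, a.2 (w i).1 = 0 ∧ (w i).2 a.1 = 0) ∧
      ∀ y ∈ Y, ‖a.2 y‖ * ‖a.1‖ ≤ (1 / 2) ^ k * (c y + ‖y‖))
    (by
      rintro k w w' a hww ⟨a1, a2, a3, a4⟩
      exact ⟨a1, a2, fun i hi => hww i hi ▸ a3 i hi, a4⟩)
    (by
      intro k w hw
      obtain ⟨v, φ, h⟩ := crit_step g Y hg hY c hc k (fun i => (w i).1) (fun i => (w i).2)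
        (fun i hi => (hw i hi).1) (fun i hi => (hw i hi).2.1) (by
          intro i hi j hj hij
          rcases lt_or_gt_of_ne hij with h | h
          · exact ((hw j hj).2.2.1 i h).2
          · exact ((hw i hi).2.2.1 j h).1)
      exact ⟨(v, φ), h⟩)
  set u : ℕ → X := fun k => (w k).1 with hu
  set f : ℕ → StrongDual 𝕜 X := fun k => (w k).2 with hf
  have h1 : ∀ k, f k (u k) = 1 := fun k => (hw k).2.1
  have h0 : ∀ i j, i ≠ j → f i (u j) = 0 := by
    intro i j hij
    rcases lt_or_gt_of_ne hij with h | h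
    · exact ((hw j).2.2.1 i h).2
    · exact ((hw i).2.2.1 j h).1
  have hb : ∀ k, ∀ y ∈ Y, ‖f k y‖ * ‖u k‖ ≤ (1 / 2) ^ k * (c y + ‖y‖) :=
    fun k => (hw k).2.2.2
  set M : Submodule 𝕜 X := ⨅ k, LinearMap.ker (f k : X →ₗ[𝕜] 𝕜) with hM
  have hmem : ∀ x, x ∈ M ↔ ∀ k, f k x = 0 := by
    intro x; simp [hM, Submodule.mem_iInf]
  have hcont : Continuous (Submodule.Quotient.mk : X → X ⧸ M) := continuous_quot_mk
  refine ⟨M, ?_, ?_, ?_⟩
  · have : (M : Set X) = ⋂ k, {x | f k x = 0} := by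
      ext x; simp [hmem]
    rw [this]
    exact isClosed_iInter fun k => isClosed_eq (f k).continuous continuous_const
  · have hsep : TopologicalSpace.IsSeparable
        (closure (Submodule.span 𝕜 (Set.range u) : Set X)) :=
      ((Set.countable_range u).isSeparable.span (R := 𝕜)).closure
    have hsep2 := (hsep.image hcont).closure
    have hd : Dense ((Submodule.Quotient.mk : X → X ⧸ M) '' (Y : Set X)) :=
      (Submodule.Quotient.mk_surjective M).denseRange.dense_image hcont hY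
    have hsub : (Submodule.Quotient.mk : X → X ⧸ M) '' (Y : Set X) ⊆
        (Submodule.Quotient.mk : X → X ⧸ M) ''
          closure (Submodule.span 𝕜 (Set.range u) : Set X) := by
      rintro _ ⟨y, hy, rfl⟩
      have hs : Summable fun k => f k y • u k := by
        refine Summable.of_norm_bounded
          (summable_geometric_two.mul_right (c y + ‖y‖)) fun k => ?_
        rw [norm_smul]
        exact hb k y hy
      refine ⟨∑' k, f k y • u k, ?_, ?_⟩
      · refine mem_closure_of_tendsto hs.hasSum (Eventually.of_forall fun s => ?_)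
        exact Submodule.sum_mem _ fun k _ =>
          Submodule.smul_mem _ _ (Submodule.subset_span ⟨k, rfl⟩)
      · rw [Submodule.Quotient.eq, hmem]
        intro j
        have h2 := (f j).hasSum hs.hasSum
        have h3 : HasSum (fun k => f j (f k y • u k)) (f j (f j y • u j)) := by
          refine hasSum_single j fun k hk => ?_
          rw [map_smul, h0 j k hk.symm, smul_zero]
        rw [map_sub, h2.unique h3, map_smul, h1, smul_eq_mul, mul_one, sub_self]
    rw [← TopologicalSpace.isSeparable_univ_iff]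
    refine hsep2.mono ?_
    rw [← hd.closure_eq]
    exact closure_mono hsub
  · intro hfin
    have hli : LinearIndependent 𝕜 fun k => (Submodule.Quotient.mk (u k) : X ⧸ M) := by
      rw [linearIndependent_iff']
      intro s a hs j hj
      have h2 : (Submodule.Quotient.mk (∑ i ∈ s, a i • u i) : X ⧸ M) = 0 := by
        rw [← hs, ← Submodule.mkQ_apply, map_sum]
        simp
      rw [Submodule.Quotient.mk_eq_zero, hmem] at h2
      have h3 := h2 j
      rw [map_sum, sum_eq_single j] at h3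
      · simpa [h1] using h3
      · intro i _ hij
        rw [map_smul, h0 j i hij.symm, smul_zero]
      · intro h; exact absurd hj h
    exact Module.Finite.not_linearIndependent_of_infinite _ hli

end Crest.Agent.R114
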