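import Mathlib

/-!
# Row 114, statement S0152: definitions

A Gowers-tree type norming set on a well-ordered index set `Γ` (later `ω₁`).
-/

set_option autoImplicit false

open Filter Finset Topology

namespace Crest.Agent.R114

/-! ## Parameters -/

/-- exponents -/
def ea : ℕ → ℕ
  | 0 => 2
  | j + 1 => 2 * ea j + j + 11

/-- weights `m_j = 2 ^ ea j` -/
def mm (j : ℕ) : ℕ := 2 ^ ea j

/-- lengths `n_j` -/
def nn : ℕ → ℕ
  | 0 => 1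
  | j + 1 => 8 * (j + 1) * mm (j + 1) * (2 + (j + 1) * nn j) ^ (ea (j + 1) + 4)

theorem ea_zero : ea 0 = 2 := rfl
theorem ea_succ (j : ℕ) : ea (j + 1) = 2 * ea j + j + 11 := rfl
theorem nn_zero : nn 0 = 1 := rfl
theorem nn_succ (j : ℕ) :
    nn (j + 1) = 8 * (j + 1) * mm (j + 1) * (2 + (j + 1) * nn j) ^ (ea (j + 1) + 4) := rfl
theorem anchor_ea : type_of% @ea.eq_def := @ea.eq_def
theorem anchor_nn : type_of% @nn.eq_def := @nn.eq_def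
theorem anchor_ea1 : type_of% @ea.eq_1 := @ea.eq_1
theorem anchor_ea2 : type_of% @ea.eq_2 := @ea.eq_2
theorem anchor_nn1 : type_of% @nn.eq_1 := @nn.eq_1
theorem anchor_nn2 : type_of% @nn.eq_2 := @nn.eq_2

/-! ## The coherent system of finite sets (a `ρ`-function) -/

/-- `F δ p` are finite sets increasing (in `p`) to `Iio δ`, and coherent. -/
structure Rho (Γ : Type) [LinearOrder Γ] where
  F : Γ → ℕ → Finset Γ
  lt : ∀ {δ ξ : Γ} {p : ℕ}, ξ ∈ F δ p → ξ < δ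
  mono : ∀ (δ : Γ) {p q : ℕ}, p ≤ q → F δ p ⊆ F δ q
  exh : ∀ {δ ξ : Γ}, ξ < δ → ∃ p, ξ ∈ F δ p
  coh : ∀ {δ ξ : Γ} {p : ℕ}, ξ ∈ F δ p → F ξ p = (F δ p).filter (· < ξ)

variable {Γ : Type} [LinearOrder Γ]

/-- the index of `δ` at level `p` -/
def Rho.idx (ρ : Rho Γ) (p : ℕ) (δ : Γ) : ℕ := (ρ.F δ p).card

/-- `S` is `p`-coherent -/
def Rho.Coh (ρ : Rho Γ) (p : ℕ) (S : Set Γ) : Prop :=
  ∀ ξ ∈ S, ∀ δ ∈ S, ξ < δ → ξ ∈ ρ.F δ p

/-- every point of `s` lies below every point of `t` -/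
def SLt (s t : Finset Γ) : Prop := ∀ δ ∈ s, ∀ ξ ∈ t, δ < ξ

/-- finitely supported rational functionals -/
abbrev Fn (Γ : Type) : Type := Γ →₀ ℚ

open Classical in
/-- restriction of a finitely supported function to a set -/
noncomputable def res {R : Type} [Zero R] (E : Set Γ) (w : Γ →₀ R) : Γ →₀ R :=
  w.filter (· ∈ E)

/-- an injective coding function -/
noncomputable def sig : ℕ × List (ℕ × (ℕ →₀ ℚ)) → ℕ :=
  Classical.choose (exists_injective_nat (ℕ × List (ℕ × (ℕ →₀ ℚ))))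

theorem sig_injective : Function.Injective sig :=
  Classical.choose_spec (exists_injective_nat (ℕ × List (ℕ × (ℕ →₀ ℚ))))

/-- the code at level `p` of the first `i` members of a sequence -/
noncomputable def code (ρ : Rho Γ) (p i : ℕ) (w : ℕ → Fn Γ) (j : ℕ → ℕ) :
    List (ℕ × (ℕ →₀ ℚ)) :=
  (List.range i).map fun k => (j k, (w k).mapDomain (ρ.idx p))

/-- the support of the first `i` members of a sequence -/
def hist (i : ℕ) (w : ℕ → Fn Γ) : Set Γ := {ξ | ∃ k < i, ξ ∈ (w k).support}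

/-- `p` is an admissible coding level for member `i` -/
def CodeAt (ρ : Rho Γ) (p i : ℕ) (w : ℕ → Fn Γ) (j : ℕ → ℕ) : Prop :=
  (∀ k < i, j k ≤ p) ∧ ρ.Coh p (hist i w) ∧ j i = 2 * sig (p, code ρ p i w j)

/-- combinatorial part of "the first `n` members of `(w, j)` form a special sequence" -/
structure Comb (ρ : Rho Γ) (n : ℕ) (w : ℕ → Fn Γ) (j : ℕ → ℕ) : Prop where
  succ : ∀ k i, k < i → i < n → SLt (w k).support (w i).support
  mono : ∀ k i, k < i → i < n → j k < j i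
  code : ∀ i < n, ∃ p, CodeAt ρ p i w j

/-- data of a special segment: members `a ≤ i < n` of a special sequence, restricted to `E` -/
structure Seg (Γ : Type) where
  n : ℕ
  a : ℕ
  w : ℕ → Fn Γ
  j : ℕ → ℕ
  E : Set Γ

/-- the functional of a segment -/
noncomputable def Seg.val (t : Seg Γ) : Fn Γ := ∑ i ∈ Ico t.a t.n, res t.E (t.w i)

/-- all weights used by the segment are `≥ J` -/
def Seg.Above (t : Seg Γ) (J : ℕ) : Prop := ∀ i ∈ Ico t.a t.n, J ≤ t.j i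

/-- The norming set: `T ρ none w` means `w ∈ W`, `T ρ (some j) w` means that `w` is an average
of weight `j`. -/
inductive T (ρ : Rho Γ) : Option ℕ → Fn Γ → Prop
  | ground (α : Γ) (ε : ℚ) (hε : ε = 1 ∨ ε = -1) : T ρ none (Finsupp.single α ε)
  | ofWt (j : ℕ) (w : Fn Γ) (h : T ρ (some j) w) : T ρ none w
  | avg (j n : ℕ) (u : ℕ → Fn Γ) (hn : n ≤ nn j) (hu : ∀ i < n, T ρ none (u i))
      (hs : ∀ i i', i < i' → i' < n → SLt (u i).support (u i').support) :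
      T ρ (some j) (((mm j : ℚ)⁻¹) • ∑ i ∈ range n, u i)
  | sum (M : ℕ) (t : ℕ → Seg Γ) (ε : ℕ → ℚ)
      (hw : ∀ l < M, ∀ i < (t l).n, T ρ (some ((t l).j i)) ((t l).w i))
      (hc : ∀ l < M, Comb ρ (t l).n (t l).w (t l).j)
      (hE : ∀ l < M, (t l).E.OrdConnected)
      (hε : ∀ l < M, ε l = 1 ∨ ε l = -1)
      (hM : ∀ l < M, (t l).Above M)
      (hd : ∀ l < M, ∀ l' < M, l ≠ l' → ∀ i ∈ Ico (t l).a (t l).n, ∀ i' ∈ Ico (t l').a (t l').n,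
        (t l).j i ≠ (t l').j i') :
      T ρ none (∑ l ∈ range M, ε l • (t l).val)

/-- the first `n` members of `(w, j)` form a special sequence -/
def Spec (ρ : Rho Γ) (n : ℕ) (w : ℕ → Fn Γ) (j : ℕ → ℕ) : Prop :=
  (∀ i < n, T ρ (some (j i)) (w i)) ∧ Comb ρ n w j

/-- a legitimate segment -/
def Seg.OK (ρ : Rho Γ) (t : Seg Γ) : Prop := Spec ρ t.n t.w t.j ∧ t.E.OrdConnected

/-- an infinite special sequence -/
structure Branch (ρ : Rho Γ) where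
  w : ℕ → Fn Γ
  j : ℕ → ℕ
  spec : ∀ n, Spec ρ n w j

/-- partial sums of a branch -/
noncomputable def Branch.psum {ρ : Rho Γ} (b : Branch ρ) (n : ℕ) : Fn Γ := ∑ i ∈ range n, b.w i

/-! ## Vectors -/

variable {𝕜 : Type} [RCLike 𝕜]

/-- action of a functional on a vector -/
noncomputable def act (w : Fn Γ) (a : Γ → 𝕜) : 𝕜 := ∑ δ ∈ w.support, (w δ : 𝕜) * a δ

/-- `‖a‖ ≤ C` -/
def NLe (ρ : Rho Γ) (a : Γ → 𝕜) (C : ℝ) : Prop := ∀ w, T ρ none w → ‖act w a‖ ≤ C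

/-- `‖a‖ ≥ c`, attained -/
def NGe (ρ : Rho Γ) (a : Γ → 𝕜) (c : ℝ) : Prop := ∃ w, T ρ none w ∧ c ≤ ‖act w a‖

/-- small weights act little -/
def SW (ρ : Rho Γ) (K : ℝ) (J : ℕ) (a : Γ → 𝕜) : Prop :=
  ∀ j ≤ J, ∀ w, T ρ (some j) w → ‖act w a‖ ≤ K / mm j

/-- segments with all weights `> J` act very little -/
def SegSmall (ρ : Rho Γ) (J : ℕ) (a : Γ → 𝕜) : Prop :=
  ∀ t : Seg Γ, t.OK ρ → t.Above (J + 1) → (J : ℝ) * ‖act t.val a‖ ≤ 1 / mm J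

/-- `ℓ¹` norm -/
noncomputable def l1 (y : Γ →₀ 𝕜) : ℝ := ∑ δ ∈ y.support, ‖y δ‖

/-- successive supports -/
def Succ (y : ℕ → Γ →₀ 𝕜) : Prop := ∀ l l', l < l' → SLt (y l).support (y l').support

/-- every branch tends to zero along `y` -/
def NullSeq (ρ : Rho Γ) (y : ℕ → Γ →₀ 𝕜) : Prop :=
  ∀ b : Branch ρ, ∀ η : ℝ, 0 < η → ∀ᶠ l in atTop, ∀ᶠ n in atTop, ‖act (b.psum n) (y l)‖ ≤ η

/-- the null case for a space `V` of finitely supported vectors -/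
def NullV (ρ : Rho Γ) (V : Submodule 𝕜 (Γ →₀ 𝕜)) : Prop :=
  ∀ y : ℕ → Γ →₀ 𝕜, (∀ l, y l ∈ V) → Succ y → (∀ l, NLe ρ (y l) 1) → NullSeq ρ y

/-- `V` has nonzero vectors beyond each of its vectors -/
def Far (V : Submodule 𝕜 (Γ →₀ 𝕜)) : Prop :=
  ∀ z ∈ V, ∃ y ∈ V, y ≠ 0 ∧ SLt z.support y.support

/-! ## Statements of the main steps -/

/-- Determination lemma for the coding. -/
def DetStmt (ρ : Rho Γ) : Prop :=
  ∀ (p i i' : ℕ) (w w' : ℕ → Fn Γ) (j j' : ℕ → ℕ),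
    ρ.Coh p (hist i w) → ρ.Coh p (hist i' w') → code ρ p i w j = code ρ p i' w' j' →
    ∀ δ ∈ hist i w, ∀ δ' ∈ hist i' w', (δ = δ' ∨ δ ∈ ρ.F δ' p) →
    ∀ k < i, ∀ ξ, ξ ≤ δ → w k ξ = w' k ξ

/-- Gowers' separation lemma. -/
def SepStmt (ρ : Rho Γ) (𝕜 : Type) [RCLike 𝕜] : Prop :=
  ∀ (y : ℕ → Γ →₀ 𝕜) (K η : ℝ) (J0 : ℕ), Succ y → (∀ l, NLe ρ (y l) 1) →
    (∀ l, SW ρ K l (y l)) → 0 ≤ K → 0 < η → 1 ≤ J0 → K * (2 / mm J0) ≤ η → NullSeq ρ y →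
    ∃ φ : ℕ → ℕ, StrictMono φ ∧ ∀ t : Seg Γ, t.OK ρ → t.Above J0 →
      ∀ S : Finset ℕ, (∀ q ∈ S, 5 * η < ‖act t.val (y (φ q))‖) → S.card ≤ 4

/-- good averages exist in the null case -/
def GoodStmt (ρ : Rho Γ) (𝕜 : Type) [RCLike 𝕜] : Prop :=
  ∀ V : Submodule 𝕜 (Γ →₀ 𝕜), Far V → NullV ρ V → ∀ J : ℕ, Even J → ∀ z ∈ V,
    ∃ v ∈ V, SLt z.support v.support ∧ NLe ρ v 1 ∧ NGe ρ v (1 / 2) ∧ SW ρ 2 J v ∧ SegSmall ρ J v

/-- the basic inequality for rapidly increasing sequences -/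
def RISStmt (ρ : Rho Γ) (𝕜 : Type) [RCLike 𝕜] : Prop :=
  ∀ (j0 : ℕ) (v : ℕ → Γ →₀ 𝕜) (J : ℕ → ℕ), 1 ≤ j0 → StrictMono J → j0 ≤ J 0 → Succ v →
    (∀ s, NLe ρ (v s) 1) → (∀ s, SW ρ 2 (J s) (v s)) → (∀ s, SegSmall ρ (J s) (v s)) →
    (∀ s, l1 (v s) * (2 / mm (J (s + 1))) ≤ 1 / mm j0) →
    NLe ρ (∑ s ∈ range (nn j0), v s : Γ →₀ 𝕜) (12 * nn j0 / mm j0)

/-- Theorem Z: the null case is impossible. -/
def ZStmt (ρ : Rho Γ) (𝕜 : Type) [RCLike 𝕜] : Prop :=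
  ∀ V : Submodule 𝕜 (Γ →₀ 𝕜), Far V → ¬ NullV ρ V

/-- a head function: every branch has its own index above its support -/
def IsHead {ρ : Rho Γ} (h : Branch ρ → Γ) : Prop :=
  Function.Injective h ∧ ∀ b i, ∀ δ ∈ (b.w i).support, δ < h b

/-- distinct branches use almost disjoint weights -/
def ADStmt (ρ : Rho Γ) : Prop :=
  ∀ b b' : Branch ρ, b ≠ b' → ∃ k, ∀ i, k ≤ i → ∀ i', k ≤ i' → b.j i ≠ b'.j i'

end Crest.Agent.R114
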