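import Mathlib
import Crest.Prelude.Def_ContinuumRVM

/-!
# Row 114, statement S0153: definitions and statements of the steps
-/

set_option autoImplicit false

open Filter Finset Topology

namespace Crest.Agent.R114

universe u

/-- `X` has a separable infinite-dimensional quotient. -/
def HasSQ (𝕜 : Type) [RCLike 𝕜] (X : Type u) [NormedAddCommGroup X] [NormedSpace 𝕜 X] : Prop :=
  ∃ M : Submodule 𝕜 X, IsClosed (M : Set X) ∧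
    TopologicalSpace.SeparableSpace (X ⧸ M) ∧ ¬ FiniteDimensional 𝕜 (X ⧸ M)

variable (𝕜 : Type) [RCLike 𝕜] (X : Type u) [NormedAddCommGroup X] [NormedSpace 𝕜 X]

/-- Criterion: a normalised sequence that decays like `1/n` on a dense subspace. -/
def CritStmt : Prop :=
  ∀ (g : ℕ → StrongDual 𝕜 X) (Y : Submodule 𝕜 X), (∀ n, ‖g n‖ = 1) → Dense (Y : Set X) →
    (∀ y ∈ Y, ∃ C : ℝ, ∀ n : ℕ, (n : ℝ) * ‖g n y‖ ≤ C) → HasSQ 𝕜 X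

variable {𝕜 X}

/-- every finite combination of the `h j` is almost normed by a vector killing the other `h i` -/
def KProp (h : ℕ → StrongDual 𝕜 X) : Prop :=
  ∀ (s : Finset ℕ) (a : ℕ → 𝕜), ∃ x : X, ‖x‖ ≤ 1 ∧ (∀ i, i ∉ s → h i x = 0) ∧
    ‖∑ j ∈ s, a j • h j‖ ≤ 4 * ‖(∑ j ∈ s, a j • h j) x‖

/-- every vector is small on the tails of the span of the `h j` -/
def TailNull (h : ℕ → StrongDual 𝕜 X) : Prop :=
  ∀ (x : X) (ε : ℝ), 0 < ε → ∃ n : ℕ, ∀ (s : Finset ℕ) (a : ℕ → 𝕜), (∀ j ∈ s, n ≤ j) →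
    ‖(∑ j ∈ s, a j • h j) x‖ ≤ ε * ‖∑ j ∈ s, a j • h j‖

/-- the combination of the `u j` with coefficients `c` -/
noncomputable def comb (u : ℕ → StrongDual 𝕜 X) (c : ℕ →₀ 𝕜) : StrongDual 𝕜 X :=
  ∑ j ∈ c.support, c j • u j

/-- `ℓ¹`-normalised successive coefficient blocks -/
def Blk (b : ℕ → ℕ →₀ 𝕜) : Prop :=
  (∀ n, ∑ j ∈ (b n).support, ‖b n j‖ = 1) ∧
    ∀ n n', n < n' → ∀ i ∈ (b n).support, ∀ i' ∈ (b n').support, i < i'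

/-- `b'` is a block sequence of `b` -/
def SubBlk (b' b : ℕ → ℕ →₀ 𝕜) : Prop :=
  Blk b' ∧ ∀ n, b' n ∈ Submodule.span 𝕜 (Set.range b)

/-- no block sequence of `b` is eventually `δ`-small at every point of the unit ball -/
def Stable (u : ℕ → StrongDual 𝕜 X) (b : ℕ → ℕ →₀ 𝕜) (δ : ℝ) : Prop :=
  ∀ b', SubBlk b' b → ∃ x : X, ‖x‖ ≤ 1 ∧ ∃ᶠ n in atTop, δ < ‖comb u (b' n) x‖

/-- a sequence of functionals equivalent to the unit vector basis of `ℓ²` -/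
def IsL2 (r : ℕ → StrongDual 𝕜 X) (δ : ℝ) : Prop :=
  ∀ (s : Finset ℕ) (a : ℕ → 𝕜),
    δ * Real.sqrt (∑ i ∈ s, ‖a i‖ ^ 2) ≤ ‖∑ i ∈ s, a i • r i‖ ∧
      ‖∑ i ∈ s, a i • r i‖ ≤ Real.sqrt (∑ i ∈ s, ‖a i‖ ^ 2)

variable (𝕜 X)

/-- Case A: shrinking case. -/
def CaseAStmt : Prop :=
  ∀ h : ℕ → StrongDual 𝕜 X, KProp h → (∀ i, h i ≠ 0) → TailNull h → HasSQ 𝕜 X

/-- Stabilisation dichotomy. -/
def DichStmt : Prop :=
  ∀ u : ℕ → StrongDual 𝕜 X, (∀ j, ‖u j‖ ≤ 1) →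
    (∃ d : ℕ → ℕ →₀ 𝕜, Blk d ∧ ∀ x : X, Tendsto (fun n => comb u (d n) x) atTop (𝓝 0)) ∨
    (∃ (b : ℕ → ℕ →₀ 𝕜) (δ : ℝ), Blk b ∧ 0 < δ ∧ Stable u b δ)

/-- From a stable block sequence to an `ℓ²`-sequence (Rademacher limits). -/
def RadStmt : Prop :=
  ∀ (u : ℕ → StrongDual 𝕜 X) (b : ℕ → ℕ →₀ 𝕜) (δ : ℝ), (∀ j, ‖u j‖ ≤ 1) → Blk b → 0 < δ →
    Stable u b δ → ∃ (r : ℕ → StrongDual 𝕜 X) (δ' : ℝ), 0 < δ' ∧ IsL2 r δ'

/-- An `ℓ²`-sequence in the dual gives a separable quotient. -/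
def L2Stmt : Prop :=
  ∀ (r : ℕ → StrongDual 𝕜 X) (δ : ℝ), 0 < δ → IsL2 r δ → HasSQ 𝕜 X

/-- The measure-theoretic step. -/
def RVMStmt : Prop :=
  Crest.AnalysisR.ContinuumRVM → ¬ FiniteDimensional 𝕜 X → ¬ HasSQ 𝕜 X →
    ∃ h : ℕ → StrongDual 𝕜 X, KProp h ∧ ∀ i, ‖h i‖ = 1

/-- Selection of a sequence from countably many iterated almost sure requirements, in the form
needed: `Y w` is a family of sets such that for every probability measure `ν` on all subsets of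
`ℕ → Ω` and every map `x` into the unit ball, for almost every `w`, `ν`-almost surely
`x θ ∈ Y w`. -/
def SelStmt : Prop :=
  ∀ (Ω : Type) (μ : @MeasureTheory.Measure Ω ⊤), μ Set.univ = 1 →
    ∀ (Y : Ω → Set X) (h : Ω → StrongDual 𝕜 X),
    (∀ (ν : @MeasureTheory.Measure (ℕ → Ω) ⊤), ν Set.univ = 1 → ∀ x : (ℕ → Ω) → X,
      (∀ θ, ‖x θ‖ ≤ 1) →
      ∀ᶠ w in @MeasureTheory.ae Ω _ _ _ μ, ∀ᶠ θ in @MeasureTheory.ae (ℕ → Ω) _ _ _ ν, x θ ∈ Y w) →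
    (∀ w, ∀ y ∈ Y w, h w y = 0) →
    ∃ w : ℕ → Ω, KProp fun i => h (w i)

end Crest.Agent.R114
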