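import Crest.Agent.R114.Defs

/-!
# Row 114: the coding lemmas
-/

set_option autoImplicit false

open Filter Finset Topology

namespace Crest.Agent.R114

variable {Γ : Type} [LinearOrder Γ]

theorem idx_lt {ρ : Rho Γ} {p : ℕ} {ξ δ : Γ} (h : ξ ∈ ρ.F δ p) : ρ.idx p ξ < ρ.idx p δ := by
  show (ρ.F ξ p).card < (ρ.F δ p).card
  rw [ρ.coh h]
  refine Finset.card_lt_card ⟨Finset.filter_subset _ _, fun hs => ?_⟩
  exact lt_irrefl ξ (Finset.mem_filter.1 (hs h)).2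

theorem det_strictMonoOn {ρ : Rho Γ} {p : ℕ} {S : Set Γ} (h : ρ.Coh p S) :
    StrictMonoOn (ρ.idx p) S := fun ξ hξ δ hδ hlt => idx_lt (h ξ hξ δ hδ hlt)

theorem det_injOn {ρ : Rho Γ} {p : ℕ} {S : Set Γ} (h : ρ.Coh p S) : Set.InjOn (ρ.idx p) S :=
  (det_strictMonoOn h).injOn

theorem det_coh_mono {ρ : Rho Γ} {p q : ℕ} {S S' : Set Γ} (h : ρ.Coh p S) (hpq : p ≤ q)
    (hS : S' ⊆ S) : ρ.Coh q S' :=
  fun ξ hξ δ hδ hlt => ρ.mono δ hpq (h ξ (hS hξ) δ (hS hδ) hlt)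

theorem det_subset {ρ : Rho Γ} {p : ℕ} {ξ δ : Γ} (h : ξ ∈ ρ.F δ p) : ρ.F ξ p ⊆ ρ.F δ p := by
  rw [ρ.coh h]; exact Finset.filter_subset _ _

theorem det_coh_insert (ρ : Rho Γ) (p : ℕ) (δ : Γ) : ρ.Coh p {ξ | ξ = δ ∨ ξ ∈ ρ.F δ p} := by
  intro ξ hξ η hη hlt
  rcases hη with rfl | hη
  · exact hξ.resolve_left hlt.ne
  · have hξ' : ξ ∈ ρ.F δ p := hξ.resolve_left (hlt.trans (ρ.lt hη)).ne
    rw [ρ.coh hη]
    exact Finset.mem_filter.2 ⟨hξ', hlt⟩

theorem det_code_eq {ρ : Rho Γ} {p p' i i' : ℕ} {w w' : ℕ → Fn Γ} {j j' : ℕ → ℕ}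
    (h : code ρ p i w j = code ρ p' i' w' j') :
    i = i' ∧ ∀ k < i, j k = j' k ∧ (w k).mapDomain (ρ.idx p) = (w' k).mapDomain (ρ.idx p') := by
  have hi : i = i' := by
    have h1 : (List.map _ (List.range i)).length = (List.map _ (List.range i')).length :=
      congrArg List.length h
    simpa using h1
  subst hi
  refine ⟨rfl, fun k hk => ?_⟩
  have := List.map_inj_left.1 h k (List.mem_range.2 hk)
  exact Prod.mk.inj this

omit [LinearOrder Γ] in
theorem det_supp_subset {i k : ℕ} (hk : k < i) (w : ℕ → Fn Γ) :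
    ((w k).support : Set Γ) ⊆ hist i w := fun _ hξ => ⟨k, hk, hξ⟩

theorem det_hist_finite (i : ℕ) (w : ℕ → Fn Γ) : (hist i w).Finite := by
  refine ((Finset.range i).biUnion fun k => (w k).support).finite_toSet.subset ?_
  rintro ξ ⟨k, hk, hξ⟩
  exact Finset.mem_coe.2 (Finset.mem_biUnion.2 ⟨k, Finset.mem_range.2 hk, hξ⟩)

omit [LinearOrder Γ] in
theorem det_partner {f : Γ → ℕ} {u v : Fn Γ} (e : u.mapDomain f = v.mapDomain f) {S : Set Γ}
    (hS : (u.support : Set Γ) ⊆ S) (hf : Set.InjOn f S) {ξ : Γ} (hξ : u ξ ≠ 0) :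
    ∃ ξ' ∈ v.support, f ξ' = f ξ := by
  have h1 : u.mapDomain f (f ξ) = u ξ :=
    Finsupp.mapDomain_apply' S u hS hf (hS (Finsupp.mem_support_iff.2 hξ))
  have h2 : f ξ ∈ (v.mapDomain f).support := by
    rw [← e, Finsupp.mem_support_iff, h1]; exact hξ
  exact Finset.mem_image.1 (Finsupp.mapDomain_support h2)

theorem det (ρ : Rho Γ) : DetStmt ρ := by
  intro p i i' w w' j j' hc hc' hcode δ hδ δ' hδ' hδδ k hk ξ hξ
  obtain ⟨rfl, hk'⟩ := det_code_eq hcode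
  have e := (hk' k hk).2
  have hT := det_coh_insert ρ p δ'
  set S : Set Γ := {ξ | ξ = δ' ∨ ξ ∈ ρ.F δ' p} with hS
  have hδS : δ ∈ S := hδδ
  have hδ'S : δ' ∈ S := Or.inl rfl
  have hle : δ ≤ δ' := hδδ.elim le_of_eq fun h => (ρ.lt h).le
  have m1 : ∀ η ∈ hist i w, η ≤ δ → η ∈ S := by
    intro η hη hle
    rcases hle.eq_or_lt with rfl | hlt
    · exact hδS
    · have := hc η hη δ hδ hlt
      rcases hδδ with rfl | h
      · exact Or.inr this
      · exact Or.inr (det_subset h this)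
  have m2 : ∀ η ∈ hist i w', η ≤ δ' → η ∈ S := fun η hη hle =>
    hle.eq_or_lt.imp id fun hlt => hc' η hη δ' hδ' hlt
  have s1 := det_supp_subset hk w
  have s2 := det_supp_subset hk w'
  by_cases h0 : w k ξ = 0
  · by_contra hne
    have h0' : w' k ξ ≠ 0 := fun h => hne (h0.trans h.symm)
    have hξS : ξ ∈ S := m2 ξ (s2 (Finsupp.mem_support_iff.2 h0')) (hξ.trans hle)
    obtain ⟨η, hη, he⟩ := det_partner e.symm s2 (det_injOn hc') h0'
    have hηδ : η ≤ δ := by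
      by_contra hlt
      have h1 := det_strictMonoOn hc hδ (s1 hη) (not_le.1 hlt)
      have h2 := (det_strictMonoOn hT).monotoneOn hξS hδS hξ
      omega
    have := det_injOn hT (m1 η (s1 hη) hηδ) hξS he
    subst this
    exact Finsupp.mem_support_iff.1 hη h0
  · have hξh : ξ ∈ hist i w := s1 (Finsupp.mem_support_iff.2 h0)
    have hξS : ξ ∈ S := m1 ξ hξh hξ
    obtain ⟨η, hη, he⟩ := det_partner e s1 (det_injOn hc) h0
    have hηδ : η ≤ δ' := by
      by_contra hlt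
      have h1 := det_strictMonoOn hc' hδ' (s2 hη) (not_le.1 hlt)
      have h2 := (det_strictMonoOn hT).monotoneOn hξS hδ'S (hξ.trans hle)
      omega
    have := det_injOn hT (m2 η (s2 hη) hηδ) hξS he
    subst this
    rw [← Finsupp.mapDomain_apply' _ (w k) s1 (det_injOn hc) hξh, e,
      Finsupp.mapDomain_apply' _ (w' k) s2 (det_injOn hc') (s2 hη)]

theorem share {ρ : Rho Γ} {p p' i i' : ℕ} {w w' : ℕ → Fn Γ} {j j' : ℕ → ℕ}
    (h : CodeAt ρ p i w j) (h' : CodeAt ρ p' i' w' j') (e : j i = j' i') :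
    p = p' ∧ i = i' ∧ code ρ p i w j = code ρ p i' w' j' ∧ ∀ k ≤ i, j k = j' k := by
  have h1 : sig (p, code ρ p i w j) = sig (p', code ρ p' i' w' j') := by
    have := h.2.2
    have := h'.2.2
    omega
  obtain ⟨rfl, h2⟩ := Prod.mk.inj (sig_injective h1)
  obtain ⟨rfl, h3⟩ := det_code_eq h2
  refine ⟨rfl, rfl, h2, fun k hk => ?_⟩
  rcases hk.eq_or_lt with rfl | hlt
  · exact e
  · exact (h3 k hlt).1

theorem det_eventually_coh (ρ : Rho Γ) (S : Set Γ) (hS : S.Finite) :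
    ∀ᶠ p in atTop, ρ.Coh p S := by
  refine (eventually_all_finite hS).2 fun ξ _ => (eventually_all_finite hS).2 fun δ _ => ?_
  by_cases hlt : ξ < δ
  · obtain ⟨p, hp⟩ := ρ.exh hlt
    filter_upwards [eventually_ge_atTop p] with q hq _ using ρ.mono δ hq hp
  · exact Eventually.of_forall fun _ h => absurd h hlt

theorem exists_coh (ρ : Rho Γ) (S : Set Γ) (hS : S.Finite) : ∃ p0, ∀ p, p0 ≤ p → ρ.Coh p S :=
  eventually_atTop.1 (det_eventually_coh ρ S hS)

theorem det_branch_strictMono {ρ : Rho Γ} (b : Branch ρ) : StrictMono b.j :=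
  fun k i hki => (b.spec (i + 1)).2.mono k i hki (Nat.lt_succ_self i)

theorem det_branch_ext {ρ : Rho Γ} {b b' : Branch ρ} (hw : b.w = b'.w) (hj : b.j = b'.j) :
    b = b' := by
  cases b; cases b'
  simp only at hw hj
  subst hw hj
  rfl

theorem ad (ρ : Rho Γ) : ADStmt ρ := by
  intro b b' hne
  by_contra hcon
  push Not at hcon
  have key : ∀ k, ∃ i p, k ≤ i ∧ CodeAt ρ p i b.w b.j ∧
      code ρ p i b.w b.j = code ρ p i b'.w b'.j := by
    intro k
    obtain ⟨i, hi, i', -, e⟩ := hcon k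
    obtain ⟨p, hp⟩ := (b.spec (i + 1)).2.code i (Nat.lt_succ_self i)
    obtain ⟨p', hp'⟩ := (b'.spec (i' + 1)).2.code i' (Nat.lt_succ_self i')
    obtain ⟨rfl, rfl, h3, -⟩ := share hp hp' e
    exact ⟨i, p, hi, hp, h3⟩
  refine hne (det_branch_ext (funext fun k => ?_) (funext fun k => ?_))
  · obtain ⟨p0, hp0⟩ := exists_coh ρ (((b.w k).support : Set Γ) ∪ (b'.w k).support)
      ((Finset.finite_toSet _).union (Finset.finite_toSet _))
    obtain ⟨i, p, hi, hp, h3⟩ := key (max k p0 + 1)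
    have h1 : p0 ≤ p :=
      ((det_branch_strictMono b).le_apply (x := p0)).trans (hp.1 p0 (by omega))
    exact Finsupp.mapDomain_injOn _ (det_injOn (hp0 p h1)) Set.subset_union_left
      Set.subset_union_right ((det_code_eq h3).2 k (by omega)).2
  · obtain ⟨i, p, hi, -, h3⟩ := key (k + 1)
    exact ((det_code_eq h3).2 k (by omega)).1

theorem exists_next (ρ : Rho Γ) (i : ℕ) (w : ℕ → Fn Γ) (j : ℕ → ℕ) (B : ℕ) :
    ∃ p, (∀ k < i, j k ≤ p) ∧ ρ.Coh p (hist i w) ∧ B ≤ 2 * sig (p, code ρ p i w j) := by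
  have hinj : Function.Injective fun p => sig (p, code ρ p i w j) :=
    fun p q h => (Prod.mk.inj (sig_injective h)).1
  have h1 : ∀ᶠ p in atTop, ∀ k ∈ Set.Iio i, j k ≤ p :=
    (eventually_all_finite (Set.finite_Iio i)).2 fun k _ => eventually_ge_atTop _
  obtain ⟨p, hp1, hp2, hp3⟩ := (h1.and ((det_eventually_coh ρ _ (det_hist_finite i w)).and
    (hinj.nat_tendsto_atTop.eventually_ge_atTop B))).exists
  exact ⟨p, hp1, hp2, by omega⟩

omit [LinearOrder Γ] in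
theorem det_hist_congr {i : ℕ} {w w' : ℕ → Fn Γ} (hw : ∀ k < i, w k = w' k) :
    hist i w = hist i w' := by
  ext ξ
  exact exists_congr fun k => and_congr_right fun hk => by rw [hw k hk]

theorem det_code_congr (ρ : Rho Γ) (p : ℕ) {i : ℕ} {w w' : ℕ → Fn Γ} {j j' : ℕ → ℕ}
    (hw : ∀ k < i, w k = w' k) (hj : ∀ k < i, j k = j' k) : code ρ p i w j = code ρ p i w' j' :=
  List.map_congr_left fun k hk => by
    rw [hw k (List.mem_range.1 hk), hj k (List.mem_range.1 hk)]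

theorem det_codeAt_congr {ρ : Rho Γ} {p i : ℕ} {w w' : ℕ → Fn Γ} {j j' : ℕ → ℕ}
    (hw : ∀ k < i, w k = w' k) (hj : ∀ k ≤ i, j k = j' k) (h : CodeAt ρ p i w j) :
    CodeAt ρ p i w' j' := by
  refine ⟨fun k hk => hj k hk.le ▸ h.1 k hk, det_hist_congr hw ▸ h.2.1, ?_⟩
  rw [← hj i le_rfl, ← det_code_congr ρ p hw fun k hk => hj k hk.le]
  exact h.2.2

theorem comb_congr {ρ : Rho Γ} {n : ℕ} {w w' : ℕ → Fn Γ} {j j' : ℕ → ℕ}
    (hw : ∀ i < n, w i = w' i) (hj : ∀ i < n, j i = j' i) (h : Comb ρ n w j) :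
    Comb ρ n w' j' where
  succ k i hki hi := by
    rw [← hw k (hki.trans hi), ← hw i hi]; exact h.succ k i hki hi
  mono k i hki hi := by
    rw [← hj k (hki.trans hi), ← hj i hi]; exact h.mono k i hki hi
  code i hi := (h.code i hi).imp fun _ hp =>
    det_codeAt_congr (fun k hk => hw k (hk.trans hi)) (fun k hk => hj k (hk.trans_lt hi)) hp

theorem spec_congr {ρ : Rho Γ} {n : ℕ} {w w' : ℕ → Fn Γ} {j j' : ℕ → ℕ}
    (hw : ∀ i < n, w i = w' i) (hj : ∀ i < n, j i = j' i) (h : Spec ρ n w j) :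
    Spec ρ n w' j' :=
  ⟨fun i hi => by rw [← hw i hi, ← hj i hi]; exact h.1 i hi, comb_congr hw hj h.2⟩

theorem comb_mono {ρ : Rho Γ} {n n' : ℕ} {w : ℕ → Fn Γ} {j : ℕ → ℕ} (hn : n' ≤ n)
    (h : Comb ρ n w j) : Comb ρ n' w j where
  succ k i hki hi := h.succ k i hki (hi.trans_le hn)
  mono k i hki hi := h.mono k i hki (hi.trans_le hn)
  code i hi := h.code i (hi.trans_le hn)

theorem spec_mono {ρ : Rho Γ} {n n' : ℕ} {w : ℕ → Fn Γ} {j : ℕ → ℕ} (hn : n' ≤ n)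
    (h : Spec ρ n w j) : Spec ρ n' w j :=
  ⟨fun i hi => h.1 i (hi.trans_le hn), comb_mono hn h.2⟩

end Crest.Agent.R114
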