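import Crest.Agent.R114.DefsQ

/-!
# Row 114, statement S0153: the stabilisation dichotomy
-/

set_option autoImplicit false

open Filter Finset Topology

namespace Crest.Agent.R114

universe u

variable {𝕜 : Type} [RCLike 𝕜] {X : Type u} [NormedAddCommGroup X] [NormedSpace 𝕜 X]

theorem dich_comb_eq (u : ℕ → StrongDual 𝕜 X) (c : ℕ →₀ 𝕜) :
    comb u c = Finsupp.linearCombination 𝕜 u c := by
  rw [Finsupp.linearCombination_apply]
  rfl

theorem dich_comb_sum (u : ℕ → StrongDual 𝕜 X) (b : ℕ → ℕ →₀ 𝕜) (s : Finset ℕ) (a : ℕ → 𝕜) :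
    comb u (∑ k ∈ s, a k • b k) = ∑ k ∈ s, a k • comb u (b k) := by
  simp only [dich_comb_eq, map_sum, map_smul]

theorem dich_comb_smul (u : ℕ → StrongDual 𝕜 X) (t : 𝕜) (c : ℕ →₀ 𝕜) :
    comb u (t • c) = t • comb u c := by
  simp only [dich_comb_eq, map_smul]

theorem dich_comb_superset (u : ℕ → StrongDual 𝕜 X) (c : ℕ →₀ 𝕜) {T : Finset ℕ}
    (hT : c.support ⊆ T) : comb u c = ∑ j ∈ T, c j • u j := by
  unfold comb
  refine Finset.sum_subset hT fun j _ hj => ?_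
  rw [Finsupp.notMem_support_iff.1 hj]
  exact zero_smul 𝕜 (u j)

theorem Blk.dich_nonempty {b : ℕ → ℕ →₀ 𝕜} (hb : Blk b) (n : ℕ) : (b n).support.Nonempty := by
  rcases (b n).support.eq_empty_or_nonempty with h | h
  · have := hb.1 n
    rw [h, Finset.sum_empty] at this
    exact absurd this zero_ne_one
  · exact h

theorem Blk.dich_le {b : ℕ → ℕ →₀ 𝕜} (hb : Blk b) (n : ℕ) : ∀ i ∈ (b n).support, n ≤ i := by
  induction n with
  | zero => intro i _; exact Nat.zero_le _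
  | succ n ih =>
    intro i hi
    obtain ⟨i₀, hi₀⟩ := hb.dich_nonempty n
    exact lt_of_le_of_lt (ih i₀ hi₀) (hb.2 n (n + 1) (Nat.lt_succ_self n) i₀ hi₀ i hi)

theorem Blk.dich_disj {b : ℕ → ℕ →₀ 𝕜} (hb : Blk b) {n n' : ℕ} (h : n ≠ n') :
    Disjoint (b n).support (b n').support := by
  rw [Finset.disjoint_left]
  intro i hi hi'
  rcases lt_or_gt_of_ne h with h | h
  · exact lt_irrefl _ (hb.2 n n' h i hi i hi')
  · exact lt_irrefl _ (hb.2 n' n h i hi' i hi)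

theorem dich_support_sum (b : ℕ → ℕ →₀ 𝕜) (s : Finset ℕ) (a : ℕ → 𝕜) :
    (∑ k ∈ s, a k • b k).support ⊆ s.biUnion (fun k => (b k).support) := by
  intro i hi
  by_contra hn
  refine Finsupp.mem_support_iff.1 hi ?_
  rw [Finsupp.finsetSum_apply]
  refine Finset.sum_eq_zero fun k hk => ?_
  have : i ∉ (b k).support := fun h => hn (Finset.mem_biUnion.2 ⟨k, hk, h⟩)
  rw [Finsupp.smul_apply, Finsupp.notMem_support_iff.1 this, smul_zero]

theorem Blk.dich_sum_apply {b : ℕ → ℕ →₀ 𝕜} (hb : Blk b) (s : Finset ℕ) (a : ℕ → 𝕜) {k i : ℕ}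
    (hk : k ∈ s) (hi : i ∈ (b k).support) : (∑ k ∈ s, a k • b k) i = a k * b k i := by
  rw [Finsupp.finsetSum_apply, Finset.sum_eq_single k]
  · rw [Finsupp.smul_apply, smul_eq_mul]
  · intro k' _ hk'
    have : i ∉ (b k').support := fun h =>
      Finset.disjoint_left.1 (hb.dich_disj hk') h hi
    rw [Finsupp.smul_apply, Finsupp.notMem_support_iff.1 this, smul_zero]
  · intro h
    exact absurd hk h

/-- the `ℓ¹` norm of a combination of normalised blocks -/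
theorem Blk.dich_l1 {b : ℕ → ℕ →₀ 𝕜} (hb : Blk b) (s : Finset ℕ) (a : ℕ → 𝕜) :
    ∑ j ∈ (∑ k ∈ s, a k • b k).support, ‖(∑ k ∈ s, a k • b k) j‖ = ∑ k ∈ s, ‖a k‖ := by
  rw [Finset.sum_subset (dich_support_sum b s a) (fun j _ hj => by
    rw [Finsupp.notMem_support_iff.1 hj, norm_zero])]
  rw [Finset.sum_biUnion (fun k _ k' _ hkk => hb.dich_disj hkk)]
  refine Finset.sum_congr rfl fun k hk => ?_
  calc ∑ j ∈ (b k).support, ‖(∑ k ∈ s, a k • b k) j‖
      = ∑ j ∈ (b k).support, ‖a k‖ * ‖b k j‖ :=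
        Finset.sum_congr rfl fun j hj => by rw [hb.dich_sum_apply s a hk hj, norm_mul]
    _ = ‖a k‖ := by rw [← Finset.mul_sum, hb.1 k, mul_one]

/-- diagonal choice of successive supports -/
theorem dich_diag (F : ℕ → ℕ → ℕ →₀ 𝕜) (hF : ∀ k n, ∀ i ∈ (F k n).support, n ≤ i) :
    ∃ N : ℕ → ℕ, ∀ k k', k < k' → ∀ i ∈ (F k (N k)).support, ∀ i' ∈ (F k' (N k')).support,
      i < i' := by
  let N : ℕ → ℕ := fun k =>
    Nat.rec 0 (fun k n => max n ((F k n).support.sup id) + 1) k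
  have hN : ∀ k, N (k + 1) = max (N k) ((F k (N k)).support.sup id) + 1 := fun _ => rfl
  have hmono : Monotone N := by
    refine monotone_nat_of_le_succ fun k => ?_
    rw [hN]
    exact (le_max_left _ _).trans (Nat.le_succ _)
  refine ⟨N, fun k k' hk i hi i' hi' => ?_⟩
  have h1 : i ≤ (F k (N k)).support.sup id := Finset.le_sup (f := id) hi
  have h2 : N (k + 1) ≤ N k' := hmono hk
  have h3 := hF k' _ i' hi'
  have h4 := le_max_right (N k) ((F k (N k)).support.sup id)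
  rw [hN] at h2
  omega

/-- eventually small at every point of the unit ball -/
def dichSmall (u : ℕ → StrongDual 𝕜 X) (b : ℕ → ℕ →₀ 𝕜) (δ : ℝ) : Prop :=
  ∀ x : X, ‖x‖ ≤ 1 → ∀ᶠ n in atTop, ‖comb u (b n) x‖ ≤ δ

theorem dich_small_of_span {u : ℕ → StrongDual 𝕜 X} {b d : ℕ → ℕ →₀ 𝕜} {δ : ℝ} (hb : Blk b)
    (hs : dichSmall u b δ) (hd : Blk d)
    (hspan : ∀ᶠ k in atTop, d k ∈ Submodule.span 𝕜 (Set.range b)) : dichSmall u d δ := by
  intro x hx
  obtain ⟨n₀, hn₀⟩ := eventually_atTop.1 (hs x hx)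
  obtain ⟨i₀, hi₀⟩ := hb.dich_nonempty n₀
  filter_upwards [hspan, eventually_ge_atTop i₀] with k hk hki
  obtain ⟨t, ht⟩ := Finsupp.mem_span_range_iff_exists_finsupp.1 hk
  have ht' : d k = ∑ n ∈ t.support, t n • b n := ht.symm
  have h1 : ∑ n ∈ t.support, ‖t n‖ = 1 := by
    rw [← hb.dich_l1 t.support t, ← ht']
    exact hd.1 k
  have h2 : ∀ n ∈ t.support, n₀ ≤ n := by
    intro n hn
    by_contra hlt
    push Not at hlt
    obtain ⟨i, hi⟩ := hb.dich_nonempty n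
    have h3 : i ∈ (d k).support := by
      rw [Finsupp.mem_support_iff, ht', hb.dich_sum_apply t.support t hn hi]
      exact mul_ne_zero (Finsupp.mem_support_iff.1 hn) (Finsupp.mem_support_iff.1 hi)
    have h4 := hd.dich_le k i h3
    have h5 := hb.2 n n₀ hlt i hi i₀ hi₀
    omega
  rw [ht', dich_comb_sum, _root_.sum_apply]
  calc ‖∑ n ∈ t.support, (t n • comb u (b n)) x‖
      ≤ ∑ n ∈ t.support, ‖(t n • comb u (b n)) x‖ := norm_sum_le _ _
    _ ≤ ∑ n ∈ t.support, ‖t n‖ * δ := by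
        refine Finset.sum_le_sum fun n hn => ?_
        rw [_root_.smul_apply, norm_smul]
        exact mul_le_mul_of_nonneg_left (hn₀ n (h2 n hn)) (norm_nonneg _)
    _ = δ := by rw [← Finset.sum_mul, h1, one_mul]

theorem dich_blk_single : Blk (fun n : ℕ => (Finsupp.single n 1 : ℕ →₀ 𝕜)) := by
  refine ⟨fun n => ?_, fun n n' hn i hi i' hi' => ?_⟩
  · rw [Finsupp.support_single _ one_ne_zero]
    simp
  · rw [Finsupp.support_single _ one_ne_zero, Finset.mem_singleton] at hi hi'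
    omega

theorem dich : DichStmt 𝕜 X := by
  intro u _
  by_cases hR : ∃ (b : ℕ → ℕ →₀ 𝕜) (δ : ℝ), Blk b ∧ 0 < δ ∧ Stable u b δ
  · exact Or.inr hR
  left
  have hstep : ∀ (b : {b : ℕ → ℕ →₀ 𝕜 // Blk b}) (k : ℕ), ∃ b' : {b : ℕ → ℕ →₀ 𝕜 // Blk b},
      (∀ n, b'.1 n ∈ Submodule.span 𝕜 (Set.range b.1)) ∧
        dichSmall u b'.1 (1 / ((k : ℝ) + 1)) := by
    intro b k
    have h1 : ¬ Stable u b.1 (1 / ((k : ℝ) + 1)) := fun h =>
      hR ⟨b.1, _, b.2, Nat.one_div_pos_of_nat, h⟩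
    unfold Stable at h1
    simp only [not_forall, not_exists, not_and] at h1
    obtain ⟨b', hb', h2⟩ := h1
    refine ⟨⟨b', hb'.1⟩, hb'.2, fun x hx => ?_⟩
    have := h2 x hx
    rw [not_frequently] at this
    exact this.mono fun n hn => not_lt.1 hn
  choose G hG1 hG2 using hstep
  let B : ℕ → {b : ℕ → ℕ →₀ 𝕜 // Blk b} := fun k =>
    Nat.rec ⟨_, dich_blk_single⟩ (fun k b => G b k) k
  have hB : ∀ k, B (k + 1) = G (B k) k := fun _ => rfl
  have hanti : Antitone fun k => Submodule.span 𝕜 (Set.range (B k).1) := by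
    refine antitone_nat_of_succ_le fun k => ?_
    rw [Submodule.span_le]
    rintro _ ⟨n, rfl⟩
    rw [hB]
    exact hG1 (B k) k n
  obtain ⟨N, hN⟩ := dich_diag (fun k => (B k).1) (fun k n => (B k).2.dich_le n)
  have hd : Blk (fun k => (B k).1 (N k)) := ⟨fun k => (B k).2.1 (N k), hN⟩
  have hsmall : ∀ k : ℕ, dichSmall u (fun k => (B k).1 (N k)) (1 / ((k : ℝ) + 1)) := by
    intro k
    refine dich_small_of_span (B (k + 1)).2 (by rw [hB]; exact hG2 (B k) k) hd ?_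
    filter_upwards [eventually_ge_atTop (k + 1)] with m hm
    exact hanti hm (Submodule.subset_span ⟨N m, rfl⟩)
  refine ⟨_, hd, fun x => ?_⟩
  have hunit : ∀ x : X, ‖x‖ ≤ 1 →
      Tendsto (fun n => comb u ((B n).1 (N n)) x) atTop (𝓝 0) := by
    intro x hx
    rw [Metric.tendsto_nhds]
    intro ε hε
    obtain ⟨k, hk⟩ := exists_nat_one_div_lt hε
    filter_upwards [hsmall k x hx] with n hn
    rw [dist_zero_right]
    exact lt_of_le_of_lt hn hk
  have hpos : 0 < ‖x‖ + 1 := by positivity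
  have hne : ((‖x‖ + 1 : ℝ) : 𝕜) ≠ 0 := by exact_mod_cast hpos.ne'
  have h1 := hunit (((‖x‖ + 1 : ℝ) : 𝕜)⁻¹ • x) (by
    rw [norm_smul, norm_inv, RCLike.norm_ofReal, abs_of_pos hpos, inv_mul_le_iff₀ hpos]
    linarith)
  have h2 := h1.const_mul ((‖x‖ + 1 : ℝ) : 𝕜)
  rw [mul_zero] at h2
  refine h2.congr fun n => ?_
  rw [map_smul, smul_eq_mul, ← mul_assoc, mul_inv_cancel₀ hne, one_mul]

end Crest.Agent.R114
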