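import Crest.Agent.R114.Defs

/-!
# Row 114: existence of the coherent system and of a head function
-/

set_option autoImplicit false

open Filter Finset Topology

namespace Crest.Agent.R114

variable {Γ : Type} [LinearOrder Γ]

theorem rho_ladder (hc : ∀ a : Γ, (Set.Iio a).Countable) :
    ∃ c : Γ → ℕ → Γ, ∀ δ, (Set.Iio δ).Nonempty →
      (∀ n, c δ n < δ) ∧ (∀ n, c δ n ≤ c δ (n + 1)) ∧ ∀ ξ < δ, ∃ n, ξ ≤ c δ n := by
  have : ∀ δ : Γ, ∃ c : ℕ → Γ, (Set.Iio δ).Nonempty →
      (∀ n, c n < δ) ∧ (∀ n, c n ≤ c (n + 1)) ∧ ∀ ξ < δ, ∃ n, ξ ≤ c n := by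
    intro δ
    by_cases hne : (Set.Iio δ).Nonempty
    · obtain ⟨f, hf⟩ := (hc δ).exists_eq_range hne
      have hlt : ∀ n, f n < δ := fun n => by
        have : f n ∈ Set.Iio δ := hf ▸ Set.mem_range_self n
        exact this
      refine ⟨fun n => Nat.rec (f 0) (fun k m => max m (f (k + 1))) n, fun _ => ⟨?_, ?_, ?_⟩⟩
      · intro n
        induction n with
        | zero => exact hlt 0
        | succ k ih => exact max_lt ih (hlt _)
      · intro n
        exact le_max_left _ _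
      · intro ξ hξ
        have : ξ ∈ Set.range f := hf ▸ hξ
        obtain ⟨n, rfl⟩ := this
        refine ⟨n, ?_⟩
        cases n with
        | zero => exact le_rfl
        | succ k => exact le_max_right _ _
    · exact ⟨fun _ => δ, fun h => absurd h hne⟩
  choose c hc using this
  exact ⟨c, hc⟩

open Classical in
/-- one step of the recursion -/
noncomputable def rhoStep (c : ℕ → Γ) (G : Γ → ℕ → Finset Γ) (p : ℕ) : Finset Γ :=
  insert (c (Nat.findGreatest (fun n => ∀ i < n, c i = c (i + 1) ∨ c i ∈ G (c (i + 1)) p) p))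
    (G (c (Nat.findGreatest (fun n => ∀ i < n, c i = c (i + 1) ∨ c i ∈ G (c (i + 1)) p) p)) p)

theorem rho_step_congr (c : ℕ → Γ) {G G' : Γ → ℕ → Finset Γ} (h : ∀ n, G (c n) = G' (c n)) :
    rhoStep c G = rhoStep c G' := by
  funext p
  simp only [rhoStep, h]

theorem rho_step_spec (c : ℕ → Γ) (G : Γ → ℕ → Finset Γ) (p : ℕ) :
    ∃ N, rhoStep c G p = insert (c N) (G (c N) p) ∧ N ≤ p ∧
      (∀ i < N, c i = c (i + 1) ∨ c i ∈ G (c (i + 1)) p) ∧
      ∀ n ≤ p, (∀ i < n, c i = c (i + 1) ∨ c i ∈ G (c (i + 1)) p) → n ≤ N := by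
  classical
  refine ⟨_, by unfold rhoStep; congr, Nat.findGreatest_le p, ?_, fun n hn h => ?_⟩
  · exact Nat.findGreatest_spec
      (P := fun n => ∀ i < n, c i = c (i + 1) ∨ c i ∈ G (c (i + 1)) p) (Nat.zero_le p)
      fun i hi => absurd hi (Nat.not_lt_zero i)
  · exact Nat.le_findGreatest hn h

theorem rho_fix [WellFoundedLT Γ] (c : Γ → ℕ → Γ)
    (hc : ∀ δ, (Set.Iio δ).Nonempty → ∀ n, c δ n < δ) :
    ∃ F : Γ → ℕ → Finset Γ, ∀ δ, ((Set.Iio δ).Nonempty → F δ = rhoStep (c δ) F) ∧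
      (¬ (Set.Iio δ).Nonempty → F δ = fun _ => ∅) := by
  classical
  let Φ : ∀ δ : Γ, (∀ ξ, ξ < δ → ℕ → Finset Γ) → ℕ → Finset Γ := fun δ G =>
    if (Set.Iio δ).Nonempty then
      rhoStep (c δ) (fun ξ => if h : ξ < δ then G ξ h else fun _ => ∅) else fun _ => ∅
  refine ⟨(wellFounded_lt (α := Γ)).fix Φ, fun δ => ⟨fun hne => ?_, fun hne => ?_⟩⟩
  · rw [WellFounded.fix_eq]
    simp only [Φ, if_pos hne]
    exact rho_step_congr _ fun n => dif_pos (hc δ hne n)
  · rw [WellFounded.fix_eq]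
    simp only [Φ, if_neg hne]

theorem exists_rho [WellFoundedLT Γ] (hc : ∀ a : Γ, (Set.Iio a).Countable) :
    Nonempty (Rho Γ) := by
  obtain ⟨c, hcs⟩ := rho_ladder hc
  obtain ⟨F, hF⟩ := rho_fix c fun δ h => (hcs δ h).1
  have main : ∀ δ, (∀ ξ p, ξ ∈ F δ p → ξ < δ) ∧
      (∀ ξ p, ξ ∈ F δ p → F ξ p = (F δ p).filter (· < ξ)) ∧
      (∀ p q, p ≤ q → F δ p ⊆ F δ q) ∧ ∀ ξ < δ, ∃ p, ξ ∈ F δ p := by
    intro δ
    induction δ using WellFoundedLT.induction with
    | ind δ ih =>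
    by_cases hne : (Set.Iio δ).Nonempty
    swap
    · rw [(hF δ).2 hne]
      exact ⟨fun _ _ h => absurd h (notMem_empty _), fun _ _ h => absurd h (notMem_empty _),
        fun _ _ _ => Subset.refl _, fun ξ hξ => absurd ⟨ξ, hξ⟩ hne⟩
    obtain ⟨h1, h2, h3⟩ := hcs δ hne
    rw [(hF δ).1 hne]
    set e := c δ
    have ih1 := fun n => (ih (e n) (h1 n)).1
    have ih2 := fun n => (ih (e n) (h1 n)).2.1
    have ih3 := fun n => (ih (e n) (h1 n)).2.2.1
    have ih4 := fun n => (ih (e n) (h1 n)).2.2.2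
    have chain : ∀ p n N, n ≤ N → (∀ i < N, e i = e (i + 1) ∨ e i ∈ F (e (i + 1)) p) →
        insert (e n) (F (e n) p) ⊆ insert (e N) (F (e N) p) := by
      intro p n N hn h
      induction N, hn using Nat.le_induction with
      | base => exact Subset.refl _
      | succ N hn ihN =>
        refine (ihN fun i hi => h i (by omega)).trans ?_
        rcases h N (Nat.lt_succ_self N) with he | he
        · rw [← he]
        · refine insert_subset (mem_insert_of_mem he) ?_
          rw [ih2 _ _ _ he]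
          exact (filter_subset _ _).trans (subset_insert _ _)
    refine ⟨fun ξ p h => ?_, fun ξ p h => ?_, fun p q hpq => ?_, fun ξ hξ => ?_⟩
    · obtain ⟨N, hN, -⟩ := rho_step_spec e F p
      rw [hN] at h
      rcases mem_insert.1 h with rfl | h
      · exact h1 N
      · exact (ih1 N ξ p h).trans (h1 N)
    · obtain ⟨N, hN, -⟩ := rho_step_spec e F p
      rw [hN] at h ⊢
      rcases mem_insert.1 h with rfl | h
      · rw [filter_insert, if_neg (lt_irrefl _), filter_true_of_mem fun η hη => ih1 N η p hη]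
      · rw [filter_insert, if_neg (not_lt.2 (ih1 N ξ p h).le)]
        exact ih2 N ξ p h
    · obtain ⟨N, hN, hNp, hN1, -⟩ := rho_step_spec e F p
      obtain ⟨M, hM, -, hM1, hM2⟩ := rho_step_spec e F q
      rw [hN, hM]
      refine (insert_subset_insert _ (ih3 N p q hpq)).trans (chain q N M ?_ hM1)
      exact hM2 N (hNp.trans hpq) fun i hi => (hN1 i hi).imp id fun h => ih3 _ p q hpq h
    · obtain ⟨n, hn⟩ := h3 ξ hξ
      have ev : ∀ {η : Γ} {k : ℕ}, η ≤ e k → ∀ᶠ p in atTop, η = e k ∨ η ∈ F (e k) p := by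
        intro η k hle
        rcases hle.eq_or_lt with h | h
        · exact Eventually.of_forall fun _ => Or.inl h
        · obtain ⟨p, hp⟩ := ih4 k η h
          filter_upwards [eventually_ge_atTop p] with q hq using Or.inr (ih3 k p q hq hp)
      have e1 : ∀ᶠ p in atTop, ∀ i ∈ Set.Iio n, e i = e (i + 1) ∨ e i ∈ F (e (i + 1)) p :=
        (eventually_all_finite (Set.finite_Iio n)).2 fun i _ => ev (h2 i)
      obtain ⟨p, hp1, hp2, hp3⟩ := (e1.and ((ev hn).and (eventually_ge_atTop n))).exists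
      obtain ⟨N, hN, -, hN1, hN2⟩ := rho_step_spec e F p
      refine ⟨p, ?_⟩
      rw [hN]
      exact chain p n N (hN2 n hp3 hp1) hN1 (mem_insert.2 hp2)
  exact ⟨⟨F, fun h => (main _).1 _ _ h, fun δ _ _ h => (main δ).2.2.1 _ _ h,
    fun h => (main _).2.2.2 _ h, fun h => (main _).2.1 _ _ h⟩⟩

omit [LinearOrder Γ] in
theorem rho_uncountable (hΓ : Cardinal.mk Γ = Cardinal.aleph 1) : Uncountable Γ := by
  rw [← Cardinal.aleph0_lt_mk_iff, hΓ]
  exact Cardinal.aleph0_lt_aleph_one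

theorem exists_bound (hΓ : Cardinal.mk Γ = Cardinal.aleph 1)
    (hc : ∀ a : Γ, (Set.Iio a).Countable) (S : Set Γ) (hS : S.Countable) :
    ∃ β, ∀ δ ∈ S, δ < β := by
  have := rho_uncountable hΓ
  by_contra hcon
  push Not at hcon
  have h1 : (⋃ δ ∈ S, insert δ (Set.Iio δ)).Countable :=
    hS.biUnion fun δ _ => (hc δ).insert δ
  refine Set.not_countable_univ (h1.mono fun β _ => ?_)
  obtain ⟨δ, hδ, hle⟩ := hcon β
  exact Set.mem_biUnion hδ hle.eq_or_lt

theorem exists_head (hCH : Cardinal.mk ℝ = Cardinal.aleph 1)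
    (hΓ : Cardinal.mk Γ = Cardinal.aleph 1) (hc : ∀ a : Γ, (Set.Iio a).Countable) (ρ : Rho Γ) :
    ∃ h : Branch ρ → Γ, IsHead h := by
  have := rho_uncountable hΓ
  have hcont : Cardinal.aleph 1 = Cardinal.continuum := by rw [← hCH, Cardinal.mk_real]
  have hFn : Cardinal.mk (Fn Γ) = Cardinal.continuum := by
    rw [Cardinal.mk_finsupp_of_infinite, hΓ, hcont, Cardinal.mk_eq_aleph0 ℚ,
      max_eq_left Cardinal.aleph0_le_continuum]
  have hB : Cardinal.mk (Branch ρ) ≤ Cardinal.mk Γ := by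
    have hinj : Function.Injective fun b : Branch ρ => (b.w, b.j) := by
      intro b b' h
      obtain ⟨hw, hj⟩ := Prod.mk.inj h
      cases b; cases b'
      simp only at hw hj
      subst hw hj
      rfl
    refine (Cardinal.mk_le_of_injective hinj).trans (le_of_eq ?_)
    rw [Cardinal.mk_prod, Cardinal.lift_id, Cardinal.lift_id, ← Cardinal.power_def,
      ← Cardinal.power_def, hFn, Cardinal.mk_nat, Cardinal.continuum_power_aleph0,
      Cardinal.aleph0_power_aleph0, Cardinal.continuum_mul_self, hΓ, hcont]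
  obtain ⟨ι⟩ := (Cardinal.le_def _ _).1 hB
  have hP : Cardinal.mk (Γ × Γ) ≤ Cardinal.mk Γ := by
    rw [Cardinal.mk_prod, Cardinal.lift_id, hΓ, hcont, Cardinal.continuum_mul_self]
  obtain ⟨e⟩ := (Cardinal.le_def _ _).1 hP
  have key : ∀ b : Branch ρ, ∃ ξ, ∀ i, ∀ δ ∈ (b.w i).support, δ < e (ι b, ξ) := by
    intro b
    obtain ⟨β, hβ⟩ := exists_bound hΓ hc (⋃ i, ((b.w i).support : Set Γ))
      (Set.countable_iUnion fun i => (b.w i).support.countable_toSet)
    have : ∃ ξ, β ≤ e (ι b, ξ) := by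
      by_contra hcon
      push Not at hcon
      refine Set.not_countable_univ (((hc β).preimage_of_injOn (f := fun ξ => e (ι b, ξ))
        fun x _ y _ h => (Prod.mk.inj (e.injective h)).2).mono fun ξ _ => hcon ξ)
    obtain ⟨ξ, hξ⟩ := this
    exact ⟨ξ, fun i δ hδ => (hβ δ (Set.mem_iUnion.2 ⟨i, hδ⟩)).trans_le hξ⟩
  choose ξ hξ using key
  exact ⟨fun b => e (ι b, ξ b),
    fun b b' h => ι.injective (Prod.mk.inj (e.injective h)).1, hξ⟩

/-- the first uncountable ordinal as a type -/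
abbrev Γ1 : Type := (Ordinal.omega.{0} 1).ToType

theorem omega1_facts :
    Cardinal.mk Γ1 = Cardinal.aleph 1 ∧ ∀ a : Γ1, (Set.Iio a).Countable := by
  have h1 : Cardinal.mk Γ1 = Cardinal.aleph 1 := by
    rw [Cardinal.mk_toType, Ordinal.card_omega]
  refine ⟨h1, fun a => ?_⟩
  rw [Cardinal.countable_iff_lt_aleph_one, ← h1]
  refine Cardinal.mk_Iio_lt a ?_
  rw [h1, Cardinal.ord_aleph, Ordinal.type_toType]

end Crest.Agent.R114
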