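import Crest.Agent.R114.Space
import Crest.Agent.R114.Rho

/-!
# Row 114: the space `X` spanned by a frame has no separable quotient
-/

set_option autoImplicit false
set_option linter.unusedSectionVars false

open Filter Finset Topology

namespace Crest.Agent.R114

variable {Γ : Type} [LinearOrder Γ] [WellFoundedLT Γ] {ρ : Rho Γ} {𝕜 : Type} [RCLike 𝕜]

/-- the closed span of the frame -/
noncomputable def XS (x : Γ → StrongDual 𝕜 (Z ρ 𝕜)) : Submodule 𝕜 (StrongDual 𝕜 (Z ρ 𝕜)) :=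
  (Submodule.span 𝕜 (Set.range x)).topologicalClosure

theorem XS_closed (x : Γ → StrongDual 𝕜 (Z ρ 𝕜)) : IsClosed (XS x : Set (StrongDual 𝕜 (Z ρ 𝕜))) :=
  Submodule.isClosed_topologicalClosure _

theorem mem_XS_of_span {x : Γ → StrongDual 𝕜 (Z ρ 𝕜)} {u : StrongDual 𝕜 (Z ρ 𝕜)}
    (h : u ∈ Submodule.span 𝕜 (Set.range x)) : u ∈ XS x := Submodule.le_topologicalClosure _ h

theorem mem_XS (x : Γ → StrongDual 𝕜 (Z ρ 𝕜)) (α : Γ) : x α ∈ XS x :=
  mem_XS_of_span (Submodule.subset_span ⟨α, rfl⟩)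

/-- the closed span of the frame, as a type -/
def XT (x : Γ → StrongDual 𝕜 (Z ρ 𝕜)) : Type := ↥(XS x)

noncomputable instance (x : Γ → StrongDual 𝕜 (Z ρ 𝕜)) : NormedAddCommGroup (XT x) :=
  inferInstanceAs (NormedAddCommGroup ↥(XS x))

noncomputable instance (x : Γ → StrongDual 𝕜 (Z ρ 𝕜)) : NormedSpace 𝕜 (XT x) :=
  inferInstanceAs (NormedSpace 𝕜 ↥(XS x))

/-- the underlying functional -/
def XT.val {x : Γ → StrongDual 𝕜 (Z ρ 𝕜)} (u : XT x) : StrongDual 𝕜 (Z ρ 𝕜) := Subtype.val u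

/-- constructor -/
def XT.mk {x : Γ → StrongDual 𝕜 (Z ρ 𝕜)} (u : StrongDual 𝕜 (Z ρ 𝕜)) (h : u ∈ XS x) : XT x :=
  (⟨u, h⟩ : ↥(XS x))

theorem XT.mem {x : Γ → StrongDual 𝕜 (Z ρ 𝕜)} (u : XT x) : u.val ∈ XS x := Subtype.property u

theorem XT.norm_val {x : Γ → StrongDual 𝕜 (Z ρ 𝕜)} (u : XT x) : ‖u.val‖ = ‖u‖ := rfl

theorem XT.complete (x : Γ → StrongDual 𝕜 (Z ρ 𝕜)) : CompleteSpace (XT x) :=
  (XS_closed x).completeSpace_coe

/-- the inclusion as a linear map -/
def XT.valL (x : Γ → StrongDual 𝕜 (Z ρ 𝕜)) : XT x →ₗ[𝕜] StrongDual 𝕜 (Z ρ 𝕜) where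
  toFun := XT.val
  map_add' _ _ := rfl
  map_smul' _ _ := rfl

/-- evaluation at a point of `Z` -/
noncomputable def JX (x : Γ → StrongDual 𝕜 (Z ρ 𝕜)) : Z ρ 𝕜 →ₗ[𝕜] StrongDual 𝕜 (XT x) where
  toFun a := LinearMap.mkContinuous
    { toFun := fun u => u.val a
      map_add' := fun _ _ => rfl
      map_smul' := fun _ _ => rfl } ‖a‖ fun u => by
      rw [mul_comm]; exact u.val.le_opNorm a
  map_add' a b := by ext u; exact map_add u.val a b
  map_smul' c a := by ext u; exact map_smul u.val c a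

theorem JX_apply (x : Γ → StrongDual 𝕜 (Z ρ 𝕜)) (a : Z ρ 𝕜) (u : XT x) :
    JX x a u = u.val a := rfl

theorem XT.approx {x : Γ → StrongDual 𝕜 (Z ρ 𝕜)} (u : XT x) {ε : ℝ} (hε : 0 < ε) :
    ∃ v : XT x, v.val ∈ Submodule.span 𝕜 (Set.range x) ∧ ‖u - v‖ < ε := by
  have h : u.val ∈ closure (Submodule.span 𝕜 (Set.range x) : Set (StrongDual 𝕜 (Z ρ 𝕜))) := u.mem
  obtain ⟨v, hv, h1⟩ := Metric.mem_closure_iff.1 h ε hε
  exact ⟨XT.mk v (mem_XS_of_span hv), hv, by rw [dist_eq_norm] at h1; exact h1⟩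

open Classical in
/-- evaluation with junk value -/
noncomputable def evJ (u : StrongDual 𝕜 (Z ρ 𝕜)) (f : Γ → 𝕜) : 𝕜 :=
  if h : ∃ C, NLe ρ f C then u (Z.mk f h) else 0

theorem evJ_val (u : StrongDual 𝕜 (Z ρ 𝕜)) (a : Z ρ 𝕜) : evJ u a.val = u a := by
  unfold evJ; rw [dif_pos a.bdd]; rfl

/-- values on the frame determine values on spans -/
theorem final_span {x : Γ → StrongDual 𝕜 (Z ρ 𝕜)} (φ : StrongDual 𝕜 (XT x)) (a : Z ρ 𝕜)
    (S : Set Γ) (h : ∀ β ∈ S, x β a = φ (XT.mk (x β) (mem_XS x β))) (u : StrongDual 𝕜 (Z ρ 𝕜))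
    (hu : u ∈ Submodule.span 𝕜 (x '' S)) (hu' : u ∈ XS x) : u a = φ (XT.mk u hu') := by
  have hsub : ∀ v, v ∈ Submodule.span 𝕜 (x '' S) → v ∈ XS x := fun v hv =>
    mem_XS_of_span (Submodule.span_mono (Set.image_subset_range _ _) hv)
  induction hu using Submodule.span_induction with
  | mem v hv => obtain ⟨β, hβ, rfl⟩ := hv; exact h β hβ
  | zero => exact (map_zero φ).symm
  | add v v' hv hv' ih ih' =>
    rw [add_apply, ih (hsub v hv), ih' (hsub v' hv'), ← map_add]; rfl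
  | smul c v hv ih =>
    rw [smul_apply, ih (hsub v hv), ← map_smul]; rfl

/-- every functional on `X` is given by an element of `Z` -/
theorem final_surj {x : Γ → StrongDual 𝕜 (Z ρ 𝕜)} (hx : IsFrame ρ x) (φ : StrongDual 𝕜 (XT x)) :
    ∃ a : Z ρ 𝕜, JX x a = φ := by
  classical
  let f : Γ → 𝕜 := WellFounded.fix (wellFounded_lt (α := Γ)) fun α ih =>
    φ (XT.mk (x α) (mem_XS x α)) - evJ (x α) fun β => if h : β < α then ih β h else 0
  have hf : ∀ α, f α = φ (XT.mk (x α) (mem_XS x α)) - evJ (x α) ((Set.Iio α).indicator f) := by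
    intro α
    have h1 : f α = φ (XT.mk (x α) (mem_XS x α)) - evJ (x α) fun β => if _ : β < α then f β else 0 :=
      WellFounded.fix_eq _ _ _
    rw [h1]
    congr 2
    funext β
    by_cases h : β < α <;> simp [h]
  have lower : ∀ L : Set Γ, IsLowerSet L →
      (∀ β ∈ L, NLe ρ ((Set.Iic β).indicator f) (4 * ‖φ‖)) → NLe ρ (L.indicator f) (4 * ‖φ‖) := by
    intro L hL h w hw
    set s := w.support.filter (· ∈ L) with hs
    rcases s.eq_empty_or_nonempty with h0 | h0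
    · rw [act_eq_zero, norm_zero]
      · positivity
      · intro δ hδ
        have : δ ∉ L := fun h1 => by
          have : δ ∈ s := mem_filter.2 ⟨hδ, h1⟩
          simp [h0] at this
        simp [this]
    · have hm := mem_filter.1 (s.max'_mem h0)
      rw [act_congr w (a' := (Set.Iic (s.max' h0)).indicator f)]
      · exact h _ hm.2 w hw
      · intro δ hδ
        by_cases h1 : δ ∈ L
        · have : δ ≤ s.max' h0 := s.le_max' δ (mem_filter.2 ⟨hδ, h1⟩)
          simp [h1, this]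
        · have : ¬ δ ≤ s.max' h0 := fun h2 => h1 (hL h2 hm.2)
          simp [h1, this]
  -- values on the frame
  have hval : ∀ (a : Z ρ 𝕜) (β : Γ), (∀ δ ≤ β, a.val δ = f δ) →
      x β a = φ (XT.mk (x β) (mem_XS x β)) := by
    intro a β h
    rw [← hx.tri, pIic_eq, map_add, map_smul, hx.diag, h β le_rfl, hf β, ← evJ_val]
    have : (pIio ρ 𝕜 β a).val = (Set.Iio β).indicator f := by
      funext δ
      by_cases h1 : δ < β
      · simp [h1, h δ h1.le]
      · simp [h1]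
    rw [this]; simp
  have main : ∀ α, NLe ρ ((Set.Iic α).indicator f) (4 * ‖φ‖) := by
    intro α
    induction α using WellFoundedLT.induction with
    | ind α ih =>
      have h1 := lower _ (isLowerSet_Iio α) ih
      let a : Z ρ 𝕜 := Z.mk _ ⟨_, h1⟩ + f α • ofFin ρ 𝕜 (Finsupp.single α 1)
      have ha : a.val = (Set.Iic α).indicator f := by
        funext δ
        simp only [a, Z.val_add, Z.val_mk, Z.val_smul, ofFin_val, Pi.add_apply, Pi.smul_apply,
          smul_eq_mul]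
        rcases lt_trichotomy δ α with h | h | h
        · simp [h, h.le, Finsupp.single_eq_of_ne h.ne]
        · subst h; simp
        · simp [h.not_ge, h.not_gt, Finsupp.single_eq_of_ne h.ne']
      rw [← ha, ← Z.norm_le_iff]
      refine hx.norming α a ‖φ‖ (norm_nonneg _) (Z.ext ?_) fun u hu => ?_
      · rw [proj_val, ha, Set.indicator_indicator, Set.inter_self]
      · have hu' : u ∈ XS x :=
          mem_XS_of_span (Submodule.span_mono (Set.image_subset_range _ _) hu)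
        rw [final_span φ a (Set.Iic α) (fun β hβ => hval a β fun δ hδ => ?_) u hu hu']
        · exact φ.le_opNorm (XT.mk u hu')
        · rw [ha]; simp [hδ.trans hβ]
  have h2 := lower Set.univ isLowerSet_univ fun β _ => main β
  rw [Set.indicator_univ] at h2
  let a : Z ρ 𝕜 := Z.mk f ⟨_, h2⟩
  have h3 : ∀ v : XT x, v.val ∈ Submodule.span 𝕜 (Set.range x) → (JX x a - φ) v = 0 := by
    intro v hv
    rw [sub_apply, JX_apply, sub_eq_zero]
    exact final_span φ a Set.univ (fun β _ => hval a β fun _ _ => rfl) v.val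
      (by simpa using hv) v.mem
  refine ⟨a, sub_eq_zero.1 ?_⟩
  ext u
  have hcl : IsClosed {u : XT x | (JX x a - φ) u = 0} :=
    isClosed_eq (JX x a - φ).continuous continuous_const
  have : u ∈ closure {u : XT x | (JX x a - φ) u = 0} := by
    rw [Metric.mem_closure_iff]
    intro ε hε
    obtain ⟨v, hv, h4⟩ := u.approx hε
    exact ⟨v, h3 v hv, by rwa [dist_eq_norm]⟩
  rw [hcl.closure_eq] at this
  exact this

theorem final_li {x : Γ → StrongDual 𝕜 (Z ρ 𝕜)} (hx : IsFrame ρ x) : LinearIndependent 𝕜 x := by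
  classical
  rw [linearIndependent_iff']
  intro s g hg
  by_contra hcon
  push Not at hcon
  set t := s.filter (fun i => g i ≠ 0) with ht
  have hne : t.Nonempty := by
    obtain ⟨i, hi, h⟩ := hcon
    exact ⟨i, mem_filter.2 ⟨hi, h⟩⟩
  have hm := mem_filter.1 (t.max'_mem hne)
  set α := t.max' hne with hα
  have h1 := congrArg (fun u : StrongDual 𝕜 (Z ρ 𝕜) => u (ofFin ρ 𝕜 (Finsupp.single α 1))) hg
  simp only [_root_.sum_apply, smul_apply, zero_apply, smul_eq_mul] at h1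
  rw [sum_eq_single α, hx.diag, mul_one] at h1
  · exact hm.2 h1
  · intro β hβ hne'
    by_cases h0 : g β = 0
    · rw [h0, zero_mul]
    · have h2 : β < α := lt_of_le_of_ne (t.le_max' β (mem_filter.2 ⟨hβ, h0⟩)) hne'
      have h3 : pIic ρ 𝕜 β (ofFin ρ 𝕜 (Finsupp.single α 1)) = 0 := by
        ext δ
        by_cases h4 : δ ≤ β
        · simp [h4, Finsupp.single_eq_of_ne (h4.trans_lt h2).ne]
        · simp [h4]
      rw [← hx.tri, h3, map_zero, mul_zero]
  · intro h; exact absurd hm.1 h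

theorem final_inf [Infinite Γ] {x : Γ → StrongDual 𝕜 (Z ρ 𝕜)} (hx : IsFrame ρ x) :
    ¬ FiniteDimensional 𝕜 (XT x) := by
  intro h
  have h1 : LinearIndependent 𝕜 fun α => XT.mk (x α) (mem_XS x α) :=
    LinearIndependent.of_comp (XT.valL x) (final_li hx)
  exact not_finite_iff_infinite.2 ‹Infinite Γ› h1.finite

theorem final_fd {X : Type} [NormedAddCommGroup X] [NormedSpace 𝕜 X]
    (h1 : FiniteDimensional 𝕜 (StrongDual 𝕜 X)) : FiniteDimensional 𝕜 X := by
  have h2 : FiniteDimensional 𝕜 (StrongDual 𝕜 (StrongDual 𝕜 X)) :=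
    inferInstanceAs (FiniteDimensional 𝕜 (StrongDual 𝕜 X →L[𝕜] 𝕜))
  have key : ∀ {W : Type} [NormedAddCommGroup W] [NormedSpace 𝕜 W] (f : X →ₗᵢ[𝕜] W),
      FiniteDimensional 𝕜 W → FiniteDimensional 𝕜 X := fun f _ =>
    FiniteDimensional.of_injective f.toLinearMap f.injective
  exact key (W := StrongDual 𝕜 (StrongDual 𝕜 X)) (NormedSpace.inclusionInDoubleDualLi 𝕜 (E := X)) h2

/-- the annihilator of a closed subspace of infinite codimension is infinite-dimensional -/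
theorem final_annih {X W : Type} [NormedAddCommGroup X] [NormedSpace 𝕜 X] [AddCommGroup W]
    [Module 𝕜 W] (J : W →ₗ[𝕜] StrongDual 𝕜 X) (hJ : Function.Surjective J) (M : Submodule 𝕜 X)
    (hM : IsClosed (M : Set X)) (G : Submodule 𝕜 W) (hG : ∀ a, (∀ u ∈ M, J a u = 0) → a ∈ G)
    (hf : FiniteDimensional 𝕜 G) : FiniteDimensional 𝕜 (X ⧸ M) := by
  let q : X →L[𝕜] X ⧸ M := M.mkQL
  have hq : ∀ u, q u = M.mkQ u := fun _ => rfl
  have hmem : ∀ ψ : StrongDual 𝕜 (X ⧸ M), ψ.comp q ∈ G.map J := by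
    intro ψ
    obtain ⟨a, ha⟩ := hJ (ψ.comp q)
    refine ⟨a, hG a fun u hu => ?_, ha⟩
    rw [ha, ContinuousLinearMap.comp_apply, hq, Submodule.mkQ_apply,
      (Submodule.Quotient.mk_eq_zero M).2 hu, map_zero]
  let L : StrongDual 𝕜 (X ⧸ M) →ₗ[𝕜] G.map J :=
    { toFun := fun ψ => ⟨ψ.comp q, hmem ψ⟩
      map_add' := fun _ _ => rfl
      map_smul' := fun _ _ => rfl }
  have hL : Function.Injective L := by
    intro ψ ψ' h
    ext v
    obtain ⟨u, rfl⟩ := M.mkQ_surjective v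
    exact congrArg (fun z : G.map J => (z : StrongDual 𝕜 X) u) h
  have h0 : FiniteDimensional 𝕜 (G.map J) := Module.Finite.map G J
  have h1 : FiniteDimensional 𝕜 (StrongDual 𝕜 (X ⧸ M)) :=
    FiniteDimensional.of_injective (V₂ := G.map J) L hL
  exact final_fd h1

theorem final_main {x : Γ → StrongDual 𝕜 (Z ρ 𝕜)} (hx : IsFrame ρ x) (hR : ReduceStmt ρ 𝕜)
    (M : Submodule 𝕜 (XT x)) (hM : IsClosed (M : Set (XT x)))
    (hs : TopologicalSpace.SeparableSpace (XT x ⧸ M)) : FiniteDimensional 𝕜 (XT x ⧸ M) := by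
  let G : Submodule 𝕜 (Z ρ 𝕜) :=
    { carrier := {a | ∀ u ∈ M, JX x a u = 0}
      add_mem' := fun {a b} ha hb u hu => by
        rw [map_add, add_apply, ha u hu, hb u hu, add_zero]
      zero_mem' := fun u _ => by rw [map_zero, zero_apply]
      smul_mem' := fun c a ha u hu => by rw [map_smul, smul_apply, ha u hu, smul_zero] }
  refine final_annih (JX x) (final_surj hx) M hM G (fun a h => h) ?_
  by_contra hG
  obtain ⟨d, hd⟩ := TopologicalSpace.exists_dense_seq (XT x ⧸ M)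
  choose e he using fun k => M.mkQ_surjective (d k)
  obtain ⟨a, C, haG, haC, hD, hc, b, hb⟩ := hR G hG fun k => (e k).val
  have hC : 0 ≤ C := (norm_nonneg _).trans (haC 0)
  refine hb (hx.null a C haC (fun α => ?_) (fun δ => ?_) b)
  · rw [Metric.tendsto_nhds]
    intro ε hε
    set u : XT x := XT.mk (x α) (mem_XS x α) with hu
    obtain ⟨k, hk⟩ := hd.exists_dist_lt (M.mkQ u) (ε := ε / (C + 1)) (by positivity)
    rw [dist_eq_norm, ← he k, ← map_sub] at hk
    obtain ⟨v, hv, hv'⟩ := QuotientAddGroup.norm_lt_iff.1 hk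
    have hm : u - e k - v ∈ M := by
      rw [← Submodule.Quotient.eq]; exact hv.symm
    filter_upwards [hD k] with l hl
    have h1 := haG l _ hm
    rw [map_sub, map_sub, JX_apply, JX_apply, JX_apply, hl, sub_zero, sub_eq_zero] at h1
    have h2 : x α (a l) = v.val (a l) := h1
    rw [dist_zero_right, h2]
    calc _ ≤ ‖v‖ * ‖a l‖ := v.val.le_opNorm _
      _ ≤ ‖v‖ * (C + 1) := mul_le_mul_of_nonneg_left (by linarith [haC l]) (norm_nonneg _)
      _ < ε := by rwa [lt_div_iff₀ (by positivity)] at hv'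
  · exact tendsto_const_nhds.congr' ((hc δ).mono fun l hl => hl.symm)

/-- assembly of the counterexample -/
theorem final_all (𝕜 : Type) [RCLike 𝕜] (hCH : Cardinal.mk ℝ = Cardinal.aleph 1)
    (hF : ∀ (ρ : Rho Γ1) (h : Branch ρ → Γ1), IsHead h →
      ∃ x : Γ1 → StrongDual 𝕜 (Z ρ 𝕜), IsFrame ρ x)
    (hR : ∀ ρ : Rho Γ1, (∀ S : Set Γ1, S.Countable → ∃ β, ∀ δ ∈ S, δ < β) → ReduceStmt ρ 𝕜) :
    ∃ (X : Type) (_ : NormedAddCommGroup X) (_ : NormedSpace 𝕜 X),
      CompleteSpace X ∧ ¬ FiniteDimensional 𝕜 X ∧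
      ∀ M : Submodule 𝕜 X, IsClosed (M : Set X) →
        TopologicalSpace.SeparableSpace (X ⧸ M) → FiniteDimensional 𝕜 (X ⧸ M) := by
  obtain ⟨hΓ, hc⟩ := omega1_facts
  obtain ⟨ρ⟩ := exists_rho hc
  obtain ⟨h, hh⟩ := exists_head hCH hΓ hc ρ
  obtain ⟨x, hx⟩ := hF ρ h hh
  have := rho_uncountable hΓ
  exact ⟨XT x, inferInstance, inferInstance, XT.complete x, final_inf hx,
    final_main hx (hR ρ (exists_bound hΓ hc))⟩

end Crest.Agent.R114
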