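import Crest.Agent.R114.DefsQ
import Crest.Agent.R114.Dich

/-!
# Row 114, statement S0153: assembly of the cases
-/

set_option autoImplicit false

open Filter Finset Topology

namespace Crest.Agent.R114

universe u

variable {𝕜 : Type} [RCLike 𝕜] {X : Type u} [NormedAddCommGroup X] [NormedSpace 𝕜 X]

/-- `KProp` passes to combinations with disjoint supports -/
theorem glue_kprop_comb {h : ℕ → StrongDual 𝕜 X} (hK : KProp h) (c : ℕ → ℕ →₀ 𝕜)
    (hc : ∀ j j', j ≠ j' → Disjoint (c j).support (c j').support) :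
    KProp (fun j => comb h (c j)) := by
  intro s a
  obtain ⟨x, hx, h0, hn⟩ := hK (s.biUnion (fun k => (c k).support))
    (∑ k ∈ s, a k • c k : ℕ →₀ 𝕜)
  have he : ∑ j ∈ s, a j • comb h (c j) =
      ∑ i ∈ s.biUnion (fun k => (c k).support), (∑ k ∈ s, a k • c k) i • h i := by
    rw [← dich_comb_sum, dich_comb_superset h _ (dich_support_sum c s a)]
  refine ⟨x, hx, fun j hj => ?_, ?_⟩
  · show comb h (c j) x = 0
    unfold comb
    rw [_root_.sum_apply]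
    refine Finset.sum_eq_zero fun i hi => ?_
    have : i ∉ s.biUnion (fun k => (c k).support) := by
      intro hi'
      obtain ⟨k, hk, hik⟩ := Finset.mem_biUnion.1 hi'
      have hjk : j ≠ k := fun e => hj (e ▸ hk)
      exact Finset.disjoint_left.1 (hc j k hjk) hi hik
    rw [_root_.smul_apply, h0 i this, smul_zero]
  · show ‖∑ j ∈ s, a j • comb h (c j)‖ ≤ 4 * ‖(∑ j ∈ s, a j • comb h (c j)) x‖
    rw [he]
    exact hn

/-- suppression unconditionality -/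
theorem glue_supp {u : ℕ → StrongDual 𝕜 X} (hK : KProp u) {A s : Finset ℕ} (hA : A ⊆ s)
    (a : ℕ → 𝕜) : ‖∑ j ∈ A, a j • u j‖ ≤ 4 * ‖∑ j ∈ s, a j • u j‖ := by
  obtain ⟨x, hx, h0, hn⟩ := hK A a
  have h1 : (∑ j ∈ A, a j • u j) x = (∑ j ∈ s, a j • u j) x := by
    rw [_root_.sum_apply, _root_.sum_apply]
    refine Finset.sum_subset hA fun j _ hj => ?_
    rw [_root_.smul_apply, h0 j hj, smul_zero]
  have h2 : ‖(∑ j ∈ s, a j • u j) x‖ ≤ ‖∑ j ∈ s, a j • u j‖ :=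
    ContinuousLinearMap.unit_le_opNorm _ _ hx
  rw [h1] at hn
  linarith

theorem glue_norm_I : ‖(RCLike.I : 𝕜)‖ ≤ 1 := by
  rw [RCLike.norm_I]
  split_ifs <;> norm_num

theorem glue_norm_le (a : 𝕜) :
    ‖a‖ ≤ max (RCLike.re (1 * a)) 0 + max (RCLike.re (-1 * a)) 0 +
      max (RCLike.re (RCLike.I * a)) 0 + max (RCLike.re (-RCLike.I * a)) 0 := by
  have h1 : ‖a‖ ≤ |RCLike.re a| + |RCLike.im a| := by
    calc ‖a‖ = ‖((RCLike.re a : ℝ) : 𝕜) + ((RCLike.im a : ℝ) : 𝕜) * RCLike.I‖ := by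
          rw [RCLike.re_add_im]
      _ ≤ ‖((RCLike.re a : ℝ) : 𝕜)‖ + ‖((RCLike.im a : ℝ) : 𝕜) * RCLike.I‖ := norm_add_le _ _
      _ ≤ _ := by
          rw [norm_mul, RCLike.norm_ofReal, RCLike.norm_ofReal]
          have := mul_le_mul_of_nonneg_left (glue_norm_I (𝕜 := 𝕜)) (abs_nonneg (RCLike.im a))
          linarith
  have h2 : ∀ r : ℝ, |r| ≤ max r 0 + max (-r) 0 := by
    intro r
    have := le_max_left r 0
    have := le_max_right r 0
    have := le_max_left (-r) 0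
    have := le_max_right (-r) 0
    rw [abs_le]
    constructor <;> linarith
  rw [one_mul, neg_mul, neg_mul, one_mul, map_neg, map_neg, RCLike.I_mul_re, neg_neg]
  have := h2 (RCLike.re a)
  have := h2 (RCLike.im a)
  linarith

/-- the `ℓ¹` lower bound -/
theorem glue_l1 {u : ℕ → StrongDual 𝕜 X} (hK : KProp u) (x₀ : X) (ε : ℝ) (t : ℕ → ℝ)
    (ht : ∀ j, ε ≤ t j) (hu : ∀ j, u j x₀ = (t j : 𝕜)) (s : Finset ℕ) (a : ℕ → 𝕜) :
    ε * ∑ j ∈ s, ‖a j‖ ≤ 16 * ‖x₀‖ * ‖∑ j ∈ s, a j • u j‖ ∨ ε < 0 := by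
  rcases lt_or_ge ε 0 with hε | hε
  · exact Or.inr hε
  left
  have key : ∀ l : 𝕜, ‖l‖ ≤ 1 →
      ε * ∑ j ∈ s, max (RCLike.re (l * a j)) 0 ≤ 4 * ‖x₀‖ * ‖∑ j ∈ s, a j • u j‖ := by
    intro l hl
    set A := s.filter (fun j => 0 < RCLike.re (l * a j)) with hA
    have h1 : ∑ j ∈ s, max (RCLike.re (l * a j)) 0 = ∑ j ∈ A, RCLike.re (l * a j) := by
      rw [hA, Finset.sum_filter]
      refine Finset.sum_congr rfl fun j _ => ?_
      split_ifs with hj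
      · exact max_eq_left hj.le
      · exact max_eq_right (not_lt.1 hj)
    have h2 : ε * ∑ j ∈ A, RCLike.re (l * a j) ≤
        RCLike.re (l * (∑ j ∈ A, a j • u j) x₀) := by
      rw [_root_.sum_apply, Finset.mul_sum, Finset.mul_sum, map_sum]
      refine Finset.sum_le_sum fun j hj => ?_
      rw [_root_.smul_apply, hu j, smul_eq_mul, ← mul_assoc, RCLike.re_mul_ofReal, mul_comm]
      exact mul_le_mul_of_nonneg_left (ht j) (Finset.mem_filter.1 hj).2.le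
    have h3 : RCLike.re (l * (∑ j ∈ A, a j • u j) x₀) ≤ ‖∑ j ∈ A, a j • u j‖ * ‖x₀‖ := by
      refine (RCLike.re_le_norm _).trans ?_
      rw [norm_mul]
      calc _ ≤ 1 * ‖(∑ j ∈ A, a j • u j) x₀‖ :=
            mul_le_mul_of_nonneg_right hl (norm_nonneg _)
        _ ≤ _ := by
            rw [one_mul]
            exact ContinuousLinearMap.le_opNorm _ _
    have h4 := mul_le_mul_of_nonneg_right
      (glue_supp hK (Finset.filter_subset (fun j => 0 < RCLike.re (l * a j)) s) a)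
      (norm_nonneg x₀)
    rw [h1]
    linarith
  have k1 := key 1 (by simp)
  have k2 := key (-1) (by simp)
  have k3 := key RCLike.I glue_norm_I
  have k4 := key (-RCLike.I) (by rw [norm_neg]; exact glue_norm_I)
  have h5 : ∑ j ∈ s, ‖a j‖ ≤ ∑ j ∈ s, max (RCLike.re (1 * a j)) 0 +
      ∑ j ∈ s, max (RCLike.re (-1 * a j)) 0 + ∑ j ∈ s, max (RCLike.re (RCLike.I * a j)) 0 +
      ∑ j ∈ s, max (RCLike.re (-RCLike.I * a j)) 0 := by
    rw [← Finset.sum_add_distrib, ← Finset.sum_add_distrib, ← Finset.sum_add_distrib]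
    exact Finset.sum_le_sum fun j _ => glue_norm_le (a j)
  have h6 := mul_le_mul_of_nonneg_left h5 hε
  linarith

/-- a normalised far block on which `x₀` acts as a large real number -/
theorem glue_block {h : ℕ → StrongDual 𝕜 X} {x₀ : X} {ε : ℝ} {n : ℕ} {s : Finset ℕ}
    {a : ℕ → 𝕜} (hs : ∀ j ∈ s, n ≤ j)
    (hlt : ε * ‖∑ j ∈ s, a j • h j‖ < ‖(∑ j ∈ s, a j • h j) x₀‖) :
    ∃ c : ℕ →₀ 𝕜, (∀ i ∈ c.support, n ≤ i) ∧ ‖comb h c‖ ≤ 1 ∧
      ∃ t : ℝ, ε ≤ t ∧ comb h c x₀ = (t : 𝕜) := by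
  set φ := ∑ j ∈ s, a j • h j with hφ
  have hφ0 : φ ≠ 0 := by
    intro e
    rw [e] at hlt
    simp at hlt
  have hpos : 0 < ‖φ‖ := norm_pos_iff.2 hφ0
  obtain ⟨l, hl, hl'⟩ := RCLike.exists_norm_eq_mul_self (φ x₀)
  have hc0 : comb h (∑ j ∈ s, a j • (Finsupp.single j 1 : ℕ →₀ 𝕜)) = φ := by
    rw [dich_comb_sum, hφ]
    refine Finset.sum_congr rfl fun j _ => ?_
    rw [dich_comb_eq, Finsupp.linearCombination_single]
    congr 1
    exact one_smul 𝕜 (h j)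
  refine ⟨(((‖φ‖⁻¹ : ℝ) : 𝕜) * l) • ∑ j ∈ s, a j • (Finsupp.single j 1 : ℕ →₀ 𝕜), ?_, ?_,
    ‖φ‖⁻¹ * ‖φ x₀‖, ?_, ?_⟩
  · intro i hi
    have h1 := dich_support_sum (fun j => (Finsupp.single j 1 : ℕ →₀ 𝕜)) s a
      (Finsupp.support_smul hi)
    obtain ⟨k, hk, hik⟩ := Finset.mem_biUnion.1 h1
    rw [Finsupp.support_single _ one_ne_zero, Finset.mem_singleton] at hik
    rw [hik]
    exact hs k hk
  · rw [dich_comb_smul, hc0, norm_smul, norm_mul, hl, RCLike.norm_ofReal, mul_one,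
      abs_of_pos (inv_pos.2 hpos), inv_mul_cancel₀ hpos.ne']
  · rw [le_inv_mul_iff₀ hpos]
    linarith
  · rw [dich_comb_smul, hc0, _root_.smul_apply, smul_eq_mul, mul_assoc, ← hl',
      RCLike.ofReal_mul]

set_option linter.unusedVariables false in
theorem glue (hA : CaseAStmt 𝕜 X) (hD : DichStmt 𝕜 X) (hR : RadStmt 𝕜 X) (hL : L2Stmt 𝕜 X)
    (h : ℕ → StrongDual 𝕜 X) (hK : KProp h) (h1 : ∀ i, ‖h i‖ = 1) : HasSQ 𝕜 X := by
  by_cases hT : TailNull h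
  · refine hA h hK (fun i e => ?_) hT
    have := h1 i
    rw [e, norm_zero] at this
    exact zero_ne_one this
  unfold TailNull at hT
  simp only [not_forall, not_exists, not_le] at hT
  obtain ⟨x₀, ε, hε, hT⟩ := hT
  have hblock : ∀ n : ℕ, ∃ c : ℕ →₀ 𝕜, (∀ i ∈ c.support, n ≤ i) ∧ ‖comb h c‖ ≤ 1 ∧
      ∃ t : ℝ, ε ≤ t ∧ comb h c x₀ = (t : 𝕜) := by
    intro n
    obtain ⟨s, a, hs, hlt⟩ := hT n
    exact glue_block hs hlt
  choose F hF1 hF2 t ht1 ht2 using hblock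
  obtain ⟨N, hN⟩ := dich_diag (fun _ n => F n) (fun _ n => hF1 n)
  set u : ℕ → StrongDual 𝕜 X := fun j => comb h (F (N j)) with hu
  have hKu : KProp u := by
    refine glue_kprop_comb hK (fun j => F (N j)) fun j j' hj => ?_
    rw [Finset.disjoint_left]
    intro i hi hi'
    rcases lt_or_gt_of_ne hj with hlt | hlt
    · exact lt_irrefl _ (hN j j' hlt i hi i hi')
    · exact lt_irrefl _ (hN j' j hlt i hi' i hi)
  have hu1 : ∀ j, ‖u j‖ ≤ 1 := fun j => hF2 (N j)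
  have hl1 : ∀ (s : Finset ℕ) (a : ℕ → 𝕜),
      ε * ∑ j ∈ s, ‖a j‖ ≤ 16 * ‖x₀‖ * ‖∑ j ∈ s, a j • u j‖ := fun s a =>
    (glue_l1 hKu x₀ ε (fun j => t (N j)) (fun j => ht1 (N j)) (fun j => ht2 (N j)) s a).resolve_right
      (not_lt.2 hε.le)
  rcases hD u hu1 with ⟨d, hd, hd0⟩ | ⟨b, δ, hb, hδ, hst⟩
  swap
  · obtain ⟨r, δ', hδ', hr⟩ := hR u b δ hu1 hb hδ hst
    exact hL r δ' hδ' hr
  have hl1v : ∀ (s : Finset ℕ) (a : ℕ → 𝕜),
      ε * ∑ k ∈ s, ‖a k‖ ≤ 16 * ‖x₀‖ * ‖∑ k ∈ s, a k • comb u (d k)‖ := by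
    intro s a
    rw [← hd.dich_l1 s a, ← dich_comb_sum]
    exact hl1 _ _
  refine hA (fun k => comb u (d k)) (glue_kprop_comb hKu d fun j j' hj => hd.dich_disj hj)
    (fun k e => ?_) ?_
  · have h2 := hl1v {k} (fun _ => 1)
    have e' : comb u (d k) = 0 := e
    have e'' : (1 : 𝕜) • (0 : StrongDual 𝕜 X) = 0 := one_smul 𝕜 _
    rw [Finset.sum_singleton, Finset.sum_singleton, e', e'', norm_zero, norm_one] at h2
    linarith
  · intro x η hη
    have hC : 0 < 16 * ‖x₀‖ + 1 := by positivity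
    have hη' : 0 < η * ε / (16 * ‖x₀‖ + 1) := by positivity
    obtain ⟨n, hn⟩ := eventually_atTop.1 (Metric.tendsto_nhds.1 (hd0 x) _ hη')
    refine ⟨n, fun s a hs => ?_⟩
    show ‖(∑ k ∈ s, a k • comb u (d k)) x‖ ≤ η * ‖∑ k ∈ s, a k • comb u (d k)‖
    have h2 : ‖(∑ k ∈ s, a k • comb u (d k)) x‖ ≤
        (∑ k ∈ s, ‖a k‖) * (η * ε / (16 * ‖x₀‖ + 1)) := by
      rw [_root_.sum_apply, Finset.sum_mul]
      refine (norm_sum_le _ _).trans (Finset.sum_le_sum fun k hk => ?_)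
      rw [_root_.smul_apply, norm_smul]
      have h3 := hn k (hs k hk)
      rw [dist_zero_right] at h3
      exact mul_le_mul_of_nonneg_left h3.le (norm_nonneg _)
    refine h2.trans ?_
    have h3 := hl1v s a
    have h4 := norm_nonneg (∑ k ∈ s, a k • comb u (d k))
    rw [← mul_div_assoc, div_le_iff₀ hC]
    have h5 := mul_le_mul_of_nonneg_left h3 hη.le
    have h6 := mul_nonneg hη.le h4
    linarith

end Crest.Agent.R114
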