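import Crest.Agent.R114.Basic

/-!
# Row 114: good `ℓ¹`-averages exist in the null case
-/

set_option autoImplicit false
set_option linter.unusedSectionVars false

open Filter Finset Topology

namespace Crest.Agent.R114

variable {Γ : Type} [LinearOrder Γ] {ρ : Rho Γ} {𝕜 : Type} [RCLike 𝕜]

theorem good_mem_support {ι : Type*} {s : Finset ι} {y : ι → Γ →₀ 𝕜} {c : 𝕜} {δ : Γ}
    (h : δ ∈ (c • ∑ i ∈ s, y i : Γ →₀ 𝕜).support) : ∃ i ∈ s, δ ∈ (y i).support := by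
  classical
  exact mem_biUnion.1 (Finsupp.support_finsetSum (Finsupp.support_smul h))

theorem good_nle_smul {y : Γ →₀ 𝕜} {C : ℝ} (h : NLe ρ y C) {c : ℝ} (hc : 0 ≤ c) :
    NLe ρ ((c : 𝕜) • y : Γ →₀ 𝕜) (c * C) := by
  have := h.smul (c : 𝕜)
  rw [RCLike.norm_ofReal, abs_of_nonneg hc] at this
  rw [Finsupp.coe_smul]; exact this

/-- the average of the `N` vectors `y 0, …, y (N-1)` -/
noncomputable def goodAvg (N : ℕ) (y : ℕ → Γ →₀ 𝕜) : Γ →₀ 𝕜 :=
  (((N : ℝ)⁻¹ : ℝ) : 𝕜) • ∑ q ∈ range N, y q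

theorem good_norm_avg (N : ℕ) (y : ℕ → Γ →₀ 𝕜) (w : Fn Γ) :
    ‖act w (goodAvg N y)‖ = (N : ℝ)⁻¹ * ‖∑ q ∈ range N, act w (y q)‖ := by
  rw [goodAvg, act_fsmul, act_fsum, norm_mul, RCLike.norm_ofReal, abs_of_nonneg (by positivity)]

theorem good_nle_avg {N : ℕ} (hN : 0 < N) {y : ℕ → Γ →₀ 𝕜} (h : ∀ q, NLe ρ (y q) 1) :
    NLe ρ (goodAvg N y) 1 := by
  have h1 := good_nle_smul (NLe_fsum (range N) y (fun _ => 1) fun q _ => h q)
    (c := (N : ℝ)⁻¹) (by positivity)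
  have hN' : (N : ℝ) ≠ 0 := by positivity
  rw [sum_const, card_range, nsmul_eq_mul, mul_one, inv_mul_cancel₀ hN'] at h1
  exact h1

/-- small weights act little on long averages -/
theorem good_sw_avg {J N : ℕ} (hN : nn J ≤ N) {y : ℕ → Γ →₀ 𝕜} (hs : Succ y)
    (h : ∀ q, NLe ρ (y q) 1) : SW ρ 2 J (goodAvg N y) := by
  classical
  intro j hj w hw
  obtain ⟨n, u, hn, hu, hus, rfl⟩ := T_wt_inv hw
  have hN0 : 0 < N := (nn_pos J).trans_le hN
  have hnN : n ≤ N := hn.trans ((nn_mono hj).trans hN)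
  have hm := mm_posR j
  set P := (range N ×ˢ range n).filter fun c => act (u c.2) (y c.1) ≠ 0 with hP
  have hcard : P.card ≤ N + N := by
    have : P.card ≤ (range (N + N)).card := by
      refine card_le_card_of_injOn (fun c => c.1 + c.2) (fun c hc => ?_) ?_
      · have := mem_product.1 (mem_filter.1 (mem_coe.1 hc)).1
        have h1 := mem_range.1 this.1
        have h2 := mem_range.1 this.2
        exact mem_coe.2 (mem_range.2 (Nat.add_lt_add h1 (h2.trans_le hnN)))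
      · rintro ⟨q, i⟩ hc ⟨q', i'⟩ hc' he
        obtain ⟨h1, h2⟩ := mem_filter.1 (mem_coe.1 hc)
        obtain ⟨h1', h2'⟩ := mem_filter.1 (mem_coe.1 hc')
        have hi := mem_range.1 (mem_product.1 h1).2
        have hi' := mem_range.1 (mem_product.1 h1').2
        obtain ⟨δ, a1, a2⟩ := exists_mem_of_act_ne_zero h2
        obtain ⟨δ', b1, b2⟩ := exists_mem_of_act_ne_zero h2'
        simp only at he hi hi' a1 a2 b1 b2
        rcases lt_trichotomy i i' with hlt | heq | hlt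
        · exact absurd (hus i i' hlt hi' δ a1 δ' b1) (hs q' q (by omega) δ' b2 δ a2).not_gt
        · subst heq
          have : q = q' := by omega
          rw [this]
        · exact absurd (hus i' i hlt hi δ' b1 δ a1) (hs q q' (by omega) δ a2 δ' b2).not_gt
    rwa [card_range] at this
  have h1 : ‖∑ q ∈ range N, ∑ i ∈ range n, act (u i) (y q)‖ ≤ N + N := by
    rw [← sum_product' (f := fun q i => act (u i) (y q)), ← sum_filter_ne_zero]
    refine (norm_sum_le _ _).trans ?_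
    calc _ ≤ ∑ _c ∈ P, (1 : ℝ) := sum_le_sum fun c hc =>
          h c.1 _ (hu c.2 (mem_range.1 (mem_product.1 (mem_filter.1 hc).1).2))
      _ = P.card := by simp
      _ ≤ _ := by exact_mod_cast hcard
  rw [good_norm_avg]
  simp only [act_smul, act_sum]
  rw [← mul_sum, norm_mul]
  have h2 : ‖(((mm j : ℚ)⁻¹ : ℚ) : 𝕜)‖ = (mm j : ℝ)⁻¹ := by push_cast; simp
  rw [h2]
  have hN' : (0 : ℝ) < N := by exact_mod_cast hN0
  calc _ ≤ (N : ℝ)⁻¹ * ((mm j : ℝ)⁻¹ * (N + N)) := by gcongr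
    _ = _ := by field_simp; ring

/-- the lower estimate for a finite set of members of a successive sequence -/
theorem good_lower (j : ℕ) {y : ℕ → Γ →₀ 𝕜} (hs : Succ y) {c : ℝ} (hy : ∀ i, NGe ρ (y i) c)
    (A : Finset ℕ) (hA : A.card ≤ nn j) :
    NGe ρ (∑ i ∈ A, y i : Γ →₀ 𝕜) (A.card * c / (2 * mm j)) := by
  set e := A.orderEmbOfFin rfl
  obtain ⟨w, hw, h1, -⟩ := lower_est (ρ := ρ) j A.card
    (fun i => if h : i < A.card then y (e ⟨i, h⟩) else 0) c hA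
    (fun i i' h1 h2 => by
      rw [dif_pos (h1.trans h2), dif_pos h2]
      exact hs _ _ (e.strictMono (Fin.mk_lt_mk.2 h1)))
    (fun i hi => by rw [dif_pos hi]; exact hy _)
  refine ⟨w, T.ofWt j w hw, ?_⟩
  have : ∑ i ∈ range A.card, (if h : i < A.card then y (e ⟨i, h⟩) else 0) = ∑ i ∈ A, y i := by
    rw [← Fin.sum_univ_eq_sum_range (fun i => if h : i < A.card then y (e ⟨i, h⟩) else 0)]
    simp only [Fin.is_lt, dif_pos, Fin.eta]
    conv_rhs => rw [← A.map_orderEmbOfFin_univ rfl, sum_map]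
    rfl
  rwa [this] at h1

/-- `r`-fold iterated blocks -/
structure GoodFam (ρ : Rho Γ) (y : ℕ → Γ →₀ 𝕜) (N r : ℕ) (A : ℕ → Finset ℕ) : Prop where
  card : ∀ l, (A l).card = N ^ r
  lt : ∀ l l', l < l' → ∀ i ∈ A l, ∀ i' ∈ A l', i < i'
  le : ∀ l, ∀ i ∈ A l, l ≤ i
  nle : ∀ l, NLe ρ (∑ i ∈ A l, y i : Γ →₀ 𝕜) (((N : ℝ) / 2) ^ r)

theorem good_iter (V : Submodule 𝕜 (Γ →₀ 𝕜)) (z : Γ →₀ 𝕜) (J : ℕ) (y0 : ℕ → Γ →₀ 𝕜)
    (hV : ∀ i, y0 i ∈ V) (hs : Succ y0) (hz : ∀ i, SLt z.support (y0 i).support)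
    (h1 : ∀ i, NLe ρ (y0 i) 1) (h2 : ∀ i, NGe ρ (y0 i) (1 / 2)) (Q : (Γ →₀ 𝕜) → Prop)
    (H : ∀ y : ℕ → Γ →₀ 𝕜, (∀ l, y l ∈ V) → Succ y → (∀ l, NLe ρ (y l) 1) →
      ((∀ i, SW ρ 2 i (y0 i)) → ∀ l, SW ρ (16 * mm (J + 1)) l (y l)) →
      ∃ φ : ℕ → ℕ, StrictMono φ ∧ ∀ k, Q (goodAvg (nn J) fun q => y (φ (k * nn J + q)))) :
    ∃ v ∈ V, SLt z.support v.support ∧ NLe ρ v 1 ∧ NGe ρ v (1 / 2) ∧ SW ρ 2 J v ∧ Q v := by
  classical
  by_contra hcon
  set N := nn J with hN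
  have hN0 : 0 < N := nn_pos J
  have hNR : (0 : ℝ) < N := by exact_mod_cast hN0
  have hmR : (mm (J + 1) : ℝ) = 2 ^ ea (J + 1) := by
    show ((2 ^ ea (J + 1) : ℕ) : ℝ) = _
    push_cast; rfl
  have key : ∀ r, r ≤ ea (J + 1) + 3 → ∃ A, GoodFam ρ y0 N r A := by
    intro r
    induction r with
    | zero =>
      intro _
      refine ⟨fun l => {l}, fun l => by simp, fun l l' h i hi i' hi' => ?_, fun l i hi => ?_,
        fun l => by simpa using h1 l⟩
      · rw [mem_singleton.1 hi, mem_singleton.1 hi']; exact h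
      · rw [mem_singleton.1 hi]
    | succ r ih =>
      intro hr
      obtain ⟨A, hA⟩ := ih (by omega)
      have hc : (0 : ℝ) < ((N : ℝ) / 2) ^ r := by positivity
      set y : ℕ → Γ →₀ 𝕜 := fun l => (((((N : ℝ) / 2) ^ r)⁻¹ : ℝ) : 𝕜) • ∑ i ∈ A l, y0 i with hy
      have yV : ∀ l, y l ∈ V := fun l => V.smul_mem _ (V.sum_mem fun i _ => hV i)
      have ys : Succ y := by
        intro l l' hl δ hδ δ' hδ'
        obtain ⟨i, hi, a⟩ := good_mem_support hδ
        obtain ⟨i', hi', a'⟩ := good_mem_support hδ'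
        exact hs i i' (hA.lt l l' hl i hi i' hi') δ a δ' a'
      have yz : ∀ l, SLt z.support (y l).support := by
        intro l δ hδ δ' hδ'
        obtain ⟨i', -, a'⟩ := good_mem_support hδ'
        exact hz i' δ hδ δ' a'
      have y1 : ∀ l, NLe ρ (y l) 1 := fun l => by
        have := good_nle_smul (hA.nle l) (inv_nonneg.2 hc.le)
        rwa [inv_mul_cancel₀ hc.ne'] at this
      have ysw : (∀ i, SW ρ 2 i (y0 i)) → ∀ l, SW ρ (16 * mm (J + 1)) l (y l) := by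
        intro h l j hj w hw
        have hm := mm_posR j
        simp only [hy]
        rw [act_fsmul, act_fsum, norm_mul, RCLike.norm_ofReal, abs_of_pos (inv_pos.2 hc)]
        have e1 : ‖∑ i ∈ A l, act w (y0 i)‖ ≤ (N : ℝ) ^ r * (2 / mm j) := by
          refine (norm_sum_le _ _).trans ?_
          calc _ ≤ ∑ _i ∈ A l, (2 : ℝ) / mm j :=
                sum_le_sum fun i hi => h i j (hj.trans (hA.le l i hi)) w hw
            _ = _ := by rw [sum_const, hA.card, nsmul_eq_mul]; push_cast; rfl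
        have e2 : (2 : ℝ) ^ r ≤ 2 ^ (ea (J + 1) + 3) := pow_le_pow_right₀ one_le_two (by omega)
        calc _ ≤ (((N : ℝ) / 2) ^ r)⁻¹ * ((N : ℝ) ^ r * (2 / mm j)) := by gcongr
          _ = 2 * 2 ^ r / mm j := by rw [div_pow]; field_simp
          _ ≤ 2 * 2 ^ (ea (J + 1) + 3) / mm j := by gcongr
          _ = _ := by rw [hmR]; ring
      obtain ⟨φ, hφ, hQ⟩ := H y yV ys y1 ysw
      have hv : ∀ k, NLe ρ (goodAvg N fun q => y (φ (k * N + q))) (1 / 2) := by
        intro k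
        refine (NLe_or_NGe _ _).resolve_right fun hge => hcon ⟨_, ?_, ?_, ?_, hge, ?_, hQ k⟩
        · exact V.smul_mem _ (V.sum_mem fun q _ => yV _)
        · intro δ hδ δ' hδ'
          obtain ⟨q, -, a'⟩ := good_mem_support hδ'
          exact yz _ δ hδ δ' a'
        · exact good_nle_avg hN0 fun q => y1 _
        · exact good_sw_avg le_rfl
            (ys.comp (φ := fun q => φ (k * N + q)) fun a b hab => hφ (by omega)) fun q => y1 _
      have hdisj : ∀ k, ((range N : Finset ℕ) : Set ℕ).PairwiseDisjoint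
          fun q => A (φ (k * N + q)) := by
        intro k q _ q' _ hne
        refine disjoint_left.2 fun i hi hi' => ?_
        rcases lt_or_gt_of_ne hne with h | h
        · exact lt_irrefl _ (hA.lt _ _ (hφ (by omega)) i hi i hi')
        · exact lt_irrefl _ (hA.lt _ _ (hφ (by omega)) i hi' i hi)
      refine ⟨fun k => (range N).biUnion fun q => A (φ (k * N + q)), fun k => ?_,
        fun k k' hk i hi i' hi' => ?_, fun k i hi => ?_, fun k => ?_⟩
      · rw [card_biUnion (hdisj k)]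
        simp only [hA.card, sum_const, card_range, smul_eq_mul]
        ring
      · obtain ⟨q, hq, hi⟩ := mem_biUnion.1 hi
        obtain ⟨q', -, hi'⟩ := mem_biUnion.1 hi'
        refine hA.lt _ _ (hφ ?_) i hi i' hi'
        have := mem_range.1 hq
        have : (k + 1) * N ≤ k' * N := Nat.mul_le_mul_right N hk
        nlinarith
      · obtain ⟨q, -, hi⟩ := mem_biUnion.1 hi
        have h3 : k * N + q ≤ φ (k * N + q) := hφ.le_apply
        have h4 := hA.le _ i hi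
        have h5 : k ≤ k * N := Nat.le_mul_of_pos_right k hN0
        omega
      · rw [sum_biUnion (hdisj k)]
        have h3 := good_nle_smul (hv k) (c := ((N : ℝ) / 2) ^ r * N) (by positivity)
        have e : (((((N : ℝ) / 2) ^ r * N : ℝ)) : 𝕜) • (goodAvg N fun q => y (φ (k * N + q))) =
            ∑ q ∈ range N, ∑ i ∈ A (φ (k * N + q)), y0 i := by
          simp only [goodAvg, hy]
          rw [← smul_sum, smul_smul, smul_smul, ← RCLike.ofReal_mul, ← RCLike.ofReal_mul]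
          have : ((N : ℝ) / 2) ^ r * N * (N : ℝ)⁻¹ * (((N : ℝ) / 2) ^ r)⁻¹ = 1 := by
            field_simp
          rw [this, RCLike.ofReal_one, one_smul]
        rw [e] at h3
        exact h3.mono (le_of_eq (by ring))
  obtain ⟨A, hA⟩ := key _ le_rfl
  obtain ⟨w, hw, h3⟩ := good_lower (J + 1) hs h2 (A 0)
    (by rw [hA.card]; exact nn_pow J _ (by omega))
  have h4 := h3.trans (hA.nle 0 w hw)
  rw [hA.card, hmR, div_pow, div_le_div_iff₀ (by positivity) (by positivity)] at h4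
  push_cast at h4
  have h5 : (0 : ℝ) < (N : ℝ) ^ (ea (J + 1) + 3) * 2 ^ ea (J + 1) := by positivity
  rw [pow_add (2 : ℝ)] at h4
  nlinarith

theorem good_base (V : Submodule 𝕜 (Γ →₀ 𝕜)) (hF : Far V) (z : Γ →₀ 𝕜) (hz : z ∈ V) :
    ∃ y : ℕ → Γ →₀ 𝕜, (∀ n, y n ∈ V) ∧ Succ y ∧ (∀ n, SLt z.support (y n).support) ∧
      ∀ n, NLe ρ (y n) 1 ∧ NGe ρ (y n) (1 / 2) := by
  obtain ⟨y, h1, -, h2, h3, h4⟩ := exists_succ_seq V
    (fun _ y => NLe ρ y 1 ∧ NGe ρ y (1 / 2)) (fun _ z hz => by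
      obtain ⟨y, hy, h0, hs⟩ := hF z hz
      obtain ⟨c, hc, h1, h2⟩ := exists_normalize (ρ := ρ) y h0
      exact ⟨c • y, V.smul_mem c hy, smul_ne_zero hc h0,
        hs.mono (Subset.refl _) Finsupp.support_smul, h1, h2⟩) z hz
  exact ⟨y, h1, h2, h3, h4⟩

theorem good_base_sw (V : Submodule 𝕜 (Γ →₀ 𝕜)) (hF : Far V) (z : Γ →₀ 𝕜) (hz : z ∈ V) :
    ∃ y : ℕ → Γ →₀ 𝕜, (∀ n, y n ∈ V) ∧ Succ y ∧ (∀ n, SLt z.support (y n).support) ∧
      ∀ n, NLe ρ (y n) 1 ∧ NGe ρ (y n) (1 / 2) ∧ SW ρ 2 n (y n) := by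
  obtain ⟨y, h1, -, h2, h3, h4⟩ := exists_succ_seq V
    (fun n y => NLe ρ y 1 ∧ NGe ρ y (1 / 2) ∧ SW ρ 2 n y) (fun n z hz => by
      obtain ⟨y0, a1, a2, a3, a4⟩ := good_base (ρ := ρ) V hF z hz
      obtain ⟨v, b1, b2, b3, b4, b5, -⟩ := good_iter V z n y0 a1 a2 a3 (fun i => (a4 i).1)
        (fun i => (a4 i).2) (fun _ => True)
        (fun _ _ _ _ _ => ⟨id, strictMono_id, fun _ => trivial⟩)
      exact ⟨v, b1, b4.ne_zero (by norm_num), b2, b3, b4, b5⟩) z hz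
  exact ⟨y, h1, h2, h3, h4⟩

theorem good_even {J j : ℕ} (hJ : Even J) (hj : Even j) (h : J + 1 ≤ j) : J + 2 ≤ j := by
  obtain ⟨a, ha⟩ := hj
  obtain ⟨b, hb⟩ := hJ
  omega

theorem good_arith {J N a b c η x : ℝ} (hJ : 0 ≤ J) (hN : 0 < N) (ha : 0 < a) (hb : 0 < b)
    (hc : 0 < c) (hη : η = 16 * b * (2 / c)) (g1 : 8 * J * a ≤ N) (g2 : 640 * J * a * b ≤ c)
    (hx : x ≤ 4 + N * (5 * η)) : J * (N⁻¹ * x) ≤ 1 / a := by
  have g3 : J * (4 / N) ≤ 1 / (2 * a) := by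
    rw [← mul_div_assoc, div_le_div_iff₀ hN (by positivity)]
    linarith
  have g4 : J * (5 * η) ≤ 1 / (2 * a) := by
    have : J * (5 * η) = 160 * J * b / c := by rw [hη]; ring
    rw [this, div_le_div_iff₀ hc (by positivity)]
    have : 0 ≤ J * a * b := by positivity
    nlinarith
  calc J * (N⁻¹ * x) ≤ J * (N⁻¹ * (4 + N * (5 * η))) := by gcongr
    _ = J * (4 / N) + J * (5 * η) := by field_simp
    _ ≤ 1 / (2 * a) + 1 / (2 * a) := add_le_add g3 g4
    _ = _ := by field_simp; ring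

theorem good (ρ : Rho Γ) (𝕜 : Type) [RCLike 𝕜] (hS : SepStmt ρ 𝕜) : GoodStmt ρ 𝕜 := by
  classical
  intro V hF hNull J hJ z hz
  obtain ⟨y0, a1, a2, a3, a4⟩ := good_base_sw (ρ := ρ) V hF z hz
  refine good_iter V z J y0 a1 a2 a3 (fun i => (a4 i).1) (fun i => (a4 i).2.1)
    (fun v => SegSmall ρ J v) fun y yV ys y1 ysw => ?_
  have m0 := mm_posR J
  have m1 := mm_posR (J + 1)
  have m2 := mm_posR (J + 2)
  obtain ⟨η, hη⟩ : ∃ η : ℝ, η = 16 * mm (J + 1) * (2 / mm (J + 2)) := ⟨_, rfl⟩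
  have hK0 : (0 : ℝ) < 16 * mm (J + 1) := mul_pos (by norm_num) m1
  have hη0 : 0 < η := by rw [hη]; exact mul_pos hK0 (div_pos two_pos m2)
  have hK : (0 : ℝ) ≤ 16 * mm (J + 1) := hK0.le
  have hJ2 : 1 ≤ J + 2 := by omega
  obtain ⟨φ, hφ, h⟩ := hS y (16 * mm (J + 1)) η (J + 2) ys y1 (ysw fun i => (a4 i).2.2)
    hK hη0 hJ2 hη.ge (hNull y yV ys y1)
  refine ⟨φ, hφ, fun k t ht hab => ?_⟩
  set N := nn J with hN
  have hNR : (0 : ℝ) < N := by exact_mod_cast nn_pos J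
  have hab2 : t.Above (J + 2) := fun i hi =>
    good_even hJ (ht.1.2.even (mem_Ico.1 hi).2) (hab i hi)
  have hT : T ρ none t.val := ht.T_val fun i hi => le_trans (Nat.le_add_left 1 J) (hab i hi)
  set B := (range N).filter fun q => 5 * η < ‖act t.val (y (φ (k * N + q)))‖ with hB
  have hBc : B.card ≤ 4 := by
    rw [← card_image_of_injective B (add_right_injective (k * N))]
    refine h t ht hab2 _ fun q hq => ?_
    obtain ⟨q', hq', rfl⟩ := mem_image.1 hq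
    exact (mem_filter.1 hq').2
  have h1 : ‖∑ q ∈ range N, act t.val (y (φ (k * N + q)))‖ ≤ 4 + N * (5 * η) := by
    refine (norm_sum_le _ _).trans ?_
    rw [← sum_filter_add_sum_filter_not (range N)
      (fun q => 5 * η < ‖act t.val (y (φ (k * N + q)))‖)]
    refine add_le_add ?_ ?_
    · calc _ ≤ ∑ _q ∈ B, (1 : ℝ) := sum_le_sum fun q _ => y1 _ _ hT
        _ = B.card := by simp
        _ ≤ 4 := by exact_mod_cast hBc
    · calc _ ≤ ∑ _q ∈ (range N).filter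
            (fun q => ¬ 5 * η < ‖act t.val (y (φ (k * N + q)))‖), 5 * η :=
            sum_le_sum fun q hq => not_lt.1 (mem_filter.1 hq).2
        _ ≤ ∑ _q ∈ range N, 5 * η :=
            sum_le_sum_of_subset_of_nonneg (filter_subset _ _) fun _ _ _ => by positivity
        _ = _ := by simp
  rw [good_norm_avg]
  have g1 : 8 * (J : ℝ) * mm J ≤ N := by exact_mod_cast nn_ge J
  have g2 : 640 * (J : ℝ) * mm J * mm (J + 1) ≤ mm (J + 2) := by exact_mod_cast mm_gap J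
  exact good_arith (Nat.cast_nonneg J) hNR m0 m1 m2 hη g1 g2 h1

end Crest.Agent.R114
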