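import Crest.Agent.R114.AO

/-!
# Row 114: an `ℓ²`-sequence in the dual gives a separable quotient
-/

set_option autoImplicit false

open Filter Finset Topology

namespace Crest.Agent.R114

universe u

variable {𝕜 : Type} [RCLike 𝕜] {X : Type u} [NormedAddCommGroup X] [NormedSpace 𝕜 X]

theorem l2q_bessel (r : ℕ → StrongDual 𝕜 X) (δ : ℝ) (h : IsL2 r δ) (x : X) (s : Finset ℕ) :
    ∑ i ∈ s, ‖r i x‖ ^ 2 ≤ ‖x‖ ^ 2 := by
  set S : ℝ := ∑ i ∈ s, ‖r i x‖ ^ 2 with hS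
  have hS0 : 0 ≤ S := sum_nonneg fun i _ => by positivity
  have h1 := (h s fun i => (starRingEnd 𝕜) (r i x)).2
  simp only [RCLike.norm_conj] at h1
  rw [← hS] at h1
  have h2 : (∑ i ∈ s, (starRingEnd 𝕜) (r i x) • r i) x = (S : 𝕜) := by
    rw [_root_.sum_apply, hS]
    push_cast
    refine sum_congr rfl fun i _ => ?_
    rw [Pi.smul_apply, smul_eq_mul, RCLike.conj_mul]
  have h3 := (∑ i ∈ s, (starRingEnd 𝕜) (r i x) • r i).le_opNorm x
  rw [h2, RCLike.norm_ofReal, abs_of_nonneg hS0] at h3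
  have h4 : S ≤ √S * ‖x‖ := h3.trans (mul_le_mul_of_nonneg_right h1 (norm_nonneg _))
  have h5 := Real.sq_sqrt hS0
  have h6 := Real.sqrt_nonneg S
  nlinarith [sq_nonneg (√S - ‖x‖)]

theorem l2q [CompleteSpace X] : L2Stmt 𝕜 X := by
  intro r δ hδ h
  have h2 : (0 : ℝ) < (2 : ENNReal).toReal := by norm_num
  have hb : ∀ x s, ∑ i ∈ s, ‖r i x‖ ^ (2 : ENNReal).toReal ≤ ‖x‖ ^ (2 : ENNReal).toReal := by
    intro x s
    simpa using l2q_bessel r δ h x s
  let R0 : X →ₗ[𝕜] lp (fun _ : ℕ => 𝕜) 2 :=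
    { toFun := fun x => ⟨fun i => r i x, memℓp_gen' (hb x)⟩
      map_add' := fun x y => by ext i; simp
      map_smul' := fun c x => by ext i; simp }
  have hR0 : ∀ x i, R0 x i = r i x := fun _ _ => rfl
  let R : X →L[𝕜] lp (fun _ : ℕ => 𝕜) 2 := R0.mkContinuous 1 fun x => by
    rw [one_mul]
    exact lp.norm_le_of_forall_sum_le h2 (norm_nonneg _) (hb x)
  have hR : ∀ x i, R x i = r i x := fun _ _ => rfl
  have hlow : ∀ b : lp (fun _ : ℕ => 𝕜) 2, δ * ‖b‖ ≤ ‖(innerSL 𝕜 b).comp R‖ := by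
    intro b
    have hcl : IsClosed {b : lp (fun _ : ℕ => 𝕜) 2 | δ * ‖b‖ ≤ ‖(innerSL 𝕜 b).comp R‖} := by
      refine isClosed_le (continuous_const.mul continuous_norm) ?_
      exact ((innerSL 𝕜).continuous.clm_comp continuous_const).norm
    refine hcl.mem_of_tendsto (lp.hasSum_single (by norm_num) b) (Eventually.of_forall fun s => ?_)
    have h3 := (h s fun i => (starRingEnd 𝕜) (b i)).1
    simp only [RCLike.norm_conj] at h3
    have h4 : ‖∑ i ∈ s, lp.single 2 i (b i) (E := fun _ : ℕ => 𝕜)‖ = √(∑ i ∈ s, ‖b i‖ ^ 2) := by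
      have h5 := lp.norm_sum_single (E := fun _ : ℕ => 𝕜) h2 (fun i => b i) s
      simp only [ENNReal.toReal_ofNat, Real.rpow_ofNat] at h5
      rw [← h5, Real.sqrt_sq (norm_nonneg _)]
    have h5 : (innerSL 𝕜 (∑ i ∈ s, lp.single 2 i (b i) (E := fun _ : ℕ => 𝕜))).comp R =
        ∑ i ∈ s, (starRingEnd 𝕜) (b i) • r i := by
      ext x
      rw [ContinuousLinearMap.comp_apply, innerSL_apply_apply, sum_inner, _root_.sum_apply]
      refine sum_congr rfl fun i _ => ?_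
      rw [lp.inner_single_left, hR, smul_apply, smul_eq_mul, RCLike.inner_apply, mul_comm]
    show δ * ‖∑ i ∈ s, lp.single 2 i (b i) (E := fun _ : ℕ => 𝕜)‖ ≤ _
    rw [h4, h5]
    exact h3
  have happ : ∀ (y : lp (fun _ : ℕ => 𝕜) 2) (ε : ℝ), 0 < ε →
      ∃ z : X, ‖z‖ ≤ δ⁻¹ * ‖y‖ ∧ ‖R z - y‖ < ε := by
    intro y ε hε
    refine hb_sep R y _ (by positivity) (fun f => ?_) ε hε
    obtain ⟨b, rfl⟩ := (InnerProductSpace.toDual 𝕜 (lp (fun _ : ℕ => 𝕜) 2)).surjective f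
    have h3 := hlow b
    have h4 : ‖InnerProductSpace.toDual 𝕜 (lp (fun _ : ℕ => 𝕜) 2) b y‖ ≤ ‖b‖ * ‖y‖ :=
      norm_inner_le_norm (𝕜 := 𝕜) b y
    have h5 : ‖b‖ ≤ δ⁻¹ * ‖(innerSL 𝕜 b).comp R‖ := by
      rw [le_inv_mul_iff₀ hδ]; exact h3
    calc _ ≤ ‖b‖ * ‖y‖ := h4
      _ ≤ δ⁻¹ * ‖(innerSL 𝕜 b).comp R‖ * ‖y‖ := mul_le_mul_of_nonneg_right h5 (norm_nonneg _)
      _ = δ⁻¹ * ‖y‖ * ‖(innerSL 𝕜 b).comp R‖ := by ring
  let e : ℕ → lp (fun _ : ℕ => 𝕜) 2 := fun i => lp.single 2 i (1 : 𝕜)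
  refine hasSQ_of_AO R δ⁻¹ (by positivity) ?_ ?_ ?_
  · have hsep : TopologicalSpace.IsSeparable
        (closure (Submodule.span 𝕜 (Set.range e) : Set (lp (fun _ : ℕ => 𝕜) 2))) :=
      ((Set.countable_range e).isSeparable.span (R := 𝕜)).closure
    refine hsep.mono fun y _ => ?_
    refine mem_closure_of_tendsto (lp.hasSum_single (by norm_num) y)
      (Eventually.of_forall fun s => ?_)
    refine Submodule.sum_mem _ fun k _ => ?_
    have : lp.single 2 k (y k) (E := fun _ : ℕ => 𝕜) = y k • e k := by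
      rw [← lp.single_smul, smul_eq_mul, mul_one]
    rw [this]
    exact Submodule.smul_mem _ _ (Submodule.subset_span ⟨k, rfl⟩)
  · intro x ε hε
    obtain ⟨z, hz1, hz2⟩ := happ (R x) ε hε
    exact ⟨z, by linarith, hz2⟩
  · intro hfin
    have hcl := (LinearMap.range (R : X →ₗ[𝕜] lp (fun _ : ℕ => 𝕜) 2)).closed_of_finiteDimensional
    have hmem : ∀ y, y ∈ LinearMap.range (R : X →ₗ[𝕜] lp (fun _ : ℕ => 𝕜) 2) := by
      intro y
      have : y ∈ closure (LinearMap.range (R : X →ₗ[𝕜] lp (fun _ : ℕ => 𝕜) 2) : Set _) := by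
        rw [Metric.mem_closure_iff]
        intro ε hε
        obtain ⟨z, -, hz⟩ := happ y ε hε
        exact ⟨R z, ⟨z, rfl⟩, by rw [dist_comm, dist_eq_norm]; exact hz⟩
      rwa [hcl.closure_eq] at this
    have hli : LinearIndependent 𝕜 fun k =>
        (⟨e k, hmem _⟩ : LinearMap.range (R : X →ₗ[𝕜] lp (fun _ : ℕ => 𝕜) 2)) := by
      rw [linearIndependent_iff']
      intro s a hs j hj
      have h3 : (∑ i ∈ s, a i • e i) = 0 := by
        have := congrArg Subtype.val hs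
        simpa using this
      have h4 := congrArg (fun y : lp (fun _ : ℕ => 𝕜) 2 => y j) h3
      simp only [lp.coeFn_sum, Finset.sum_apply, lp.coeFn_smul, Pi.smul_apply, e,
        lp.coeFn_zero, Pi.zero_apply] at h4
      rw [sum_eq_single j] at h4
      · simpa using h4
      · intro i _ hij
        rw [lp.single_apply_ne _ _ _ hij.symm, smul_zero]
      · intro h; exact absurd hj h
    exact Module.Finite.not_linearIndependent_of_infinite _ hli

end Crest.Agent.R114
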