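import Crest.Agent.R114.Space

/-!
# Row 114: construction of the frame `x α` by transfinite recursion
-/

set_option autoImplicit false
set_option linter.unusedSectionVars false

open Filter Finset Topology

namespace Crest.Agent.R114

theorem lift_rec {Γ β : Type} [LinearOrder Γ] [WellFoundedLT Γ] [Nonempty β]
    (P : Γ → Set β → β → Prop)
    (step : ∀ α (f : Γ → β), (∀ γ < α, P γ (f '' Set.Iio γ) (f γ)) → ∃ v, P α (f '' Set.Iio α) v) :
    ∃ f : Γ → β, ∀ α, P α (f '' Set.Iio α) (f α) := by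
  let f : Γ → β := WellFoundedLT.fix (motive := fun _ => β) fun α g =>
    Classical.epsilon (P α (Set.range fun γ : Set.Iio α => g γ.1 γ.2))
  have hf : ∀ α, f α = Classical.epsilon (P α (f '' Set.Iio α)) := by
    intro α
    rw [Set.image_eq_range]
    exact WellFoundedLT.fix_eq _ α
  refine ⟨f, fun α => ?_⟩
  induction α using WellFoundedLT.induction with
  | ind α ih =>
    have := Classical.epsilon_spec (step α f ih)
    rwa [← hf] at this

variable {Γ : Type} [LinearOrder Γ] [WellFoundedLT Γ] {ρ : Rho Γ} {𝕜 : Type} [RCLike 𝕜]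

theorem lift_ev_sum {ι : Type*} (s : Finset ι) (w : ι → Fn Γ) :
    ev ρ 𝕜 (∑ i ∈ s, w i) = ∑ i ∈ s, ev ρ 𝕜 (w i) := by
  ext a
  simp [act_sum]

theorem lift_ev_eq (w : Fn Γ) :
    ev ρ 𝕜 w = ∑ δ ∈ w.support, (w δ : 𝕜) • coord ρ 𝕜 δ := by
  ext a
  simp [act]

theorem lift_summable (b : Branch ρ) : Summable fun i => (3 : ℝ) / mm (b.j i) := by
  have : Summable fun i => (1 : ℝ) / mm (b.j i) :=
    summable_of_sum_le (fun i => by have := mm_posR (b.j i); positivity) fun S =>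
      sum_inv_mm_of_injOn S b.j 0 b.strictMono.injective.injOn fun _ _ => Nat.zero_le _
  simpa [div_eq_mul_inv] using this.mul_left 3

/-- tails of finitely many branches are `c₀`-summable -/
theorem lift_tail (hAD : ADStmt ρ) (B : Finset (Branch ρ)) :
    ∀ᶠ k in atTop, ∀ a : Z ρ 𝕜, ∑ b ∈ B, ‖BB 𝕜 b a - act (b.psum k) a.val‖ ≤ 2 * ‖a‖ := by
  rcases B.eq_empty_or_nonempty with rfl | ⟨b0, -⟩
  · exact Eventually.of_forall fun k a => by simp
  have h1 : ∀ᶠ k in atTop, ∀ b ∈ B, ∀ b' ∈ B, b ≠ b' →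
      ∀ i, k ≤ i → ∀ i', k ≤ i' → b.j i ≠ b'.j i' := by
    refine (eventually_all_finset B).2 fun b _ => (eventually_all_finset B).2 fun b' _ => ?_
    by_cases hb : b = b'
    · exact Eventually.of_forall fun k h => absurd hb h
    · obtain ⟨k0, hk0⟩ := hAD b b' hb
      filter_upwards [eventually_ge_atTop k0] with k hk _ i hi i' hi'
      exact hk0 i (hk.trans hi) i' (hk.trans hi')
  filter_upwards [h1, eventually_ge_atTop B.card] with k hk hkM a
  let e : ℕ → Branch ρ := fun l => if h : l < B.card then (B.equivFin.symm ⟨l, h⟩).1 else b0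
  have heB : ∀ l < B.card, e l ∈ B := fun l hl => by
    simp only [e, dif_pos hl]; exact (B.equivFin.symm ⟨l, hl⟩).2
  have heI : ∀ l < B.card, ∀ l' < B.card, l ≠ l' → e l ≠ e l' := fun l hl l' hl' hne he => by
    simp only [e, dif_pos hl, dif_pos hl'] at he
    exact hne (by simpa using B.equivFin.symm.injective (Subtype.ext he))
  have hsum : ∀ F : Branch ρ → ℝ, ∑ l ∈ range B.card, F (e l) = ∑ b ∈ B, F b := by
    intro F
    rw [sum_range, ← sum_coe_sort B, ← B.equivFin.symm.sum_comp]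
    exact sum_congr rfl fun l _ => by simp only [e, dif_pos l.2]
  have h2 : ∀ᶠ n in atTop,
      ∑ b ∈ B, ‖act (b.psum n) a.val - act (b.psum k) a.val‖ ≤ 2 * ‖a‖ := by
    filter_upwards [eventually_ge_atTop k] with n hn
    have := sum_segs_le a.nle B.card (fun l => (e l).seg k n) (fun l _ => (e l).seg_ok k n)
      (fun l _ i hi => hkM.trans ((mem_Ico.1 hi).1.trans ((e l).strictMono.id_le i)))
      (fun l hl l' hl' hne i hi i' hi' => hk _ (heB l hl) _ (heB l' hl') (heI l hl l' hl' hne)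
        i (mem_Ico.1 hi).1 i' (mem_Ico.1 hi').1)
    rw [hsum fun b => ‖act (b.seg k n).val a.val‖] at this
    refine le_trans (le_of_eq (sum_congr rfl fun b _ => ?_)) this
    rw [b.seg_val, sum_Ico_eq_sub _ hn, act_sub]
    rfl
  exact le_of_tendsto (tendsto_finsetSum B fun b _ => ((tendsto_BB b a).sub_const _).norm) h2

/-- the recursion invariant -/
def LiftInv (h : Branch ρ → Γ) (α : Γ) (S : Set (StrongDual 𝕜 (Z ρ 𝕜)))
    (v : StrongDual 𝕜 (Z ρ 𝕜)) : Prop :=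
  (∀ b, h b = α → ∃ wt : ℕ → StrongDual 𝕜 (Z ρ 𝕜), (∀ i, wt i ∈ Submodule.span 𝕜 S) ∧
    (∀ i, ‖wt i - ev ρ 𝕜 (b.w i)‖ ≤ 3 / mm (b.j i)) ∧
    v = coord ρ 𝕜 α + BB 𝕜 b + ∑' i, (wt i - ev ρ 𝕜 (b.w i))) ∧
  ((∀ b, h b ≠ α) → v = coord ρ 𝕜 α)

theorem lift_lemma (hAD : ADStmt ρ) {h : Branch ρ → Γ} (hh : IsHead h)
    (x : Γ → StrongDual 𝕜 (Z ρ 𝕜)) (L : Set Γ) (hL : IsLowerSet L)
    (hx : ∀ γ ∈ L, LiftInv h γ (x '' Set.Iio γ) (x γ)) (w : Fn Γ) (hw : ∀ δ ∈ w.support, δ ∈ L)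
    (μ : ℝ) (hμ0 : 0 ≤ μ) (hμ : ∀ δ, |(w δ : ℝ)| ≤ μ) (η : ℝ) (hη : 0 < η) (a0 : Z ρ 𝕜) :
    ∃ u ∈ Submodule.span 𝕜 (x '' L), ‖u - ev ρ 𝕜 w‖ ≤ 2 * μ + η ∧ ‖u a0 - act w a0.val‖ ≤ η := by
  classical
  set B : Finset (Branch ρ) := w.support.preimage h hh.1.injOn with hB
  have hBL : ∀ b ∈ B, h b ∈ L := fun b hb => hw _ (mem_preimage.1 hb)
  have hex : ∀ b ∈ B, ∃ wt : ℕ → StrongDual 𝕜 (Z ρ 𝕜),
      (∀ i, wt i ∈ Submodule.span 𝕜 (x '' L)) ∧
      (∀ i, ‖wt i - ev ρ 𝕜 (b.w i)‖ ≤ 3 / mm (b.j i)) ∧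
      x (h b) = coord ρ 𝕜 (h b) + BB 𝕜 b + ∑' i, (wt i - ev ρ 𝕜 (b.w i)) := by
    intro b hb
    obtain ⟨wt, h1, h2, h3⟩ := (hx _ (hBL b hb)).1 b rfl
    refine ⟨wt, fun i => Submodule.span_mono (Set.image_mono fun γ hγ => ?_) (h1 i), h2, h3⟩
    exact hL (le_of_lt hγ) (hBL b hb)
  choose! wt hwt1 hwt2 hwt3 using hex
  let u : ℕ → StrongDual 𝕜 (Z ρ 𝕜) := fun k =>
    ∑ δ ∈ w.support, (w δ : 𝕜) • x δ - ∑ b ∈ B, (w (h b) : 𝕜) • ∑ i ∈ range k, wt b i
  let S : ℕ → StrongDual 𝕜 (Z ρ 𝕜) := fun k =>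
    ∑ b ∈ B, (w (h b) : 𝕜) • (BB 𝕜 b - ev ρ 𝕜 (b.psum k))
  let R : ℕ → StrongDual 𝕜 (Z ρ 𝕜) := fun k =>
    ∑ b ∈ B, (w (h b) : 𝕜) • (∑' i, (wt b i - ev ρ 𝕜 (b.w i)) -
      ∑ i ∈ range k, (wt b i - ev ρ 𝕜 (b.w i)))
  have hu : ∀ k, u k ∈ Submodule.span 𝕜 (x '' L) := fun k =>
    sub_mem (sum_mem fun δ hδ => Submodule.smul_mem _ _ (Submodule.subset_span ⟨δ, hw δ hδ, rfl⟩))
      (sum_mem fun b hb => Submodule.smul_mem _ _ (sum_mem fun i _ => hwt1 b hb i))
  have hdec : ∀ k, u k - ev ρ 𝕜 w = S k + R k := by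
    intro k
    have e1 : ∑ δ ∈ w.support, (w δ : 𝕜) • x δ - ev ρ 𝕜 w =
        ∑ b ∈ B, (w (h b) : 𝕜) • (x (h b) - coord ρ 𝕜 (h b)) := by
      rw [lift_ev_eq, ← sum_sub_distrib, hB,
        sum_preimage h w.support hh.1.injOn (fun δ => (w δ : 𝕜) • (x δ - coord ρ 𝕜 δ))]
      · exact sum_congr rfl fun δ _ => (smul_sub _ _ _).symm
      · intro δ hδ hr
        rw [(hx δ (hw δ hδ)).2 fun b hb => hr ⟨b, hb⟩, sub_self, smul_zero]
    simp only [u, S, R]
    rw [sub_right_comm, e1, ← sum_sub_distrib, ← sum_add_distrib]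
    refine sum_congr rfl fun b hb => ?_
    rw [hwt3 b hb, Branch.psum, lift_ev_sum, sum_sub_distrib]
    module
  have hR : Tendsto R atTop (𝓝 0) := by
    have : (0 : StrongDual 𝕜 (Z ρ 𝕜)) = ∑ b ∈ B, (w (h b) : 𝕜) •
        (∑' i, (wt b i - ev ρ 𝕜 (b.w i)) - ∑' i, (wt b i - ev ρ 𝕜 (b.w i))) := by simp
    rw [this]
    refine tendsto_finsetSum B fun b hb => Tendsto.const_smul (Tendsto.const_sub _ ?_) _
    exact (Summable.of_norm_bounded (lift_summable b) (hwt2 b hb)).hasSum.tendsto_sum_nat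
  have hS0 : Tendsto (fun k => S k a0) atTop (𝓝 0) := by
    have : (0 : 𝕜) = ∑ b ∈ B, (w (h b) : 𝕜) * (BB 𝕜 b a0 - BB 𝕜 b a0) := by simp
    rw [this]
    simp only [S, _root_.sum_apply, _root_.smul_apply,
      _root_.sub_apply, ev_apply, smul_eq_mul]
    exact tendsto_finsetSum B fun b _ => ((tendsto_BB b a0).const_sub _).const_mul _
  have hR0 : Tendsto (fun k => R k a0) atTop (𝓝 0) := by
    have := ((ContinuousLinearMap.apply 𝕜 𝕜 a0).continuous.tendsto 0).comp hR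
    rw [map_zero] at this
    exact this
  have hS : ∀ᶠ k in atTop, ‖S k‖ ≤ 2 * μ := by
    filter_upwards [lift_tail (𝕜 := 𝕜) hAD B] with k hk
    refine ContinuousLinearMap.opNorm_le_bound _ (by positivity) fun a => ?_
    simp only [S, _root_.sum_apply, _root_.smul_apply,
      _root_.sub_apply, ev_apply, smul_eq_mul]
    refine (norm_sum_le _ _).trans ?_
    calc _ ≤ ∑ b ∈ B, μ * ‖BB 𝕜 b a - act (b.psum k) a.val‖ := by
          refine sum_le_sum fun b _ => ?_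
          rw [norm_mul, norm_ratCast']
          exact mul_le_mul_of_nonneg_right (hμ _) (norm_nonneg _)
      _ ≤ μ * (2 * ‖a‖) := by rw [← mul_sum]; exact mul_le_mul_of_nonneg_left (hk a) hμ0
      _ = 2 * μ * ‖a‖ := by ring
  have h1 : ∀ᶠ k in atTop, ‖R k‖ < η := hR.norm.eventually_lt_const (by simpa using hη)
  have h2 : ∀ᶠ k in atTop, ‖S k a0 + R k a0‖ < η :=
    (hS0.add hR0).norm.eventually_lt_const (by simpa using hη)
  obtain ⟨k, hk1, hk2, hk3⟩ := (hS.and (h1.and h2)).exists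
  refine ⟨u k, hu k, ?_, ?_⟩
  · rw [hdec]
    exact (norm_add_le _ _).trans (add_le_add hk1 hk2.le)
  · have := congrArg (fun v : StrongDual 𝕜 (Z ρ 𝕜) => v a0) (hdec k)
    simp only [_root_.sub_apply, _root_.add_apply, ev_apply] at this
    rw [this]
    exact hk3.le

theorem lift_exists (hAD : ADStmt ρ) {h : Branch ρ → Γ} (hh : IsHead h) :
    ∃ x : Γ → StrongDual 𝕜 (Z ρ 𝕜), ∀ α, LiftInv h α (x '' Set.Iio α) (x α) := by
  refine lift_rec (LiftInv h) fun α x hx => ?_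
  by_cases hα : ∃ b, h b = α
  · obtain ⟨b, rfl⟩ := hα
    have hex : ∀ i, ∃ u ∈ Submodule.span 𝕜 (x '' Set.Iio (h b)),
        ‖u - ev ρ 𝕜 (b.w i)‖ ≤ 3 / mm (b.j i) := by
      intro i
      have hm := mm_posR (b.j i)
      obtain ⟨u, hu1, hu2, -⟩ := lift_lemma hAD hh x (Set.Iio (h b)) (isLowerSet_Iio _) hx (b.w i)
        (hh.2 b i) (1 / mm (b.j i)) (by positivity) (T_sup_wt (b.wt i)) (1 / mm (b.j i))
        (by positivity) 0
      exact ⟨u, hu1, hu2.trans (le_of_eq (by ring))⟩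
    choose wt h1 h2 using hex
    refine ⟨coord ρ 𝕜 (h b) + BB 𝕜 b + ∑' i, (wt i - ev ρ 𝕜 (b.w i)), fun b' hb' => ?_,
      fun hn => absurd rfl (hn b)⟩
    obtain rfl := hh.1 hb'
    exact ⟨wt, h1, h2, rfl⟩
  · exact ⟨coord ρ 𝕜 α, fun b hb => absurd ⟨b, hb⟩ hα, fun _ => rfl⟩

theorem lift_tsum_apply {d : ℕ → StrongDual 𝕜 (Z ρ 𝕜)} (hd : Summable d) (a : Z ρ 𝕜) :
    (∑' i, d i) a = ∑' i, d i a :=
  (ContinuousLinearMap.apply 𝕜 𝕜 a).map_tsum hd

theorem lift_sees {h : Branch ρ → Γ} (hh : IsHead h) {x : Γ → StrongDual 𝕜 (Z ρ 𝕜)}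
    (hx : ∀ α, LiftInv h α (x '' Set.Iio α) (x α)) (α : Γ) :
    ∀ a, x α (pIio ρ 𝕜 α a) = x α a - a.val α := by
  induction α using WellFoundedLT.induction with
  | ind α ih =>
    intro a
    have h0 : (pIio ρ 𝕜 α a).val α = 0 := by simp
    by_cases hα : ∃ b, h b = α
    · obtain ⟨b, hb⟩ := hα
      obtain ⟨wt, h1, h2, h3⟩ := (hx α).1 b hb
      have hspan : ∀ u ∈ Submodule.span 𝕜 (x '' Set.Iio α), u (pIio ρ 𝕜 α a) = u a := by
        intro u hu
        induction hu using Submodule.span_induction with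
        | mem u hu =>
          obtain ⟨γ, hγ, rfl⟩ := hu
          have hγ' : γ < α := hγ
          have e1 : pIio ρ 𝕜 γ (pIio ρ 𝕜 α a) = pIio ρ 𝕜 γ a := by
            ext δ
            by_cases hδ : δ < γ
            · simp [hδ, hδ.trans hγ']
            · simp [hδ]
          have e2 := ih γ hγ (pIio ρ 𝕜 α a)
          have e3 : (pIio ρ 𝕜 α a).val γ = a.val γ := by simp [hγ']
          rw [e1, ih γ hγ a, e3] at e2
          exact (sub_left_inj.1 e2).symm
        | zero => simp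
        | add u v _ _ hu hv => simp [hu, hv]
        | smul c u _ hu => simp [hu]
      have hw : ∀ i, act (b.w i) (pIio ρ 𝕜 α a).val = act (b.w i) a.val := fun i =>
        act_congr _ fun δ hδ => by simp [hb ▸ hh.2 b i δ hδ]
      have hBB : BB 𝕜 b (pIio ρ 𝕜 α a) = BB 𝕜 b a := by
        refine tendsto_nhds_unique (tendsto_BB b _) ?_
        simp only [Branch.psum, act_sum, hw]
        simpa only [Branch.psum, act_sum] using tendsto_BB b a
      have hsum := Summable.of_norm_bounded (lift_summable b) h2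
      rw [h3]
      simp only [_root_.add_apply, lift_tsum_apply hsum, coord_apply,
        _root_.sub_apply, ev_apply, h0, hw, hBB, hspan _ (h1 _)]
      ring
    · rw [(hx α).2 fun b hb => hα ⟨b, hb⟩]
      simp

theorem exists_frame (ρ : Rho Γ) (𝕜 : Type) [RCLike 𝕜] (hAD : ADStmt ρ) (h : Branch ρ → Γ)
    (hh : IsHead h) : ∃ x : Γ → StrongDual 𝕜 (Z ρ 𝕜), IsFrame ρ x := by
  obtain ⟨x, hx⟩ := lift_exists (𝕜 := 𝕜) hAD hh
  have hs := lift_sees hh hx
  refine ⟨x, fun α => ?_, fun α a => ?_, fun α a C hC ha hu => ?_, fun a C hC h1 h2 b => ?_⟩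
  · have e1 : pIio ρ 𝕜 α (ofFin ρ 𝕜 (Finsupp.single α 1)) = 0 := by
      ext δ
      by_cases hδ : δ < α
      · simp [hδ, Finsupp.single_eq_of_ne hδ.ne]
      · simp [hδ]
    have e2 := hs α (ofFin ρ 𝕜 (Finsupp.single α 1))
    rw [e1, map_zero, ofFin_val, Finsupp.single_eq_same] at e2
    exact sub_eq_zero.1 e2.symm
  · have e1 : pIio ρ 𝕜 α (pIic ρ 𝕜 α a) = pIio ρ 𝕜 α a := by
      ext δ
      by_cases hδ : δ < α
      · simp [hδ, hδ.le]
      · simp [hδ]
    have e2 := hs α (pIic ρ 𝕜 α a)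
    have e3 : (pIic ρ 𝕜 α a).val α = a.val α := by simp
    rw [e1, hs α a, e3] at e2
    exact (sub_left_inj.1 e2).symm
  · refine Z.norm_le fun w hw => ?_
    have hw' := T_res hw (Set.ordConnected_Iic (a := α))
    have e1 : act (res (Set.Iic α) w) a.val = act w a.val := by
      rw [act_res, ← proj_val _ Set.ordConnected_Iic, ha]
    refine le_of_forall_pos_le_add fun ε hε => ?_
    obtain ⟨u, hu1, hu2, hu3⟩ := lift_lemma hAD hh x (Set.Iic α) (isLowerSet_Iic _)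
      (fun γ _ => hx γ) (res (Set.Iic α) w) (fun δ hδ => (mem_support_res.1 hδ).1) 1 zero_le_one
      (T_sup_none hw') (ε / (C + 1)) (by positivity) a
    have h4 : ‖u‖ ≤ 3 + ε / (C + 1) := by
      have := norm_ev_le (𝕜 := 𝕜) hw'
      have h5 := norm_add_le (u - ev ρ 𝕜 (res (Set.Iic α) w)) (ev ρ 𝕜 (res (Set.Iic α) w))
      rw [sub_add_cancel] at h5
      linarith
    have h5 : ‖act w a.val‖ ≤ ‖u a‖ + ε / (C + 1) := by
      rw [e1] at hu3
      have := norm_sub_le (u a) (u a - act w a.val)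
      rw [sub_sub_cancel] at this
      linarith
    have h6 := (hu u hu1).trans (mul_le_mul_of_nonneg_left h4 hC)
    have h7 : C * (ε / (C + 1)) + ε / (C + 1) = ε := by field_simp
    nlinarith
  · obtain ⟨wt, h3, h4, h5⟩ := (hx (h b)).1 b rfl
    have hspan : ∀ u ∈ Submodule.span 𝕜 (x '' Set.Iio (h b)),
        Tendsto (fun l => u (a l)) atTop (𝓝 0) := by
      intro u hu
      induction hu using Submodule.span_induction with
      | mem u hu => obtain ⟨γ, -, rfl⟩ := hu; exact h1 γ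
      | zero => simp
      | add u v _ _ hu hv => simpa using hu.add hv
      | smul c u _ hu => simpa using hu.const_mul c
    have hev : ∀ w : Fn Γ, Tendsto (fun l => act w (a l).val) atTop (𝓝 0) := by
      intro w
      have := tendsto_finsetSum w.support fun δ _ => (h2 δ).const_mul (w δ : 𝕜)
      simpa [act] using this
    have hsum := Summable.of_norm_bounded (lift_summable b) h4
    have hdom : Tendsto (fun l => ∑' i, (wt i - ev ρ 𝕜 (b.w i)) (a l)) atTop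
        (𝓝 (∑' _ : ℕ, (0 : 𝕜))) := by
      refine tendsto_tsum_of_dominated_convergence ((lift_summable b).mul_right C) (fun i => ?_)
        (Eventually.of_forall fun l i => ?_)
      · simpa using (hspan _ (h3 i)).sub (hev (b.w i))
      · refine (ContinuousLinearMap.le_opNorm _ _).trans ?_
        exact mul_le_mul (h4 i) (hC l) (norm_nonneg _) ((norm_nonneg _).trans (h4 i))
    have := ((h1 (h b)).sub (h2 (h b))).sub hdom
    rw [tsum_zero, sub_zero, sub_zero] at this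
    refine this.congr fun l => ?_
    rw [h5]
    simp only [_root_.add_apply, lift_tsum_apply hsum, coord_apply]
    ring

end Crest.Agent.R114
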