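import Crest.Agent.R114.Defs

/-!
# Row 114: the parameters `mm`, `nn`
-/

set_option autoImplicit false

open Filter Finset Topology

namespace Crest.Agent.R114

theorem two_le_ea (j : ℕ) : 2 ≤ ea j := by
  induction j with
  | zero => simp [ea_zero]
  | succ j ih => rw [ea_succ]; omega

theorem mm_pos (j : ℕ) : 0 < mm j := by unfold mm; positivity

theorem mm_posR (j : ℕ) : (0 : ℝ) < mm j := by exact_mod_cast mm_pos j

theorem four_le_mm (j : ℕ) : 4 ≤ mm j := by
  unfold mm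
  calc 4 = 2 ^ 2 := by norm_num
    _ ≤ 2 ^ ea j := Nat.pow_le_pow_right (by norm_num) (two_le_ea j)

theorem mm_succ (j : ℕ) : mm (j + 1) = mm j * mm j * 2 ^ (j + 11) := by
  unfold mm; rw [ea_succ]; ring

theorem two_mul_mm_le (j : ℕ) : 2 * mm j ≤ mm (j + 1) := by
  rw [mm_succ]
  have h1 := four_le_mm j
  have h2 : 1 ≤ 2 ^ (j + 11) := Nat.one_le_two_pow
  nlinarith [Nat.mul_le_mul_left (mm j * mm j) h2]

theorem mm_mono : Monotone mm :=
  monotone_nat_of_le_succ fun j => by have := two_mul_mm_le j; omega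

theorem pow_mul_mm_le (J k : ℕ) : 2 ^ k * mm J ≤ mm (J + k) := by
  induction k with
  | zero => simp
  | succ k ih =>
    have := two_mul_mm_le (J + k)
    rw [pow_succ, ← add_assoc]; nlinarith

theorem le_mm (j : ℕ) : j ≤ mm j := by
  have h := pow_mul_mm_le 0 j
  have h2 : j < 2 ^ j := Nat.lt_two_pow_self
  have h3 := mm_pos 0
  rw [zero_add] at h
  nlinarith

/-- sums of `1 / m_j` over distinct weights `≥ J` -/
theorem sum_inv_mm (S : Finset ℕ) (J : ℕ) (h : ∀ j ∈ S, J ≤ j) :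
    ∑ j ∈ S, (1 : ℝ) / mm j ≤ 2 / mm J := by
  have hinj : Set.InjOn (fun j => j - J) S := by
    intro a ha b hb hab
    have := h a ha; have := h b hb
    simp only at hab; omega
  have h1 : ∑ j ∈ S, (1 : ℝ) / mm j ≤ ∑ j ∈ S, (1 / mm J) * (1 / 2 : ℝ) ^ (j - J) := by
    refine sum_le_sum fun j hj => ?_
    have h2 := pow_mul_mm_le J (j - J)
    rw [Nat.add_sub_cancel' (h j hj)] at h2
    have h3 : (2 : ℝ) ^ (j - J) * mm J ≤ mm j := by exact_mod_cast h2
    have h4 := mm_posR J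
    rw [one_div 2, inv_pow, ← div_eq_mul_inv, div_div]
    exact one_div_le_one_div_of_le (by positivity) (by linarith)
  rw [← mul_sum] at h1
  have h5 : ∑ j ∈ S, (1 / 2 : ℝ) ^ (j - J) ≤ 2 := by
    rw [← sum_image (f := fun k => (1 / 2 : ℝ) ^ k) hinj]
    calc _ ≤ ∑' k, (1 / 2 : ℝ) ^ k :=
          summable_geometric_two.sum_le_tsum _ (fun _ _ => by positivity)
      _ = 2 := tsum_geometric_two
  have h4 := mm_posR J
  calc _ ≤ _ := h1
    _ ≤ (1 / mm J) * 2 := by gcongr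
    _ = 2 / mm J := by ring

/-- the same for an injectively indexed family of weights -/
theorem sum_inv_mm_of_injOn {ι : Type*} (S : Finset ι) (j : ι → ℕ) (J : ℕ)
    (hinj : Set.InjOn j S) (h : ∀ i ∈ S, J ≤ j i) :
    ∑ i ∈ S, (1 : ℝ) / mm (j i) ≤ 2 / mm J := by
  classical
  rw [← sum_image (f := fun k => (1 : ℝ) / mm k) hinj]
  refine sum_inv_mm _ _ fun k hk => ?_
  obtain ⟨i, hi, rfl⟩ := mem_image.1 hk
  exact h i hi

theorem two_div_mm_zero : (2 : ℝ) / mm 0 = 1 / 2 := by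
  simp [mm, ea_zero]; norm_num

theorem nn_pos (j : ℕ) : 0 < nn j := by
  cases j with
  | zero => simp [nn_zero]
  | succ j => rw [nn_succ]; have := mm_pos (j + 1); positivity

theorem nn_pow (J r : ℕ) (hr : r ≤ ea (J + 1) + 4) : nn J ^ r ≤ nn (J + 1) := by
  rw [nn_succ]
  have h1 : nn J ≤ 2 + (J + 1) * nn J := by nlinarith
  have h2 : nn J ^ r ≤ (2 + (J + 1) * nn J) ^ (ea (J + 1) + 4) :=
    (Nat.pow_le_pow_left h1 r).trans (Nat.pow_le_pow_right (by omega) hr)
  have h3 : 1 ≤ 8 * (J + 1) * mm (J + 1) := by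
    have := mm_pos (J + 1); exact Nat.succ_le_of_lt (by positivity)
  exact h2.trans (Nat.le_mul_of_pos_left _ h3)

theorem nn_mono : Monotone nn :=
  monotone_nat_of_le_succ fun j => by simpa using nn_pow j 1 (by omega)

theorem nn_big (j : ℕ) : mm (j + 1) * (2 + (j + 1) * nn j) ^ ea (j + 1) ≤ nn (j + 1) := by
  rw [nn_succ]
  have h2 : (2 + (j + 1) * nn j) ^ ea (j + 1) ≤ (2 + (j + 1) * nn j) ^ (ea (j + 1) + 4) :=
    Nat.pow_le_pow_right (by omega) (by omega)
  have h3 : mm (j + 1) ≤ 8 * (j + 1) * mm (j + 1) := by nlinarith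
  exact Nat.mul_le_mul h3 h2

theorem nn_ge (j : ℕ) : 8 * j * mm j ≤ nn j := by
  cases j with
  | zero => simp
  | succ j =>
    rw [nn_succ]
    have : 1 ≤ (2 + (j + 1) * nn j) ^ (ea (j + 1) + 4) := Nat.one_le_pow _ _ (by omega)
    exact Nat.le_mul_of_pos_right _ this

theorem mm_gap (J : ℕ) : 640 * J * mm J * mm (J + 1) ≤ mm (J + 2) := by
  rw [mm_succ (J + 1)]
  have h1 : mm J ≤ mm (J + 1) := mm_mono (by omega)
  have h2 : 640 * J ≤ 2 ^ (J + 1 + 11) := by
    have : J < 2 ^ J := Nat.lt_two_pow_self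
    calc 640 * J ≤ 2 ^ 12 * 2 ^ J := by nlinarith
      _ = 2 ^ (J + 1 + 11) := by ring
  calc 640 * J * mm J * mm (J + 1) = (640 * J) * (mm J * mm (J + 1)) := by ring
    _ ≤ 2 ^ (J + 1 + 11) * (mm (J + 1) * mm (J + 1)) := by gcongr
    _ = _ := by ring

theorem exists_nn_ge (C : ℝ) : ∃ j, C * mm j ≤ nn j := by
  obtain ⟨j, hj⟩ := exists_nat_ge C
  refine ⟨j, ?_⟩
  have h1 : ((8 * j * mm j : ℕ) : ℝ) ≤ nn j := by exact_mod_cast nn_ge j
  push_cast at h1
  have := mm_posR j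
  have : (0 : ℝ) ≤ j := by positivity
  nlinarith

theorem tendsto_inv_mm : Tendsto (fun j => (1 : ℝ) / mm j) atTop (𝓝 0) := by
  refine tendsto_const_nhds.div_atTop ?_
  exact tendsto_natCast_atTop_atTop.comp (tendsto_atTop_mono le_mm tendsto_id)

/-- one can make `C * (2 / m_J)` as small as desired -/
theorem exists_mm_small (C η : ℝ) (hη : 0 < η) (B : ℕ) :
    ∃ J, B ≤ J ∧ ∀ J', J ≤ J' → C * (2 / mm J') ≤ η := by
  have h : Tendsto (fun j => C * (2 * ((1 : ℝ) / mm j))) atTop (𝓝 (C * (2 * 0))) :=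
    (tendsto_inv_mm.const_mul 2).const_mul C
  rw [mul_zero, mul_zero] at h
  obtain ⟨J, hJ⟩ := eventually_atTop.1 (h.eventually (ge_mem_nhds hη))
  refine ⟨max J B, le_max_right _ _, fun J' hJ' => ?_⟩
  have := hJ J' ((le_max_left _ _).trans hJ')
  simpa [div_eq_mul_inv] using this

end Crest.Agent.R114
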