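import Crest.Agent.R114.Basic

/-!
# Row 114: the basic inequality for rapidly increasing sequences
-/

set_option autoImplicit false
set_option linter.unusedSectionVars false

open Filter Finset Topology

namespace Crest.Agent.R114

variable {Γ : Type} [LinearOrder Γ] {ρ : Rho Γ} {𝕜 : Type} [RCLike 𝕜]

/-- every functional acts by at most `c` on all but `N - 1` members of `v` -/
def RisE (ρ : Rho Γ) (v : ℕ → Γ →₀ 𝕜) (N : ℕ) (c : ℝ) : Prop :=
  ∀ w, T ρ none w → ∃ D : Finset ℕ, D.card + 1 ≤ N ∧ ∀ s ∉ D, ‖act w (v s)‖ ≤ c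

theorem ris_one (P : ℕ → Prop) (h : ∀ s s', s < s' → P s → P s' → False) :
    ∃ D : Finset ℕ, D.card ≤ 1 ∧ ∀ s ∉ D, ¬ P s := by
  by_cases h0 : ∃ s, P s
  · obtain ⟨s, hs⟩ := h0
    refine ⟨{s}, by simp, fun s' hs' hP => ?_⟩
    rcases lt_or_gt_of_ne (Finset.notMem_singleton.1 hs') with h1 | h1
    · exact h s' s h1 hP hs
    · exact h s s' h1 hs hP
  · exact ⟨∅, by simp, fun s _ hP => h0 ⟨s, hP⟩⟩

theorem ris_gap {J : ℕ → ℕ} (hJ : StrictMono J) (M : ℕ) :
    ∃ D : Finset ℕ, D.card ≤ 1 ∧ ∀ s ∉ D, M ≤ J s ∨ J (s + 1) < M := by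
  obtain ⟨D, h1, h2⟩ := ris_one (fun s => J s < M ∧ M ≤ J (s + 1)) fun s s' hs h3 h4 => by
    have := hJ.monotone (Nat.succ_le_of_lt hs)
    simp only [Nat.succ_eq_add_one] at this
    omega
  refine ⟨D, h1, fun s hs => ?_⟩
  have := h2 s hs
  omega

theorem ris_norm_sign {ε : ℚ} (hε : ε = 1 ∨ ε = -1) : ‖(ε : 𝕜)‖ = 1 := by
  rcases hε with h | h <;> simp [h]

/-- the estimate for averages -/
theorem ris_avg {v : ℕ → Γ →₀ 𝕜} (hv : Succ v) {N : ℕ} {c : ℝ} (hc : 0 ≤ c) (hE : RisE ρ v N c)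
    {j : ℕ} {w : Fn Γ} (hw : T ρ (some j) w) :
    ∃ D : Finset ℕ, D.card ≤ nn j * N ∧ ∀ s ∉ D, ‖act w (v s)‖ ≤ 1 / mm j * c := by
  classical
  obtain ⟨n, u, hn, hu, hs, rfl⟩ := T_wt_inv hw
  choose! D hD1 hD2 using fun i (hi : i < n) => hE (u i) (hu i hi)
  have hsp : ∀ i < n, ∃ D' : Finset ℕ, D'.card ≤ 1 ∧ ∀ s ∉ D',
      ¬ (act (u i) (v s) ≠ 0 ∧ ∃ i' < i, act (u i') (v s) ≠ 0) := by
    intro i hi
    refine ris_one _ fun s s' hss' h1 h2 => ?_
    obtain ⟨δ, hδ1, hδ2⟩ := exists_mem_of_act_ne_zero h1.1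
    obtain ⟨i', hi', h3⟩ := h2.2
    obtain ⟨ξ, hξ1, hξ2⟩ := exists_mem_of_act_ne_zero h3
    exact lt_asymm (hv s s' hss' δ hδ2 ξ hξ2) (hs i' i hi' hi ξ hξ1 δ hδ1)
  choose! D' hD'1 hD'2 using hsp
  refine ⟨(range n).biUnion fun i => D i ∪ D' i, ?_, fun s hs' => ?_⟩
  · refine card_biUnion_le.trans ?_
    calc ∑ i ∈ range n, (D i ∪ D' i).card ≤ ∑ _i ∈ range n, N := by
          refine sum_le_sum fun i hi => (card_union_le _ _).trans ?_
          have := hD1 i (mem_range.1 hi)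
          have := hD'1 i (mem_range.1 hi)
          omega
      _ = n * N := by simp
      _ ≤ nn j * N := Nat.mul_le_mul_right _ hn
  · have h1 : ∀ i < n, s ∉ D i ∧ s ∉ D' i := by
      intro i hi
      have : s ∉ D i ∪ D' i := fun h => hs' (mem_biUnion.2 ⟨i, mem_range.2 hi, h⟩)
      simpa using this
    have h2 : ‖∑ i ∈ range n, act (u i) (v s)‖ ≤ c := by
      by_cases h0 : ∃ i < n, act (u i) (v s) ≠ 0
      · obtain ⟨i, hi, h3⟩ := h0
        rw [sum_eq_single i]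
        · exact hD2 i hi s (h1 i hi).1
        · intro b hb hbi
          have hb := mem_range.1 hb
          by_contra h4
          rcases lt_or_gt_of_ne hbi with h5 | h5
          · exact hD'2 i hi s (h1 i hi).2 ⟨h3, b, h5, h4⟩
          · exact hD'2 b hb s (h1 b hb).2 ⟨h4, i, h5, h3⟩
        · intro h4; exact absurd (mem_range.2 hi) h4
      · push Not at h0
        rw [sum_eq_zero fun i hi => h0 i (mem_range.1 hi), norm_zero]
        exact hc
    rw [act_smul, act_sum, norm_mul]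
    have h3 : ‖(((mm j : ℚ)⁻¹ : ℚ) : 𝕜)‖ = 1 / mm j := by
      push_cast; simp
    rw [h3]
    exact mul_le_mul_of_nonneg_left h2 (by have := mm_posR j; positivity)

theorem ris_inv_le {a b : ℕ} (h : a ≤ b) : (1 : ℝ) / mm b ≤ 1 / mm a :=
  one_div_le_one_div_of_le (mm_posR a) (by exact_mod_cast mm_mono h)

/-- all components are high -/
theorem ris_sum_high (y : Γ →₀ 𝕜) {K M : ℕ} (hK : K ≤ M) {t : ℕ → Seg Γ} {ε : ℕ → ℚ}
    (hok : ∀ l < M, (t l).OK ρ) (hε : ∀ l < M, ε l = 1 ∨ ε l = -1) (hM : ∀ l < M, (t l).Above M)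
    (hd : ∀ l < M, ∀ l' < M, l ≠ l' → ∀ i ∈ Ico (t l).a (t l).n, ∀ i' ∈ Ico (t l').a (t l').n,
      (t l).j i ≠ (t l').j i') :
    ‖act (∑ l ∈ range M, ε l • (t l).val) y‖ ≤ l1 y * (2 / mm K) := by
  rw [sum_val_eq, act_sum]
  refine (norm_sum_le _ _).trans ?_
  have h1 : ∀ c ∈ comps M t, ‖act (ε c.1 • res (t c.1).E ((t c.1).w c.2)) y‖ ≤
      l1 y * (1 / mm ((t c.1).j c.2)) := by
    intro c hc
    have hc := mem_comps.1 hc
    exact act_le_l1_wt (T_sign ((hok c.1 hc.1).T_comp (mem_Ico.1 hc.2).2) (hε c.1 hc.1)) y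
  refine (sum_le_sum h1).trans ?_
  rw [← mul_sum]
  refine mul_le_mul_of_nonneg_left ?_ (l1_nonneg y)
  refine sum_inv_mm_of_injOn (comps M t) (fun c => (t c.1).j c.2) K
    (comps_injOn (fun l hl => (hok l hl).1.2) hd) fun c hc => ?_
  have hc := mem_comps.1 hc
  exact hK.trans (hM c.1 hc.1 c.2 hc.2)

/-- the high part of a segment -/
theorem ris_seg_split {y : Γ → 𝕜} {K : ℕ} (hy : SegSmall ρ K y) {t : Seg Γ} (ht : t.OK ρ) :
    ∃ x : ℝ, (K : ℝ) * x ≤ 1 / mm K ∧ ‖act t.val y‖ ≤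
      x + ∑ i ∈ (Ico t.a t.n).filter (fun i => t.j i ≤ K), ‖act (res t.E (t.w i)) y‖ := by
  obtain ⟨a', n', hn', he⟩ := ht.exists_window (fun j => K < j) fun a b c h1 _ h3 _ => by omega
  have h1 : (t.sub a' n').val = ∑ i ∈ (Ico t.a t.n).filter (fun i => K < t.j i),
      res t.E (t.w i) := by
    rw [← he]; rfl
  have h2 : (t.sub a' n').Above (K + 1) := by
    intro i hi
    have hi' : i ∈ Ico a' n' := hi
    rw [he] at hi'
    exact (mem_filter.1 hi').2
  refine ⟨‖act (t.sub a' n').val y‖, hy _ (ht.sub a' hn') h2, ?_⟩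
  have h3 : t.val = (t.sub a' n').val +
      ∑ i ∈ (Ico t.a t.n).filter (fun i => t.j i ≤ K), res t.E (t.w i) := by
    rw [h1, Seg.val, ← sum_filter_add_sum_filter_not (Ico t.a t.n) (fun i => K < t.j i)]
    simp only [not_lt]
  rw [h3, act_add, act_sum]
  refine (norm_add_le _ _).trans ?_
  have h4 : (t.sub a' n').val = (t.sub a' n').val := rfl
  exact add_le_add le_rfl (norm_sum_le _ _)

/-- few segments -/
theorem ris_sum_low {y : Γ → 𝕜} {j0 K M : ℕ} {c : ℝ} (hc : 0 ≤ c) (hj0 : 1 ≤ j0) (hK : j0 ≤ K)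
    (hMK : M ≤ K) (hsw : SW ρ 2 K y) (hss : SegSmall ρ K y) {t : ℕ → Seg Γ} {ε : ℕ → ℚ}
    (hok : ∀ l < M, (t l).OK ρ) (hε : ∀ l < M, ε l = 1 ∨ ε l = -1)
    (hd : ∀ l < M, ∀ l' < M, l ≠ l' → ∀ i ∈ Ico (t l).a (t l).n, ∀ i' ∈ Ico (t l').a (t l').n,
      (t l).j i ≠ (t l').j i')
    (hlow : ∀ x ∈ comps M t, (t x.1).j x.2 < j0 →
      ‖act (res (t x.1).E ((t x.1).w x.2)) y‖ ≤ 1 / mm ((t x.1).j x.2) * c) :
    ‖act (∑ l ∈ range M, ε l • (t l).val) y‖ ≤ c / 2 + 5 / mm j0 := by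
  classical
  choose! x hx1 hx2 using fun l (hl : l < M) => ris_seg_split hss (hok l hl)
  have hinj := comps_injOn (fun l hl => (hok l hl).1.2) hd
  have hKpos : (0 : ℝ) < K := by exact_mod_cast (show 0 < K by omega)
  have hm := mm_posR j0
  have hmK := mm_posR K
  rw [act_sum]
  refine (norm_sum_le _ _).trans ?_
  have h1 : ∀ l ∈ range M, ‖act (ε l • (t l).val) y‖ ≤ 1 / mm K / K +
      ∑ i ∈ Ico (t l).a (t l).n,
        if (t l).j i ≤ K then ‖act (res (t l).E ((t l).w i)) y‖ else 0 := by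
    intro l hl
    have hl := mem_range.1 hl
    rw [act_smul, norm_mul, ris_norm_sign (hε l hl), one_mul, ← sum_filter]
    refine (hx2 l hl).trans (add_le_add ?_ le_rfl)
    rw [le_div_iff₀ hKpos, mul_comm]
    exact hx1 l hl
  refine (sum_le_sum h1).trans ?_
  rw [sum_add_distrib, sum_sigma']
  have h2 : ∑ _l ∈ range M, (1 : ℝ) / mm K / K ≤ 1 / mm j0 := by
    rw [sum_const, card_range, nsmul_eq_mul]
    have h3 : (M : ℝ) ≤ K := by exact_mod_cast hMK
    calc (M : ℝ) * (1 / mm K / K) ≤ K * (1 / mm K / K) :=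
          mul_le_mul_of_nonneg_right h3 (by positivity)
      _ = 1 / mm K := by field_simp
      _ ≤ 1 / mm j0 := ris_inv_le hK
  have h3 : ∀ z ∈ comps M t,
      (if (t z.1).j z.2 ≤ K then ‖act (res (t z.1).E ((t z.1).w z.2)) y‖ else 0) ≤
        c * (if (t z.1).j z.2 < j0 then 1 / (mm ((t z.1).j z.2) : ℝ) else 0) +
        2 * (if j0 ≤ (t z.1).j z.2 then 1 / (mm ((t z.1).j z.2) : ℝ) else 0) := by
    intro z hz
    have hz' := mem_comps.1 hz
    have hmz := mm_posR ((t z.1).j z.2)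
    by_cases h4 : (t z.1).j z.2 < j0
    · rw [if_pos (by omega), if_pos h4, if_neg (by omega), mul_zero, add_zero, mul_comm]
      exact hlow z hz h4
    · rw [if_neg h4, if_pos (not_lt.1 h4), mul_zero, zero_add]
      split_ifs with h5
      · have := hsw _ h5 _ ((hok z.1 hz'.1).T_comp (mem_Ico.1 hz'.2).2)
        rwa [mul_one_div]
      · positivity
  have h4 := sum_le_sum h3
  rw [sum_add_distrib, ← mul_sum, ← mul_sum, ← sum_filter, ← sum_filter, ← sum_filter] at h4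
  have h5 := sum_inv_mm_of_injOn ((comps M t).filter fun z => (t z.1).j z.2 < j0)
    (fun z => (t z.1).j z.2) 0 (hinj.mono (by intro z hz; exact (mem_filter.1 hz).1))
    (fun _ _ => Nat.zero_le _)
  rw [two_div_mm_zero] at h5
  have h6 := sum_inv_mm_of_injOn ((comps M t).filter fun z => j0 ≤ (t z.1).j z.2)
    (fun z => (t z.1).j z.2) j0 (hinj.mono (by intro z hz; exact (mem_filter.1 hz).1))
    (fun z hz => (mem_filter.1 hz).2)
  have h7 := mul_le_mul_of_nonneg_left h5 hc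
  have h8 : (5 : ℝ) / mm j0 = 1 / mm j0 + 2 * (2 / mm j0) := by ring
  rw [sum_filter] at h4
  change _ + ∑ z ∈ comps M t, _ ≤ _
  linarith

theorem ris_step {j' : ℕ} {v : ℕ → Γ →₀ 𝕜} {J : ℕ → ℕ} (hJ : StrictMono J) (hJ0 : j' + 1 ≤ J 0)
    (hv : Succ v) (hsw : ∀ s, SW ρ 2 (J s) (v s)) (hss : ∀ s, SegSmall ρ (J s) (v s))
    (hl1 : ∀ s, l1 (v s) * (2 / mm (J (s + 1))) ≤ 1 / mm (j' + 1))
    {N : ℕ} {c : ℝ} (hN : 1 ≤ N) (hc : 0 ≤ c) (hE : RisE ρ v N c) :
    RisE ρ v ((2 + (j' + 1) * nn j') * N) (c / 2 + 5 / mm (j' + 1)) := by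
  classical
  have hm := mm_posR (j' + 1)
  have hm1 : (1 : ℝ) / mm (j' + 1) ≤ c / 2 + 5 / mm (j' + 1) := by
    have : (5 : ℝ) / mm (j' + 1) = 5 * (1 / mm (j' + 1)) := by ring
    have : (0 : ℝ) < 1 / mm (j' + 1) := by positivity
    linarith
  have hB : (2 + (j' + 1) * nn j') * N = 2 * N + (j' + 1) * (nn j' * N) := by ring
  have hlow : ∀ j w, j < j' + 1 → T ρ (some j) w → ∃ D : Finset ℕ, D.card ≤ nn j' * N ∧
      ∀ s ∉ D, ‖act w (v s)‖ ≤ 1 / mm j * c := by
    intro j w hj hw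
    obtain ⟨D, h1, h2⟩ := ris_avg hv hc hE hw
    exact ⟨D, h1.trans (Nat.mul_le_mul_right _ (nn_mono (by omega))), h2⟩
  intro w hw
  rcases T_none_inv hw with ⟨α, ε, -, rfl⟩ | ⟨j, hj⟩ | ⟨M, t, ε, hok, hε, hM, hd, rfl⟩
  · obtain ⟨D, h1, h2⟩ := ris_one (fun s => α ∈ (v s).support) fun s s' hs h3 h4 =>
      lt_irrefl _ (hv s s' hs α h3 α h4)
    refine ⟨D, by omega, fun s hs => ?_⟩
    rw [act_single, Finsupp.notMem_support_iff.1 (h2 s hs), mul_zero, norm_zero]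
    positivity
  · by_cases hjj : j < j' + 1
    · obtain ⟨D, h1, h2⟩ := hlow j w hjj hj
      refine ⟨D, ?_, fun s hs => (h2 s hs).trans ?_⟩
      · have : nn j' * N ≤ (j' + 1) * (nn j' * N) := Nat.le_mul_of_pos_left _ (by omega)
        omega
      · have h3 : (1 : ℝ) / mm j ≤ 1 / 2 := by
          refine one_div_le_one_div_of_le (by norm_num) ?_
          have : (4 : ℝ) ≤ mm j := by exact_mod_cast four_le_mm j
          linarith
        have h4 := mul_le_mul_of_nonneg_right h3 hc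
        have : (0 : ℝ) ≤ 5 / mm (j' + 1) := by positivity
        linarith
    · obtain ⟨D, h1, h2⟩ := ris_gap hJ j
      refine ⟨D, by omega, fun s hs => ?_⟩
      rcases h2 s hs with h3 | h3
      · refine (hsw s j h3 w hj).trans ?_
        have h4 := ris_inv_le (not_lt.1 hjj)
        have h5 : (2 : ℝ) / mm j = 2 * (1 / mm j) := by ring
        have h6 : (5 : ℝ) / mm (j' + 1) = 5 * (1 / mm (j' + 1)) := by ring
        have : (0 : ℝ) < 1 / mm (j' + 1) := by positivity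
        linarith
      · refine (act_le_l1_wt hj _).trans (le_trans ?_ ((hl1 s).trans hm1))
        refine mul_le_mul_of_nonneg_left ?_ (l1_nonneg _)
        have h4 := ris_inv_le h3.le
        have h5 : (2 : ℝ) / mm (J (s + 1)) = 2 * (1 / mm (J (s + 1))) := by ring
        have : (0 : ℝ) < 1 / mm (J (s + 1)) := by have := mm_posR (J (s + 1)); positivity
        linarith
  · obtain ⟨D0, h1, h2⟩ := ris_gap hJ M
    set L := (comps M t).filter fun z => (t z.1).j z.2 < j' + 1 with hL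
    have hinj := comps_injOn (fun l hl => (hok l hl).1.2) hd
    have hLc : L.card ≤ j' + 1 := by
      rw [← card_range (j' + 1)]
      refine card_le_card_of_injOn (fun z => (t z.1).j z.2) (fun z hz => ?_)
        (hinj.mono (by intro z hz; exact (mem_filter.1 hz).1))
      exact mem_coe.2 (mem_range.2 (mem_filter.1 hz).2)
    have hD : ∀ z ∈ L, ∃ D : Finset ℕ, D.card ≤ nn j' * N ∧
        ∀ s ∉ D, ‖act (res (t z.1).E ((t z.1).w z.2)) (v s)‖ ≤ 1 / mm ((t z.1).j z.2) * c := by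
      intro z hz
      have hz1 := mem_filter.1 hz
      have hz2 := mem_comps.1 hz1.1
      exact hlow _ _ hz1.2 ((hok z.1 hz2.1).T_comp (mem_Ico.1 hz2.2).2)
    choose! D hD1 hD2 using hD
    refine ⟨D0 ∪ L.biUnion D, ?_, fun s hs => ?_⟩
    · have h3 : (L.biUnion D).card ≤ (j' + 1) * (nn j' * N) := by
        refine card_biUnion_le.trans ?_
        calc ∑ z ∈ L, (D z).card ≤ ∑ _z ∈ L, nn j' * N := sum_le_sum hD1
          _ = L.card * (nn j' * N) := by simp
          _ ≤ _ := Nat.mul_le_mul_right _ hLc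
      have := card_union_le D0 (L.biUnion D)
      omega
    · rw [mem_union, not_or] at hs
      rcases h2 s hs.1 with h3 | h3
      · refine ris_sum_low hc (by omega) (hJ0.trans (hJ.monotone (Nat.zero_le s))) h3 (hsw s)
          (hss s) hok hε hd fun z hz hz' => ?_
        have hzL : z ∈ L := mem_filter.2 ⟨hz, hz'⟩
        exact hD2 z hzL s fun h => hs.2 (mem_biUnion.2 ⟨z, hzL, h⟩)
      · exact (ris_sum_high (v s) h3.le hok hε hM hd).trans ((hl1 s).trans hm1)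

theorem ris (ρ : Rho Γ) (𝕜 : Type) [RCLike 𝕜] : RISStmt ρ 𝕜 := by
  classical
  intro j0 v J hj0 hJ hJ0 hv hle hsw hss hl1
  obtain ⟨j', rfl⟩ : ∃ j', j0 = j' + 1 := ⟨j0 - 1, by omega⟩
  have hm := mm_posR (j' + 1)
  have key : ∀ d : ℕ, RisE ρ v ((2 + (j' + 1) * nn j') ^ d) ((1 / 2) ^ d + 10 / mm (j' + 1)) := by
    intro d
    induction d with
    | zero =>
      intro w hw
      refine ⟨∅, by simp, fun s _ => (hle s w hw).trans ?_⟩
      have : (0 : ℝ) ≤ 10 / mm (j' + 1) := by positivity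
      simpa using this
    | succ d ih =>
      have := ris_step hJ hJ0 hv hsw hss hl1 (Nat.one_le_pow _ _ (by omega)) (by positivity) ih
      rw [← pow_succ'] at this
      convert this using 1
      ring
  intro w hw
  obtain ⟨D, h1, h2⟩ := key (ea (j' + 1)) w hw
  have h3 : ((1 : ℝ) / 2) ^ ea (j' + 1) = 1 / mm (j' + 1) := by
    simp [mm]
  rw [h3] at h2
  have h4 : (D.card : ℝ) ≤ nn (j' + 1) / mm (j' + 1) := by
    rw [le_div_iff₀ hm]
    have h5 : D.card * mm (j' + 1) ≤ nn (j' + 1) := by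
      refine le_trans ?_ (nn_big j')
      rw [mul_comm]
      exact Nat.mul_le_mul_left _ (by omega)
    exact_mod_cast h5
  rw [act_fsum]
  refine (norm_sum_le _ _).trans ?_
  have h5 : ∀ s ∈ range (nn (j' + 1)), ‖act w (v s)‖ ≤
      (if s ∈ D then (1 : ℝ) else 0) + 11 / mm (j' + 1) := by
    intro s _
    split_ifs with h6
    · have : (0 : ℝ) ≤ 11 / mm (j' + 1) := by positivity
      linarith [hle s w hw]
    · refine (h2 s h6).trans (le_of_eq ?_)
      ring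
  refine (sum_le_sum h5).trans ?_
  rw [sum_add_distrib, sum_const, card_range, nsmul_eq_mul, sum_boole]
  have h6 : ((((range (nn (j' + 1))).filter fun s => s ∈ D).card : ℕ) : ℝ) ≤ D.card := by
    exact_mod_cast card_le_card fun s hs => (mem_filter.1 hs).2
  have h7 : (12 : ℝ) * nn (j' + 1) / mm (j' + 1) =
      nn (j' + 1) / mm (j' + 1) + nn (j' + 1) * (11 / mm (j' + 1)) := by ring
  linarith

end Crest.Agent.R114
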