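import Crest.Agent.R114.DefsQ
import Crest.Agent.Lib.Dvoretzky.Rogers

/-!
# Row 114: the measure-theoretic step
-/

set_option autoImplicit false

open Filter Topology MeasureTheory Set
open scoped ENNReal

namespace Crest.Agent.R114

universe u

/-- the measure on all subsets of the line -/
theorem rvm_measure (h : Crest.AnalysisR.ContinuumRVM) :
    ∃ μ : @Measure ℝ ⊤, μ univ = 1 ∧ ∀ x, μ {x} = 0 := by
  obtain ⟨m, h1, h0, hadd⟩ := h
  have hm0 : m ∅ = 0 := by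
    have := hadd Empty (fun i => i.elim) (by simpa using Cardinal.continuum_pos)
      (fun i => i.elim)
    simpa using this
  refine ⟨@Measure.ofMeasurable ℝ ⊤ (fun s _ => m s) hm0 fun f _ hf =>
    hadd ℕ f (by simpa using Cardinal.aleph0_lt_continuum) hf, ?_, fun x => ?_⟩
  · rw [@Measure.ofMeasurable_apply ℝ ⊤ _ _ _ _ MeasurableSpace.measurableSet_top]; exact h1
  · rw [@Measure.ofMeasurable_apply ℝ ⊤ _ _ _ _ MeasurableSpace.measurableSet_top]; exact h0 x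

/-- a finite cover of the line by sets of small measure -/
theorem rvm_cover (ν : Measure ℝ) [IsFiniteMeasure ν] (h0 : ∀ x, ν {x} = 0) {δ : ℝ≥0∞}
    (hδ : δ ≠ 0) : ∃ (N : ℕ) (U : Fin N → Set ℝ), (∀ k, MeasurableSet (U k) ∧ ν (U k) ≤ δ) ∧
      ∀ t, ∃ k, t ∈ U k := by
  classical
  obtain ⟨K, -, hK, hKδ⟩ := (MeasurableSet.univ : MeasurableSet (univ : Set ℝ)).exists_isCompact_sdiff_lt
    (μ := ν) (measure_ne_top _ _) hδ
  have hV : ∀ x : ℝ, ∃ V, V ⊇ {x} ∧ IsOpen V ∧ ν V < δ := fun x =>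
    Set.exists_isOpen_lt_of_lt _ _ (by rw [h0]; exact pos_iff_ne_zero.2 hδ)
  choose V hV1 hV2 hV3 using hV
  obtain ⟨t, -, ht⟩ := hK.elim_nhds_subcover V fun x _ => (hV2 x).mem_nhds (hV1 x rfl)
  let U : Option t → Set ℝ := fun o => o.elim (univ \ K) fun x => V x
  have hU : ∀ o, MeasurableSet (U o) ∧ ν (U o) ≤ δ := by
    rintro (_ | x)
    · exact ⟨MeasurableSet.univ.diff hK.measurableSet, hKδ.le⟩
    · exact ⟨(hV2 x).measurableSet, (hV3 x).le⟩
  have hc : ∀ s, ∃ o, s ∈ U o := by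
    intro s
    by_cases hs : s ∈ K
    · obtain ⟨x, hx, hsx⟩ := mem_iUnion₂.1 (ht hs)
      exact ⟨some ⟨x, hx⟩, hsx⟩
    · exact ⟨none, ⟨trivial, hs⟩⟩
  refine ⟨_, fun k => U ((Fintype.equivFin (Option t)).symm k), fun k => hU _, fun s => ?_⟩
  obtain ⟨o, ho⟩ := hc s
  exact ⟨Fintype.equivFin _ o, by simpa using ho⟩

/-- a finite partition of the line into sets of small measure -/
theorem rvm_partition (μ : @Measure ℝ ⊤) (h1 : μ univ = 1) (h0 : ∀ x, μ {x} = 0) {δ : ℝ≥0∞}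
    (hδ : δ ≠ 0) : ∃ (N : ℕ) (κ : ℝ → Fin N), ∀ k, μ (κ ⁻¹' {k}) ≤ δ := by
  let ν : Measure ℝ := @Measure.map ℝ ℝ ⊤ _ id μ
  have hν : ∀ s, MeasurableSet s → ν s = μ s := fun s hs =>
    @Measure.map_apply ℝ ℝ ⊤ _ μ id measurable_from_top s hs
  have : IsFiniteMeasure ν := ⟨by rw [hν _ MeasurableSet.univ, h1]; exact ENNReal.one_lt_top⟩
  obtain ⟨N, U, hU, hc⟩ := rvm_cover ν (fun x => by rw [hν _ (measurableSet_singleton x), h0]) hδ
  choose κ hκ using hc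
  refine ⟨N, κ, fun k => le_trans ?_ ((hν _ (hU k).1).symm.le.trans (hU k).2)⟩
  refine @measure_mono _ _ _ _ μ _ _ fun t ht => ?_
  obtain rfl : κ t = k := ht
  exact hκ t

/-- exchange of the two measures, for a finite-valued index -/
theorem rvm_swap {Ω Θ : Type*} (μ : @Measure Ω ⊤) (ν : @Measure Θ ⊤) (hν : ν univ = 1) {N : ℕ}
    (κ : Ω → Fin N) {δ c : ℝ≥0∞} (hκ : ∀ k, μ (κ ⁻¹' {k}) ≤ δ) (A : Fin N → Set Θ)
    (hA : ∀ θ, ∑ k, (A k).indicator (1 : Θ → ℝ≥0∞) θ ≤ c) :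
    @lintegral Ω ⊤ μ (fun w => ν (A (κ w))) ≤ δ * c := by
  classical
  let : MeasurableSpace Ω := ⊤
  let : MeasurableSpace Θ := ⊤
  have e : (fun w => ν (A (κ w))) = fun w => ∑ k, (κ ⁻¹' {k}).indicator (fun _ => ν (A k)) w := by
    funext w
    rw [Finset.sum_eq_single (κ w)]
    · simp
    · intro k _ hk
      have hw : w ∉ κ ⁻¹' {k} := fun h => hk (Eq.symm h)
      exact indicator_of_notMem hw _
    · simp
  rw [e, lintegral_finsetSum _ fun _ _ => measurable_from_top]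
  calc ∑ k, ∫⁻ w, (κ ⁻¹' {k}).indicator (fun _ => ν (A k)) w ∂μ
      ≤ ∑ k, δ * ∫⁻ θ, (A k).indicator 1 θ ∂ν := by
        refine Finset.sum_le_sum fun k _ => ?_
        rw [lintegral_indicator_const MeasurableSpace.measurableSet_top,
          lintegral_indicator_one MeasurableSpace.measurableSet_top, mul_comm]
        exact mul_le_mul_left (hκ k) _
    _ = δ * ∫⁻ θ, ∑ k, (A k).indicator 1 θ ∂ν := by
        rw [← Finset.mul_sum, lintegral_finsetSum _ fun _ _ => measurable_from_top]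
    _ ≤ δ * c := by
        refine mul_le_mul_right ((lintegral_mono hA).trans ?_) _
        rw [lintegral_const, hν, mul_one]

variable {𝕜 : Type} [RCLike 𝕜] {X : Type u} [NormedAddCommGroup X] [NormedSpace 𝕜 X]

theorem rvm_fd {W : Type*} [NormedAddCommGroup W] [NormedSpace 𝕜 W] (f : X →ₗᵢ[𝕜] W)
    (h : FiniteDimensional 𝕜 W) : FiniteDimensional 𝕜 X :=
  FiniteDimensional.of_injective f.toLinearMap f.injective

/-- Dvoretzky–Rogers in the dual space -/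
theorem rvm_dr (hX : ¬ FiniteDimensional 𝕜 X) (N : ℕ) :
    ∃ y : Fin N → StrongDual 𝕜 X, (∀ k, ‖y k‖ = 1) ∧ ∀ x, ∑ k, ‖y k x‖ ^ 2 ≤ 18 * ‖x‖ ^ 2 := by
  have hD : ¬ FiniteDimensional ℝ (StrongDual 𝕜 X) := by
    intro h
    have : FiniteDimensional 𝕜 (StrongDual 𝕜 X) := Module.Finite.of_restrictScalars_finite ℝ 𝕜 _
    have : FiniteDimensional 𝕜 (StrongDual 𝕜 (StrongDual 𝕜 X)) :=
      inferInstanceAs (FiniteDimensional 𝕜 (StrongDual 𝕜 X →L[𝕜] 𝕜))
    exact hX (rvm_fd (W := StrongDual 𝕜 (StrongDual 𝕜 X))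
      (NormedSpace.inclusionInDoubleDualLi 𝕜 (E := X)) this)
  obtain ⟨S, hS, hS3⟩ := Crest.Agent.Lib.Dvoretzky.dvoretzky_rogers hD N
  set z : Fin N → StrongDual 𝕜 X := fun k => S (EuclideanSpace.single k 1) with hz
  have key : ∀ (L : 𝕜 →ₗ[ℝ] ℝ), (∀ t, L t ≤ ‖t‖) → ∀ x, ∑ k, L (z k x) ^ 2 ≤ ‖x‖ ^ 2 := by
    intro L hL x
    set g : EuclideanSpace ℝ (Fin N) := WithLp.toLp 2 fun k => L (z k x) with hg
    have h1 : ‖g‖ ^ 2 = ∑ k, L (z k x) ^ 2 := by
      rw [EuclideanSpace.real_norm_sq_eq]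
    have h2 : S g = ∑ k, L (z k x) • z k := by
      have : g = ∑ k, L (z k x) • EuclideanSpace.single k (1 : ℝ) := by
        ext j
        simp [hg, Pi.single_apply]
      rw [this, map_sum]
      simp only [map_smul, hz]
    have h3 : L (S g x) = ∑ k, L (z k x) ^ 2 := by
      rw [h2, sum_apply, map_sum]
      refine Finset.sum_congr rfl fun k _ => ?_
      rw [smul_apply, map_smul, smul_eq_mul, sq]
    have h4 : ‖g‖ ^ 2 ≤ ‖g‖ * ‖x‖ := by
      rw [h1, ← h3]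
      exact (hL _).trans (((S g).le_opNorm x).trans
        (mul_le_mul_of_nonneg_right (hS g) (norm_nonneg _)))
    rw [← h1]
    nlinarith [norm_nonneg g, norm_nonneg x, sq_nonneg (‖g‖ - ‖x‖)]
  have hz0 : ∀ k, 0 < ‖z k‖ := fun k => lt_of_lt_of_le (by norm_num) (hS3 k)
  refine ⟨fun k => (‖z k‖⁻¹ : ℝ) • z k, fun k => ?_, fun x => ?_⟩
  · rw [norm_smul, norm_inv, norm_norm, inv_mul_cancel₀ (hz0 k).ne']
  · have h1 := key RCLike.reLm (fun t => RCLike.re_le_norm t) x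
    have h2 := key RCLike.imLm (fun t => RCLike.im_le_norm t) x
    have h3 : ∑ k, ‖((‖z k‖⁻¹ : ℝ) • z k) x‖ ^ 2 ≤
        ∑ k, 9 * (RCLike.reLm (z k x) ^ 2 + RCLike.imLm (z k x) ^ 2) := by
      refine Finset.sum_le_sum fun k _ => ?_
      have a1 : ‖z k‖⁻¹ ≤ 3 := by
        have := inv_anti₀ (by norm_num) (hS3 k)
        simpa using this
      have a2 : ‖z k x‖ ^ 2 = RCLike.reLm (z k x) ^ 2 + RCLike.imLm (z k x) ^ 2 := by
        rw [RCLike.norm_sq_eq_def]; simp [sq]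
      rw [smul_apply, norm_smul, norm_inv, norm_norm, mul_pow, ← a2]
      refine mul_le_mul_of_nonneg_right ?_ (sq_nonneg _)
      have := inv_nonneg.2 (hz0 k).le
      nlinarith
    rw [← Finset.mul_sum, Finset.sum_add_distrib] at h3
    linarith

/-- a norm one functional killing a subspace that is not dense -/
theorem rvm_kill (Y : Submodule 𝕜 X) (hY : ¬ Dense (Y : Set X)) :
    ∃ h : StrongDual 𝕜 X, ‖h‖ = 1 ∧ ∀ y ∈ Y, h y = 0 := by
  set M := Y.topologicalClosure with hM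
  have : IsClosed (M : Set X) := Y.isClosed_topologicalClosure
  obtain ⟨x, hx⟩ : ∃ x, x ∉ M := by
    by_contra! h
    exact hY h
  have hx0 : M.mkQ x ≠ 0 := fun h => hx ((Submodule.Quotient.mk_eq_zero M).1 h)
  obtain ⟨g, -, hg⟩ := exists_dual_vector 𝕜 (M.mkQ x) (norm_ne_zero_iff.2 hx0)
  set f : StrongDual 𝕜 X := g.comp M.mkQL with hf
  have hf0 : f ≠ 0 := by
    intro h
    have : f x = 0 := by rw [h]; rfl
    have h2 : f x = g (M.mkQ x) := rfl
    rw [h2, hg] at this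
    exact hx0 (norm_eq_zero.1 (by exact_mod_cast this))
  refine ⟨(‖f‖⁻¹ : 𝕜) • f, ?_, fun y hy => ?_⟩
  · rw [norm_smul, norm_inv, RCLike.norm_ofReal, abs_norm, inv_mul_cancel₀ (norm_ne_zero_iff.2 hf0)]
  · have h1 : M.mkQ y = 0 := (Submodule.Quotient.mk_eq_zero M).2 (Y.le_topologicalClosure hy)
    have h2 : f y = g (M.mkQ y) := rfl
    rw [smul_apply, h2, h1, map_zero, smul_zero]

/-- the vectors on which `g n` decays like `1/n` -/
def rvmY (g : ℕ → StrongDual 𝕜 X) : Submodule 𝕜 X where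
  carrier := {x | ∃ C : ℝ, ∀ n : ℕ, (n : ℝ) * ‖g n x‖ ≤ C}
  add_mem' := by
    rintro a b ⟨C, hC⟩ ⟨D, hD⟩
    refine ⟨C + D, fun n => ?_⟩
    rw [map_add]
    have := mul_le_mul_of_nonneg_left (norm_add_le (g n a) (g n b)) (Nat.cast_nonneg (α := ℝ) n)
    linarith [hC n, hD n]
  zero_mem' := ⟨0, fun n => by simp⟩
  smul_mem' := by
    rintro c a ⟨C, hC⟩
    refine ⟨‖c‖ * C, fun n => ?_⟩
    rw [map_smul, norm_smul, mul_left_comm]
    exact mul_le_mul_of_nonneg_left (hC n) (norm_nonneg _)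

theorem rvm [CompleteSpace X] (hC : CritStmt 𝕜 X) (hS : SelStmt 𝕜 X) : RVMStmt 𝕜 X := by
  intro hR hX hSQ
  obtain ⟨μ, h1, h0⟩ := rvm_measure hR
  set c : ℕ → ℝ≥0∞ := fun n => ENNReal.ofReal (18 * (n : ℝ) ^ 2) with hc
  have hδ : ∀ n : ℕ, (2⁻¹ : ℝ≥0∞) ^ n * (c n)⁻¹ ≠ 0 := fun n =>
    mul_ne_zero (pow_ne_zero _ (by simp)) (ENNReal.inv_ne_zero.2 ENNReal.ofReal_ne_top)
  choose N κ hκ using fun n => rvm_partition μ h1 h0 (hδ n)
  choose y hy1 hy2 using fun n => rvm_dr hX (N n)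
  set g : ℝ → ℕ → StrongDual 𝕜 X := fun w n => y n (κ n w) with hg
  have hnd : ∀ w, ¬ Dense (rvmY (g w) : Set X) := fun w hd =>
    hSQ (hC (g w) (rvmY (g w)) (fun n => hy1 n _) hd fun _ hy => hy)
  choose h hh1 hh2 using fun w => rvm_kill (rvmY (g w)) (hnd w)
  refine (hS ℝ μ h1 (fun w => rvmY (g w)) h ?_ hh2).elim fun w hw =>
    ⟨fun i => h (w i), hw, fun i => hh1 _⟩
  intro ν hν x hx
  let : MeasurableSpace (ℕ → ℝ) := ⊤
  set A : ∀ n, Fin (N n) → Set (ℕ → ℝ) := fun n k => {θ | 1 < (n : ℝ) * ‖y n k (x θ)‖} with hA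
  have hAc : ∀ n θ, ∑ k, (A n k).indicator (1 : (ℕ → ℝ) → ℝ≥0∞) θ ≤ c n := by
    intro n θ
    calc ∑ k, (A n k).indicator (1 : (ℕ → ℝ) → ℝ≥0∞) θ
        ≤ ∑ k, ENNReal.ofReal (((n : ℝ) * ‖y n k (x θ)‖) ^ 2) := by
          refine Finset.sum_le_sum fun k _ => ?_
          by_cases hk : θ ∈ A n k
          · rw [indicator_of_mem hk, Pi.one_apply, ENNReal.one_le_ofReal]
            exact one_le_pow₀ (le_of_lt hk)
          · rw [indicator_of_notMem hk]; exact zero_le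
      _ = ENNReal.ofReal (∑ k, ((n : ℝ) * ‖y n k (x θ)‖) ^ 2) :=
          (ENNReal.ofReal_sum_of_nonneg fun k _ => sq_nonneg _).symm
      _ ≤ c n := by
          refine ENNReal.ofReal_le_ofReal ?_
          simp only [mul_pow]
          rw [← Finset.mul_sum, mul_comm]
          refine mul_le_mul_of_nonneg_right ((hy2 n _).trans ?_) (sq_nonneg _)
          have := pow_le_one₀ (n := 2) (norm_nonneg _) (hx θ)
          linarith
  have hint : ∀ n, @lintegral ℝ ⊤ μ (fun w => ν (A n (κ n w))) ≤ 2⁻¹ ^ n := by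
    intro n
    refine (rvm_swap μ ν hν (κ n) (hκ n) (A n) (hAc n)).trans ?_
    rw [mul_assoc]
    exact mul_le_of_le_one_right' (ENNReal.inv_mul_le_one _)
  have hsum : @lintegral ℝ ⊤ μ (fun w => ∑' n, ν (A n (κ n w))) ≠ ∞ := by
    rw [@lintegral_tsum ℝ ℕ ⊤ μ _ _ fun n => measurable_from_top.aemeasurable]
    refine ne_top_of_le_ne_top ?_ (ENNReal.tsum_le_tsum hint)
    rw [ENNReal.tsum_geometric_two]
    simp
  filter_upwards [@ae_lt_top ℝ ⊤ μ _ measurable_from_top hsum] with w hw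
  filter_upwards [ae_eventually_notMem hw.ne] with θ hθ
  have hb : IsBoundedUnder (· ≤ ·) atTop fun n : ℕ => (n : ℝ) * ‖g w n (x θ)‖ :=
    ⟨1, hθ.mono fun n hn => (not_lt.1 hn : (n : ℝ) * ‖g w n (x θ)‖ ≤ 1)⟩
  obtain ⟨C, hC⟩ := hb.bddAbove_range
  exact ⟨C, fun n => hC ⟨n, rfl⟩⟩

end Crest.Agent.R114
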