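import Crest.Agent.R114.DefsQ

/-!
# Row 114: from a stable block sequence to an `ℓ²`-sequence (Rademacher limits)
-/

set_option autoImplicit false

open Filter Finset Topology

namespace Crest.Agent.R114

universe u

variable {𝕜 : Type} [RCLike 𝕜]

/-! ## Averages over signs and Khintchine's inequality -/

/-- average of `h (c + ∑_{i<t} ± a i)` over all signs -/
noncomputable def radAv (h : 𝕜 → ℝ) (a : ℕ → 𝕜) : ℕ → 𝕜 → ℝ
  | 0, c => h c
  | t + 1, c => (radAv h a t (c + a t) + radAv h a t (c - a t)) / 2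

theorem rad_av_nonneg (a : ℕ → 𝕜) (t : ℕ) : ∀ c, 0 ≤ radAv (fun z => ‖z‖) a t c := by
  induction t with
  | zero => intro c; exact norm_nonneg c
  | succ t ih =>
    intro c
    have h1 := ih (c + a t)
    have h2 := ih (c - a t)
    simp only [radAv]
    linarith

theorem rad_par (c a : 𝕜) : ‖c + a‖ ^ 2 + ‖c - a‖ ^ 2 = 2 * ‖c‖ ^ 2 + 2 * ‖a‖ ^ 2 := by
  have := parallelogram_law_with_norm 𝕜 c a
  nlinarith

theorem rad_four (c a : 𝕜) :
    ‖c + a‖ ^ 4 + ‖c - a‖ ^ 4 ≤ 2 * ‖c‖ ^ 4 + 12 * (‖c‖ ^ 2 * ‖a‖ ^ 2) + 2 * ‖a‖ ^ 4 := by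
  have h1 := @norm_add_sq 𝕜 _ _ _ _ c a
  have h2 := @norm_sub_sq 𝕜 _ _ _ _ c a
  have h3 : |RCLike.re (inner 𝕜 c a)| ≤ ‖c‖ * ‖a‖ :=
    (RCLike.abs_re_le_norm _).trans (norm_inner_le_norm c a)
  set q := RCLike.re (inner 𝕜 c a)
  have h4 : q ^ 2 ≤ (‖c‖ * ‖a‖) ^ 2 := by
    rw [← sq_abs q]
    exact pow_le_pow_left₀ (abs_nonneg _) h3 2
  have e1 : ‖c + a‖ ^ 4 = (‖c + a‖ ^ 2) ^ 2 := by ring
  have e2 : ‖c - a‖ ^ 4 = (‖c - a‖ ^ 2) ^ 2 := by ring
  rw [e1, e2, h1, h2]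
  nlinarith

theorem rad_av_two (a : ℕ → 𝕜) (t : ℕ) :
    ∀ c, radAv (fun z => ‖z‖ ^ 2) a t c = ‖c‖ ^ 2 + ∑ i ∈ range t, ‖a i‖ ^ 2 := by
  induction t with
  | zero => intro c; simp [radAv]
  | succ t ih =>
    intro c
    simp only [radAv, ih, sum_range_succ]
    linarith [rad_par c (a t)]

theorem rad_av_four (a : ℕ → 𝕜) (t : ℕ) :
    ∀ c, radAv (fun z => ‖z‖ ^ 4) a t c ≤
      ‖c‖ ^ 4 + 6 * (‖c‖ ^ 2 * ∑ i ∈ range t, ‖a i‖ ^ 2) + 3 * (∑ i ∈ range t, ‖a i‖ ^ 2) ^ 2 := by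
  induction t with
  | zero => intro c; simp [radAv]
  | succ t ih =>
    intro c
    have h1 := ih (c + a t)
    have h2 := ih (c - a t)
    have h3 := rad_par c (a t)
    have h4 := rad_four c (a t)
    simp only [radAv, sum_range_succ]
    set σ := ∑ i ∈ range t, ‖a i‖ ^ 2
    have h5 : ‖c + a t‖ ^ 2 * σ + ‖c - a t‖ ^ 2 * σ = (2 * ‖c‖ ^ 2 + 2 * ‖a t‖ ^ 2) * σ := by
      rw [← h3]; ring
    have h6 : 0 ≤ ‖a t‖ ^ 4 := by positivity
    nlinarith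

theorem rad_av_lin {h₁ h₂ h₃ : 𝕜 → ℝ} {α β : ℝ} (H : ∀ c, α * h₂ c - h₃ c ≤ β * h₁ c)
    (a : ℕ → 𝕜) (t : ℕ) : ∀ c, α * radAv h₂ a t c - radAv h₃ a t c ≤ β * radAv h₁ a t c := by
  induction t with
  | zero => exact H
  | succ t ih =>
    intro c
    have h1 := ih (c + a t)
    have h2 := ih (c - a t)
    simp only [radAv]
    linarith

theorem rad_av_sq (a : ℕ → 𝕜) (t : ℕ) :
    ∀ c, radAv (fun z => ‖z‖) a t c ^ 2 ≤ radAv (fun z => ‖z‖ ^ 2) a t c := by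
  induction t with
  | zero => intro c; exact le_rfl
  | succ t ih =>
    intro c
    have h1 := ih (c + a t)
    have h2 := ih (c - a t)
    simp only [radAv]
    nlinarith [sq_nonneg (radAv (fun z => ‖z‖) a t (c + a t) - radAv (fun z => ‖z‖) a t (c - a t))]

theorem rad_khin_upper (a : ℕ → 𝕜) (t : ℕ) :
    radAv (fun z => ‖z‖) a t 0 ≤ √(∑ i ∈ range t, ‖a i‖ ^ 2) := by
  refine Real.le_sqrt_of_sq_le ?_
  have := rad_av_sq a t 0
  rwa [rad_av_two, norm_zero, zero_pow two_ne_zero, zero_add] at this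

theorem rad_khin_lower (a : ℕ → 𝕜) (t : ℕ) :
    √(∑ i ∈ range t, ‖a i‖ ^ 2) / 3 ≤ radAv (fun z => ‖z‖) a t 0 := by
  set σ := √(∑ i ∈ range t, ‖a i‖ ^ 2) with hσ
  have hσ0 : 0 ≤ σ := Real.sqrt_nonneg _
  have hσ2 : σ ^ 2 = ∑ i ∈ range t, ‖a i‖ ^ 2 :=
    Real.sq_sqrt (sum_nonneg fun i _ => by positivity)
  rcases hσ0.eq_or_lt with h0 | h0
  · rw [← h0, zero_div]
    exact rad_av_nonneg a t 0
  have h1 := rad_av_lin (h₁ := fun z : 𝕜 => ‖z‖) (h₂ := fun z => ‖z‖ ^ 2) (h₃ := fun z => ‖z‖ ^ 4)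
    (α := 9 * σ ^ 2) (β := 18 * σ ^ 3) (fun c => by
      have hs : 0 ≤ ‖c‖ := norm_nonneg c
      have h2 : 0 ≤ ‖c‖ * ((‖c‖ - 2 * σ) ^ 2 * (‖c‖ + 4 * σ) + 3 * σ ^ 2 * ‖c‖ + 2 * σ ^ 3) := by
        positivity
      nlinarith) a t 0
  have h2 := rad_av_four a t 0
  rw [rad_av_two, ← hσ2] at h1
  rw [← hσ2] at h2
  simp only [norm_zero, ne_eq, OfNat.ofNat_ne_zero, not_false_eq_true, zero_pow, zero_mul,
    mul_zero, zero_add, add_zero] at h1 h2
  have h3 : 18 * σ ^ 3 * (σ / 3) ≤ 18 * σ ^ 3 * radAv (fun z => ‖z‖) a t 0 := by nlinarith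
  exact le_of_mul_le_mul_left h3 (by positivity)

/-! ## The `ℓ¹` norm of coefficient vectors -/

/-- `ℓ¹` norm -/
noncomputable def radL1 (c : ℕ →₀ 𝕜) : ℝ := ∑ j ∈ c.support, ‖c j‖

theorem rad_l1_smul (k : 𝕜) (c : ℕ →₀ 𝕜) : radL1 (k • c) = ‖k‖ * radL1 c := by
  unfold radL1
  rw [sum_subset Finsupp.support_smul, mul_sum]
  · exact sum_congr rfl fun j _ => by rw [Finsupp.smul_apply, norm_smul]
  · intro j _ hj
    rw [Finsupp.notMem_support_iff.1 hj, norm_zero]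

theorem rad_l1_add {c d : ℕ →₀ 𝕜} (h : ∀ i ∈ c.support, ∀ i' ∈ d.support, i < i') :
    radL1 (c + d) = radL1 c + radL1 d :=
  Finsupp.sum_add_index_of_disjoint (disjoint_left.2 fun i hi hi' => lt_irrefl _ (h i hi i hi'))
    fun _ z => ‖z‖

variable {X : Type u} [NormedAddCommGroup X] [NormedSpace 𝕜 X]

theorem rad_comb_eq (u : ℕ → StrongDual 𝕜 X) (c : ℕ →₀ 𝕜) :
    comb u c = Finsupp.linearCombination 𝕜 u c := rfl

theorem rad_comb_le {u : ℕ → StrongDual 𝕜 X} (hu : ∀ j, ‖u j‖ ≤ 1) (c : ℕ →₀ 𝕜) :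
    ‖comb u c‖ ≤ radL1 c := by
  refine (norm_sum_le _ _).trans (sum_le_sum fun j _ => ?_)
  rw [norm_smul]
  exact mul_le_of_le_one_right (norm_nonneg _) (hu j)

/-! ## Levels -/

/-- a level: a sequence of blocks depending linearly on the coefficients -/
abbrev RadLv (𝕜 : Type) [RCLike 𝕜] : Type := ℕ → ((ℕ → 𝕜) × 𝕜) →ₗ[𝕜] (ℕ →₀ 𝕜)

/-- `(a, c) ↦ (a, c + ε a t)` -/
noncomputable def radShift (t : ℕ) (ε : 𝕜) : ((ℕ → 𝕜) × 𝕜) →ₗ[𝕜] ((ℕ → 𝕜) × 𝕜) where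
  toFun p := (p.1, p.2 + ε * p.1 t)
  map_add' p q := by
    ext
    · rfl
    · simp only [Prod.snd_add, Prod.fst_add, Pi.add_apply]; ring
  map_smul' k p := by
    ext
    · rfl
    · simp only [Prod.smul_snd, Prod.smul_fst, Pi.smul_apply, smul_eq_mul, RingHom.id_apply]; ring

/-- the next level -/
noncomputable def radStep (t : ℕ) (φ : ℕ → ℕ) (L : RadLv 𝕜) : RadLv 𝕜 := fun n =>
  (2⁻¹ : 𝕜) • (L (φ (2 * n)) ∘ₗ radShift t 1 + L (φ (2 * n + 1)) ∘ₗ radShift t (-1))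

theorem rad_step_apply (t : ℕ) (φ : ℕ → ℕ) (L : RadLv 𝕜) (n : ℕ) (a : ℕ → 𝕜) (c : 𝕜) :
    radStep t φ L n (a, c) =
      (2⁻¹ : 𝕜) • (L (φ (2 * n)) (a, c + a t) + L (φ (2 * n + 1)) (a, c - a t)) := by
  simp [radStep, radShift, sub_eq_add_neg]

/-- the invariants of a level -/
structure RadGood (b : ℕ → ℕ →₀ 𝕜) (t : ℕ) (L : RadLv 𝕜) : Prop where
  succ : ∀ n n', n < n' → ∀ p p', ∀ i ∈ (L n p).support, ∀ i' ∈ (L n' p').support, i < i'
  span : ∀ n p, L n p ∈ Submodule.span 𝕜 (Set.range b)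
  l1 : ∀ n a c, radL1 (L n (a, c)) = radAv (fun z => ‖z‖) a t c

theorem rad_good_zero {b : ℕ → ℕ →₀ 𝕜} (hb : Blk b) :
    RadGood b 0 fun n => (LinearMap.snd 𝕜 (ℕ → 𝕜) 𝕜).smulRight (b n) where
  succ n n' h p p' i hi i' hi' :=
    hb.2 n n' h i (Finsupp.support_smul hi) i' (Finsupp.support_smul hi')
  span n p := Submodule.smul_mem _ _ (Submodule.subset_span ⟨n, rfl⟩)
  l1 n a c := by
    have h1 : radL1 (b n) = 1 := hb.1 n
    rw [LinearMap.smulRight_apply, rad_l1_smul, h1, mul_one]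
    rfl

theorem rad_good_step {b : ℕ → ℕ →₀ 𝕜} {t : ℕ} {L : RadLv 𝕜} (h : RadGood b t L) {φ : ℕ → ℕ}
    (hφ : StrictMono φ) : RadGood b (t + 1) (radStep t φ L) where
  succ n n' hn p p' i hi i' hi' := by
    obtain ⟨a, c⟩ := p
    obtain ⟨a', c'⟩ := p'
    rw [rad_step_apply] at hi hi'
    have h1 := Finsupp.support_add (Finsupp.support_smul hi)
    have h2 := Finsupp.support_add (Finsupp.support_smul hi')
    rcases mem_union.1 h1 with h1 | h1 <;> rcases mem_union.1 h2 with h2 | h2 <;>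
      exact h.succ _ _ (hφ (by omega)) _ _ _ h1 _ h2
  span n p := by
    obtain ⟨a, c⟩ := p
    rw [rad_step_apply]
    exact Submodule.smul_mem _ _ (Submodule.add_mem _ (h.span _ _) (h.span _ _))
  l1 n a c := by
    rw [rad_step_apply, rad_l1_smul, rad_l1_add (h.succ _ _ (hφ (by omega)) _ _), h.l1, h.l1]
    simp only [radAv, norm_inv, RCLike.norm_ofNat]
    ring

/-- all blocks of the level, with coefficients `a`, are close to `z` at `x` -/
def RadNear (u : ℕ → StrongDual 𝕜 X) (L : RadLv 𝕜) (a : ℕ → 𝕜) (x : X) (z : 𝕜) (η : ℝ) : Prop :=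
  ∀ n, ‖comb u (L n (a, 0)) x - z‖ ≤ η

theorem rad_near_step {u : ℕ → StrongDual 𝕜 X} {L : RadLv 𝕜} {a : ℕ → 𝕜} {x : X} {z : 𝕜} {η : ℝ}
    {t : ℕ} (ha : a t = 0) {φ : ℕ → ℕ} (h : ∀ n, ‖comb u (L (φ n) (a, 0)) x - z‖ ≤ η) :
    RadNear u (radStep t φ L) a x z η := by
  intro n
  rw [rad_step_apply, ha, add_zero, sub_zero, rad_comb_eq, map_smul, map_add, ← rad_comb_eq,
    ← rad_comb_eq]
  have e : ((2⁻¹ : 𝕜) • (comb u (L (φ (2 * n)) (a, 0)) + comb u (L (φ (2 * n + 1)) (a, 0)))) x - z =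
      (2⁻¹ : 𝕜) * ((comb u (L (φ (2 * n)) (a, 0)) x - z) +
        (comb u (L (φ (2 * n + 1)) (a, 0)) x - z)) := by
    simp only [smul_apply, add_apply, smul_eq_mul]
    ring
  rw [e, norm_mul, norm_inv, RCLike.norm_ofNat]
  have h1 := norm_add_le (comb u (L (φ (2 * n)) (a, 0)) x - z)
    (comb u (L (φ (2 * n + 1)) (a, 0)) x - z)
  have h2 := h (2 * n)
  have h3 := h (2 * n + 1)
  linarith

theorem rad_select {u : ℕ → StrongDual 𝕜 X} {b : ℕ → ℕ →₀ 𝕜} {δ : ℝ} (hu : ∀ j, ‖u j‖ ≤ 1)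
    (hδ : 0 < δ) (hS : Stable u b δ) {t : ℕ} {L : RadLv 𝕜} (h : RadGood b t L) (a : ℕ → 𝕜) :
    ∃ φ : ℕ → ℕ, StrictMono φ ∧ ∃ (x : X) (z : 𝕜), ‖x‖ ≤ 1 ∧
      δ * radAv (fun z => ‖z‖) a t 0 ≤ ‖z‖ ∧
      ∀ n, ‖comb u (L (φ n) (a, 0)) x - z‖ ≤ δ * radAv (fun z => ‖z‖) a t 0 / 2 := by
  set S := radAv (fun z => ‖z‖) a t 0 with hSdef
  have hS0 : 0 ≤ S := rad_av_nonneg a t 0
  rcases hS0.eq_or_lt with h0 | h0
  · refine ⟨id, strictMono_id, 0, 0, by simp, by simp [← h0], fun n => by simp [← h0]⟩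
  have hblk : SubBlk (fun n => ((S⁻¹ : ℝ) : 𝕜) • L n (a, 0)) b := by
    refine ⟨⟨fun n => ?_, fun n n' hn i hi i' hi' => ?_⟩, fun n => ?_⟩
    · change radL1 _ = 1
      rw [rad_l1_smul, h.l1, RCLike.norm_ofReal, abs_of_pos (inv_pos.2 h0), ← hSdef,
        inv_mul_cancel₀ h0.ne']
    · exact h.succ n n' hn _ _ i (Finsupp.support_smul hi) i' (Finsupp.support_smul hi')
    · exact Submodule.smul_mem _ _ (h.span _ _)
  obtain ⟨x, hx, hfr⟩ := hS _ hblk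
  have : ProperSpace 𝕜 := FiniteDimensional.proper_rclike 𝕜 𝕜
  have hK : IsCompact (Metric.closedBall (0 : 𝕜) S ∩ {z | δ * S ≤ ‖z‖}) :=
    (isCompact_closedBall _ _).inter_right (isClosed_le continuous_const continuous_norm)
  obtain ⟨z, hz, φ, hφ, hlim⟩ := hK.tendsto_subseq' (x := fun n => comb u (L n (a, 0)) x)
    (hfr.mono fun n hn => by
      constructor
      · rw [mem_closedBall_zero_iff]
        refine ((comb u (L n (a, 0))).le_opNorm x).trans ?_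
        have h1 := rad_comb_le hu (L n (a, 0))
        rw [h.l1, ← hSdef] at h1
        calc _ ≤ S * 1 := mul_le_mul h1 hx (norm_nonneg _) hS0
          _ = S := mul_one S
      · rw [rad_comb_eq, map_smul, ← rad_comb_eq, smul_apply, norm_smul, RCLike.norm_ofReal,
          abs_of_pos (inv_pos.2 h0), lt_inv_mul_iff₀ h0, mul_comm] at hn
        exact hn.le)
  obtain ⟨N, hN⟩ := Metric.tendsto_atTop.1 hlim (δ * S / 2) (by positivity)
  refine ⟨fun n => φ (n + N), fun m n hmn => hφ (by omega), x, z, hx, hz.2, fun n => ?_⟩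
  have := hN (n + N) (by omega)
  rw [dist_eq_norm] at this
  exact this.le

theorem rad_levels {u : ℕ → StrongDual 𝕜 X} {b : ℕ → ℕ →₀ 𝕜} {δ : ℝ} (hu : ∀ j, ‖u j‖ ≤ 1)
    (hb : Blk b) (hδ : 0 < δ) (hS : Stable u b δ) (A : ℕ → ℕ → 𝕜)
    (hA : ∀ t i, t ≤ i → A t i = 0) :
    ∃ T : ℕ → RadLv 𝕜, (∀ t, RadGood b t (T t)) ∧ ∀ t, ∃ (x : X) (z : 𝕜), ‖x‖ ≤ 1 ∧
      δ * radAv (fun z => ‖z‖) (A t) t 0 ≤ ‖z‖ ∧
      ∀ K, t < K → RadNear u (T K) (A t) x z (δ * radAv (fun z => ‖z‖) (A t) t 0 / 2) := by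
  choose! Φ hΦ hΦ' using fun (t : ℕ) (L : RadLv 𝕜) (h : RadGood b t L) =>
    rad_select hu hδ hS h (A t)
  let T : ℕ → RadLv 𝕜 := fun t => Nat.rec (fun n => (LinearMap.snd 𝕜 (ℕ → 𝕜) 𝕜).smulRight (b n))
    (fun t L => radStep t (Φ t L) L) t
  have hT : ∀ t, T (t + 1) = radStep t (Φ t (T t)) (T t) := fun t => rfl
  have hgood : ∀ t, RadGood b t (T t) := by
    intro t
    induction t with
    | zero => exact rad_good_zero hb
    | succ t ih => exact rad_good_step ih (hΦ t _ ih)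
  refine ⟨T, hgood, fun t => ?_⟩
  obtain ⟨x, z, hx, hz, hnear⟩ := hΦ' t _ (hgood t)
  refine ⟨x, z, hx, hz, fun K hK => ?_⟩
  induction K, hK using Nat.le_induction with
  | base => exact rad_near_step (hA t t le_rfl) hnear
  | succ K hK ih => exact rad_near_step (hA t K (by omega)) fun n => ih _

theorem rad_limit (g : ℕ → StrongDual 𝕜 X) (N : ℕ) (hg : ∀ K, N ≤ K → ‖g K‖ ≤ 1) :
    ∃ r : StrongDual 𝕜 X, ∀ x, Tendsto (fun K => g K x) (hyperfilter ℕ) (𝓝 (r x)) := by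
  have : ProperSpace 𝕜 := FiniteDimensional.proper_rclike 𝕜 𝕜
  obtain ⟨r, -, hr⟩ := (WeakDual.isCompact_closedBall (0 : StrongDual 𝕜 X) 1).ultrafilter_le_nhds'
    ((hyperfilter ℕ).map fun K => StrongDual.toWeakDual (g K)) (by
      rw [Ultrafilter.mem_map]
      refine Nat.hyperfilter_le_atTop (mem_of_superset (mem_atTop N) fun K hK => ?_)
      simpa using hg K hK)
  exact ⟨WeakDual.toStrongDual r, fun x => ((WeakDual.eval_continuous x).tendsto r).comp hr⟩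

theorem rad : RadStmt 𝕜 X := by
  intro u b δ hu hb hδ hS
  have : ProperSpace 𝕜 := FiniteDimensional.proper_rclike 𝕜 𝕜
  let ext : (N : ℕ) → (Fin N → 𝕜) → ℕ → 𝕜 := fun N w i => if h : i < N then w ⟨i, h⟩ else 0
  let A : ℕ → ℕ → 𝕜 := fun t =>
    ext t.unpair.1 (TopologicalSpace.denseSeq (Fin t.unpair.1 → 𝕜) t.unpair.2)
  have hA : ∀ t i, t ≤ i → A t i = 0 := fun t i hi =>
    dif_neg (not_lt.2 ((Nat.unpair_left_le t).trans hi))
  obtain ⟨T, hgood, hnear⟩ := rad_levels hu hb hδ hS A hA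
  -- the norm of the blocks
  have hup : ∀ (a : ℕ → 𝕜) (N K : ℕ), (∀ i, N ≤ i → a i = 0) → N ≤ K →
      ‖comb u (T K 0 (a, 0))‖ ≤ √(∑ i ∈ range N, ‖a i‖ ^ 2) := by
    intro a N K ha hK
    refine (rad_comb_le hu _).trans ?_
    rw [(hgood K).l1]
    refine (rad_khin_upper a K).trans_eq ?_
    rw [sum_subset (range_subset_range.2 hK)]
    intro i _ hi
    rw [ha i (not_lt.1 fun h => hi (mem_range.2 h)), norm_zero, zero_pow two_ne_zero]
  choose r hr using fun i => rad_limit (fun K => comb u (T K 0 (Pi.single i 1, 0))) (i + 1)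
    (fun K hK => by
      refine (hup _ (i + 1) K (fun j hj => Pi.single_eq_of_ne (by omega) _) hK).trans_eq ?_
      rw [sum_range_succ, sum_eq_zero fun j hj => by
        rw [Pi.single_eq_of_ne (mem_range.1 hj).ne, norm_zero, zero_pow two_ne_zero]]
      simp)
  have hlim : ∀ (a : ℕ → 𝕜) (N : ℕ), (∀ i, N ≤ i → a i = 0) → ∀ x,
      Tendsto (fun K => comb u (T K 0 (a, 0)) x) (hyperfilter ℕ)
        (𝓝 ((∑ i ∈ range N, a i • r i) x)) := by
    intro a N ha x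
    have e : ((a, 0) : (ℕ → 𝕜) × 𝕜) = ∑ i ∈ range N, a i • ((Pi.single i 1 : ℕ → 𝕜), (0 : 𝕜)) := by
      refine Prod.ext ?_ ?_
      · funext j
        simp only [Prod.fst_sum, Prod.smul_mk, Finset.sum_apply, Pi.smul_apply, Pi.single_apply,
          smul_eq_mul, mul_ite, mul_one, mul_zero, sum_ite_eq, mem_range]
        split_ifs with hj
        · rfl
        · exact ha j (not_lt.1 hj)
      · simp [Prod.snd_sum]
    simp only [e, rad_comb_eq, map_sum, map_smul, _root_.sum_apply, smul_apply]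
    exact tendsto_finsetSum _ fun i _ => (hr i x).const_smul (a i)
  have hupper : ∀ (a : ℕ → 𝕜) (N : ℕ), (∀ i, N ≤ i → a i = 0) →
      ‖∑ i ∈ range N, a i • r i‖ ≤ √(∑ i ∈ range N, ‖a i‖ ^ 2) := by
    intro a N ha
    refine ContinuousLinearMap.opNorm_le_bound _ (Real.sqrt_nonneg _) fun x => ?_
    refine le_of_tendsto (hlim a N ha x).norm ?_
    refine Nat.hyperfilter_le_atTop (mem_of_superset (mem_atTop N) fun K hK => ?_)
    exact ((comb u (T K 0 (a, 0))).le_opNorm x).trans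
      (mul_le_mul_of_nonneg_right (hup a N K ha hK) (norm_nonneg x))
  have hlowA : ∀ t, δ / 6 * √(∑ i ∈ range t, ‖A t i‖ ^ 2) ≤ ‖∑ i ∈ range t, A t i • r i‖ := by
    intro t
    obtain ⟨x, z, hx, hz, hK⟩ := hnear t
    have h1 : ‖(∑ i ∈ range t, A t i • r i) x - z‖ ≤ δ * radAv (fun z => ‖z‖) (A t) t 0 / 2 := by
      refine le_of_tendsto ((hlim (A t) t (hA t) x).sub_const z).norm ?_
      exact Nat.hyperfilter_le_atTop (mem_of_superset (mem_atTop (t + 1)) fun K hK' => hK K hK' 0)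
    have h2 := norm_sub_norm_le z ((∑ i ∈ range t, A t i • r i) x)
    rw [norm_sub_rev] at h2
    have h3 : ‖(∑ i ∈ range t, A t i • r i) x‖ ≤ ‖∑ i ∈ range t, A t i • r i‖ :=
      ((∑ i ∈ range t, A t i • r i).le_opNorm x).trans
        (mul_le_of_le_one_right (norm_nonneg _) hx)
    have h4 := mul_le_mul_of_nonneg_left (rad_khin_lower (A t) t) hδ.le
    linarith
  have hz : ∀ i, (0 : 𝕜) • r i = 0 := fun i => by
    ext x
    simp
  have hext : ∀ (N : ℕ) (w : Fin N → 𝕜) (M : ℕ), N ≤ M →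
      (∑ i ∈ range M, ‖ext N w i‖ ^ 2 = ∑ i, ‖w i‖ ^ 2) ∧
        ∑ i ∈ range M, ext N w i • r i = ∑ i, w i • r i := by
    intro N w M hM
    have h0 : ∀ i ∈ range M, i ∉ range N → ext N w i = 0 := fun i _ hi =>
      dif_neg fun h => hi (mem_range.2 h)
    constructor
    · rw [← sum_subset (range_subset_range.2 hM) fun i hi hi' => by
        rw [h0 i hi hi', norm_zero, zero_pow two_ne_zero], sum_range]
      exact sum_congr rfl fun i _ => by simp [ext]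
    · rw [← sum_subset (range_subset_range.2 hM) fun i hi hi' => by
        rw [h0 i hi hi']; exact hz i, sum_range]
      exact sum_congr rfl fun i _ => by simp [ext]
  have hlower : ∀ (N : ℕ) (w : Fin N → 𝕜),
      δ / 6 * √(∑ i, ‖w i‖ ^ 2) ≤ ‖∑ i, w i • r i‖ := by
    intro N w
    refine (TopologicalSpace.denseRange_denseSeq (Fin N → 𝕜)).induction_on w
      (isClosed_le (by fun_prop) (by fun_prop)) fun k => ?_
    have h1 := hlowA (Nat.pair N k)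
    have e : A (Nat.pair N k) = ext N (TopologicalSpace.denseSeq (Fin N → 𝕜) k) := by
      have e2 : ∀ p : ℕ × ℕ, p = (N, k) →
          ext p.1 (TopologicalSpace.denseSeq (Fin p.1 → 𝕜) p.2) =
            ext N (TopologicalSpace.denseSeq (Fin N → 𝕜) k) := by
        rintro _ rfl
        rfl
      exact e2 _ (Nat.unpair_pair N k)
    have h2 := hext N (TopologicalSpace.denseSeq (Fin N → 𝕜) k) _ (Nat.left_le_pair N k)
    rwa [e, h2.1, h2.2] at h1
  refine ⟨r, δ / 6, by positivity, fun s a => ?_⟩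
  obtain ⟨N, hN⟩ := s.exists_nat_subset_range
  set a' : ℕ → 𝕜 := fun i => if i ∈ s then a i else 0 with ha'
  have e1 : ∑ i ∈ s, ‖a i‖ ^ 2 = ∑ i ∈ range N, ‖a' i‖ ^ 2 := by
    rw [← sum_subset hN fun i _ hi => by simp [ha', hi]]
    exact sum_congr rfl fun i hi => by simp [ha', hi]
  have e2 : ∑ i ∈ s, a i • r i = ∑ i ∈ range N, a' i • r i := by
    rw [← sum_subset hN fun i _ hi => by simp only [ha', if_neg hi]; exact hz i]
    exact sum_congr rfl fun i hi => by simp [ha', hi]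
  rw [e1, e2]
  refine ⟨?_, hupper a' N fun i hi => if_neg fun h => absurd (mem_range.1 (hN h)) (not_lt.2 hi)⟩
  rw [sum_range, sum_range]
  exact hlower N fun i => a' i

end Crest.Agent.R114
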