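import Crest.Agent.R114.Space

/-!
# Row 114: reduction from infinite-dimensional subspaces to block sequences
-/

set_option autoImplicit false
set_option linter.unusedSectionVars false

open Filter Finset Topology

namespace Crest.Agent.R114

variable {Γ : Type} [LinearOrder Γ] {ρ : Rho Γ} {𝕜 : Type} [RCLike 𝕜]

theorem reduce_ker {E : Type} [AddCommGroup E] [Module 𝕜 E] {G : Submodule 𝕜 E} (hG : ¬ G.FG)
    {ι : Type} [Finite ι] (f : ι → E →ₗ[𝕜] 𝕜) : ¬ (G ⊓ LinearMap.ker (LinearMap.pi f)).FG :=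
  fun h => hG (Submodule.fg_of_fg_map_of_fg_inf_ker (LinearMap.pi f)
    (IsNoetherian.noetherian _) h)

theorem reduce_countable {E : Type} [AddCommGroup E] [Module 𝕜 E] {G : Submodule 𝕜 E}
    (hG : ¬ G.FG) : ∃ e : ℕ → E, Submodule.span 𝕜 (Set.range e) ≤ G ∧
      ¬ (Submodule.span 𝕜 (Set.range e)).FG := by
  obtain ⟨B, hBG, hspan, hli⟩ := exists_linearIndependent 𝕜 (G : Set E)
  have hinf : B.Infinite := fun hf => hG (by
    rw [← Submodule.span_eq G, ← hspan]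
    exact Submodule.fg_span hf)
  refine ⟨fun n => (hinf.natEmbedding B n : E), ?_, fun h => ?_⟩
  · rw [Submodule.span_le]
    rintro _ ⟨n, rfl⟩
    exact hBG (hinf.natEmbedding B n).2
  · have h1 : LinearIndependent 𝕜 fun n => (hinf.natEmbedding B n : E) :=
      hli.comp _ (hinf.natEmbedding B).injective
    have h2 := linearIndependent_span h1
    have : Module.Finite 𝕜 (Submodule.span 𝕜 (Set.range fun n => (hinf.natEmbedding B n : E))) :=
      Module.Finite.iff_fg.2 h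
    have := h2.finite_of_isNoetherian
    exact not_finite ℕ

theorem reduce_res {g : ℕ → Γ →₀ 𝕜} (hg : Succ g) (t : ℕ →₀ 𝕜) (n : ℕ) :
    res (hull (g n).support) (t.sum fun i c => c • g i) = t n • g n := by
  rw [Finsupp.sum, res_sum, sum_eq_single n]
  · rw [res_smul, res_of_subset fun δ hδ => mem_hull_of_mem hδ]
  · intro i _ hi
    rw [res_smul]
    have : res (hull (g n).support) (g i) = 0 := by
      rw [← Finsupp.support_eq_empty, eq_empty_iff_forall_notMem]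
      intro δ hδ
      obtain ⟨h1, h2⟩ := mem_support_res.1 hδ
      rcases lt_or_gt_of_ne hi with h | h
      · exact lt_irrefl _ ((hg i n h).hull (mem_hull_of_mem h2) h1)
      · exact lt_irrefl _ ((hg n i h).hull h1 (mem_hull_of_mem h2))
    rw [this, smul_zero]
  · intro h
    rw [Finsupp.notMem_support_iff.1 h, zero_smul, res_zero]

theorem reduce_supp {g : ℕ → Γ →₀ 𝕜} (t : ℕ →₀ 𝕜) {δ : Γ}
    (h : δ ∈ (t.sum fun i c => c • g i).support) : ∃ i ∈ t.support, δ ∈ (g i).support := by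
  classical
  obtain ⟨i, hi, h2⟩ := mem_biUnion.1 (Finsupp.support_finsetSum h)
  exact ⟨i, hi, Finsupp.support_smul h2⟩

theorem reduce_geom (S : Finset ℕ) (N : ℕ) (h : ∀ n ∈ S, N ≤ n) :
    ∑ n ∈ S, (1 / 2 : ℝ) ^ n ≤ 2 * (1 / 2) ^ N := by
  have h1 : S ⊆ Ico N (S.sup id + 1) := fun n hn =>
    mem_Ico.2 ⟨h n hn, Nat.lt_succ_of_le (le_sup (f := id) hn)⟩
  refine (sum_le_sum_of_subset_of_nonneg h1 fun _ _ _ => by positivity).trans ?_
  refine (geom_sum_Ico_le_of_lt_one (by norm_num) (by norm_num)).trans (le_of_eq ?_)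
  ring

variable [WellFoundedLT Γ]

theorem reduce_step {G : Submodule 𝕜 (Z ρ 𝕜)} (hG : ¬ G.FG) {lam : Γ}
    (hmin : ∀ μ < lam, ∀ G' ≤ G, ¬ G'.FG → ∀ ε : ℝ, 0 < ε → ∃ a ∈ G', ‖pIio ρ 𝕜 μ a‖ < ε * ‖a‖)
    (D : ℕ → StrongDual 𝕜 (Z ρ 𝕜)) (s : ℕ → Γ) (F : Finset Γ) (hF : ∀ ξ ∈ F, ξ < lam) (n : ℕ)
    {ε : ℝ} (hε : 0 < ε) :
    ∃ a ∈ G, ‖a‖ = 1 ∧ (∀ k < n, D k a = 0 ∧ a.val (s k) = 0) ∧ ∃ g : Γ →₀ 𝕜,
      (∀ δ ∈ g.support, δ < lam) ∧ SLt F g.support ∧ ‖pIio ρ 𝕜 lam a - ofFin ρ 𝕜 g‖ < 2 * ε := by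
  let f : Fin n ⊕ Fin n ⊕ F → Z ρ 𝕜 →ₗ[𝕜] 𝕜 := Sum.elim (fun k => (D k).toLinearMap)
    (Sum.elim (fun k => (coord ρ 𝕜 (s k)).toLinearMap) fun ξ => (coord ρ 𝕜 ξ).toLinearMap)
  have hG' := reduce_ker hG f
  set G' := G ⊓ LinearMap.ker (LinearMap.pi f) with hG'def
  set E : Set Γ := {x | x < lam ∧ ∀ ξ ∈ F, ξ < x} with hEdef
  have hE : E.OrdConnected :=
    ⟨fun x hx y hy z hz => ⟨hz.2.trans_lt hy.1, fun ξ hξ => (hx.2 ξ hξ).trans_le hz.1⟩⟩
  have hf : ∀ a ∈ G', ∀ i, f i a = 0 := fun a ha i => congrFun (LinearMap.mem_ker.1 ha.2) i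
  have h1 : ∃ a ∈ G', ‖pIio ρ 𝕜 lam a - proj ρ 𝕜 E hE a‖ < ε * ‖a‖ := by
    rcases F.eq_empty_or_nonempty with h0 | h0
    · obtain ⟨a, ha, ha0⟩ := Submodule.exists_mem_ne_zero_of_ne_bot (p := G') (by
        rintro h
        rw [h] at hG'
        exact hG' Submodule.fg_bot)
      refine ⟨a, ha, ?_⟩
      have : pIio ρ 𝕜 lam a - proj ρ 𝕜 E hE a = 0 := by
        rw [sub_eq_zero]
        ext x
        simp [hEdef, h0, Set.indicator]
      rw [this, norm_zero]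
      exact mul_pos hε (norm_pos_iff.2 ha0)
    · obtain ⟨a, ha, h2⟩ := hmin _ (hF _ (F.max'_mem h0)) G' inf_le_left hG' ε hε
      refine ⟨a, ha, ?_⟩
      have h3 : a.val (F.max' h0) = 0 := by
        simpa [f] using hf a ha (Sum.inr (Sum.inr ⟨_, F.max'_mem h0⟩))
      convert h2 using 2
      ext x
      simp only [proj_val, Z.val_sub, Pi.sub_apply]
      rcases lt_trichotomy x (F.max' h0) with hx | hx | hx
      · have h4 : x ∉ E := fun h => absurd (h.2 _ (F.max'_mem h0)) (not_lt.2 hx.le)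
        have h5 : x < lam := hx.trans (hF _ (F.max'_mem h0))
        simp [h4, h5, hx]
      · subst hx
        simp [Set.indicator, h3]
      · by_cases h5 : x < lam
        · have h4 : x ∈ E := ⟨h5, fun ξ hξ => (F.le_max' ξ hξ).trans_lt hx⟩
          simp [h4, h5, hx.not_gt]
        · have h4 : x ∉ E := fun h => h5 h.1
          simp [h4, h5, hx.not_gt]
  obtain ⟨a0, ha0, h2⟩ := h1
  have hn0 : 0 < ‖a0‖ := (mul_pos_iff_of_pos_left hε).1 ((norm_nonneg _).trans_lt h2)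
  set a := ((‖a0‖ : 𝕜))⁻¹ • a0 with ha
  have haG : a ∈ G' := G'.smul_mem _ ha0
  have hsm : ∀ x : Z ρ 𝕜, ‖((‖a0‖ : 𝕜))⁻¹ • x‖ = ‖x‖ / ‖a0‖ := fun x => by
    rw [norm_smul, norm_inv, RCLike.norm_ofReal, abs_norm, div_eq_inv_mul]
  have h3 : ‖pIio ρ 𝕜 lam a - proj ρ 𝕜 E hE a‖ < ε := by
    rw [ha, map_smul, map_smul, ← smul_sub, hsm, div_lt_iff₀ hn0]
    exact h2
  obtain ⟨z, hz⟩ := exists_fin_approx a hε
  refine ⟨a, haG.1, by rw [ha, hsm, div_self hn0.ne'], fun k hk => ⟨?_, ?_⟩, res E z,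
    fun δ hδ => (mem_support_res.1 hδ).1.1, fun ξ hξ δ hδ => (mem_support_res.1 hδ).1.2 ξ hξ, ?_⟩
  · simpa [f] using hf a haG (Sum.inl ⟨k, hk⟩)
  · simpa [f] using hf a haG (Sum.inr (Sum.inl ⟨k, hk⟩))
  · have h4 := (norm_proj_le E hE (a - ofFin ρ 𝕜 z)).trans_lt hz
    rw [map_sub, proj_ofFin] at h4
    have h5 := norm_add_le (pIio ρ 𝕜 lam a - proj ρ 𝕜 E hE a)
      (proj ρ 𝕜 E hE a - ofFin ρ 𝕜 (res E z))
    rw [sub_add_sub_cancel] at h5
    linarith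

theorem reduce (ρ : Rho Γ) (𝕜 : Type) [RCLike 𝕜] (hZ : ZStmt ρ 𝕜)
    (hb : ∀ S : Set Γ, S.Countable → ∃ β, ∀ δ ∈ S, δ < β) : ReduceStmt ρ 𝕜 := by
  classical
  intro G hG D
  obtain ⟨e, heG, he⟩ := reduce_countable (G := G) fun h => hG (Module.Finite.iff_fg.2 h)
  set G0 := Submodule.span 𝕜 (Set.range e) with hG0
  set S : Set Γ := ⋃ n, {δ | (e n).val δ ≠ 0} with hS
  have hSc : S.Countable := Set.countable_iUnion fun n => (e n).countable_support
  have hS0 : ∀ a ∈ G0, ∀ δ, δ ∉ S → a.val δ = 0 := by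
    intro a ha δ hδ
    have : G0 ≤ LinearMap.ker (coord ρ 𝕜 δ).toLinearMap := by
      rw [hG0, Submodule.span_le]
      rintro _ ⟨n, rfl⟩
      by_contra h
      exact hδ (Set.mem_iUnion.2 ⟨n, by simpa using h⟩)
    simpa using this ha
  obtain ⟨β, hβ⟩ := hb S hSc
  have : Nonempty Γ := ⟨β⟩
  obtain ⟨s, hs⟩ := Set.countable_iff_exists_subset_range.1 hSc
  -- the minimal ordinal
  let P : Set Γ := {lam | ∃ G' ≤ G0, ¬ G'.FG ∧ ∃ c : ℝ, 0 < c ∧ ∀ a ∈ G', c * ‖a‖ ≤ ‖pIio ρ 𝕜 lam a‖}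
  have hPβ : β ∈ P := ⟨G0, le_rfl, he, 1, one_pos, fun a ha => by
    have : pIio ρ 𝕜 β a = a := by
      ext δ
      by_cases h : δ < β
      · simp [h]
      · simp [h, hS0 a ha δ fun h' => h (hβ δ h')]
    rw [this, one_mul]⟩
  obtain ⟨lam, ⟨G', hG'0, hG', c, hc, hcG⟩, hlam⟩ := wellFounded_lt.has_min P ⟨β, hPβ⟩
  have hmin : ∀ μ < lam, ∀ G'' ≤ G', ¬ G''.FG → ∀ ε : ℝ, 0 < ε →
      ∃ a ∈ G'', ‖pIio ρ 𝕜 μ a‖ < ε * ‖a‖ := by
    intro μ hμ G'' h1 h2 ε hε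
    by_contra h3
    push Not at h3
    exact hlam μ ⟨G'', h1.trans hG'0, h2, ε, hε, h3⟩ hμ
  -- the block sequence
  have step := fun (F : Finset Γ) (n : ℕ) (hF : ∀ ξ ∈ F, ξ < lam) =>
    reduce_step hG' hmin D s F hF n (ε := c * (1 / 2) ^ n / 8) (by positivity)
  choose! fa hfa1 hfa2 hfa3 fg hfg1 hfg2 hfg3 using step
  let F : ℕ → Finset Γ := fun n => Nat.rec ∅ (fun k s => s ∪ (fg s k).support) n
  have hF : ∀ n, F (n + 1) = F n ∪ (fg (F n) n).support := fun n => rfl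
  have hFl : ∀ n, ∀ x ∈ F n, x < lam := by
    intro n
    induction n with
    | zero => simp [F]
    | succ n ih =>
      intro x hx
      rw [hF, mem_union] at hx
      exact hx.elim (ih x) (hfg1 _ n ih x)
  have hmono : Monotone F := monotone_nat_of_le_succ fun n => by rw [hF]; exact subset_union_left
  set a : ℕ → Z ρ 𝕜 := fun n => fa (F n) n with ha
  set g : ℕ → Γ →₀ 𝕜 := fun n => fg (F n) n with hg
  have haG : ∀ n, a n ∈ G' := fun n => hfa1 _ n (hFl n)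
  have ha0 : ∀ n, ∀ k < n, D k (a n) = 0 ∧ (a n).val (s k) = 0 := fun n => hfa3 _ n (hFl n)
  have hgl : ∀ n, ∀ δ ∈ (g n).support, δ < lam := fun n => hfg1 _ n (hFl n)
  have hag : ∀ n, ‖pIio ρ 𝕜 lam (a n) - ofFin ρ 𝕜 (g n)‖ ≤ c * (1 / 2) ^ n / 4 := fun n => by
    have := hfg3 _ n (hFl n)
    linarith
  have hsucc : Succ g := fun i i' h => (hfg2 _ i' (hFl i')).mono
    (subset_union_right.trans ((hF i).ge.trans (hmono (Nat.succ_le_of_lt h)))) subset_rfl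
  have hgc : ∀ n, c / 2 ≤ ‖ofFin ρ 𝕜 (g n)‖ := fun n => by
    have h1 := hcG _ (haG n)
    have h2 : ‖a n‖ = 1 := hfa2 _ n (hFl n)
    have h3 := norm_sub_norm_le (pIio ρ 𝕜 lam (a n)) (ofFin ρ 𝕜 (g n))
    have h4 := hag n
    have h5 : (1 / 2 : ℝ) ^ n ≤ 1 := pow_le_one₀ (by norm_num) (by norm_num)
    rw [h2] at h1
    nlinarith
  have hg0 : ∀ n, g n ≠ 0 := fun n h => by
    have := hgc n
    rw [h, map_zero, norm_zero] at this
    linarith
  have hfar : Far (Submodule.span 𝕜 (Set.range g)) := by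
    intro z hz
    obtain ⟨t, rfl⟩ := Finsupp.mem_span_range_iff_exists_finsupp.1 hz
    obtain ⟨N, hN⟩ : ∃ N, ∀ i ∈ t.support, i < N :=
      ⟨t.support.sup id + 1, fun i hi => Nat.lt_succ_of_le (le_sup (f := id) hi)⟩
    refine ⟨g N, Submodule.subset_span ⟨N, rfl⟩, hg0 N, fun δ hδ => ?_⟩
    obtain ⟨i, hi, h1⟩ := reduce_supp t hδ
    exact hsucc i N (hN i hi) δ h1
  have hnull := hZ _ hfar
  simp only [NullV, NullSeq, not_forall] at hnull
  obtain ⟨y, hyV, hyS, hy1, b, η, hη, hfreq⟩ := hnull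
  choose t ht using fun l => Finsupp.mem_span_range_iff_exists_finsupp.1 (hyV l)
  have hfreq' : ∃ᶠ l in atTop, η ≤ ‖BB 𝕜 b (ofFin ρ 𝕜 (y l))‖ := by
    refine (not_eventually.1 hfreq).mono fun l hl => ?_
    exact ge_of_tendsto_of_frequently (tendsto_BB b (ofFin ρ 𝕜 (y l))).norm
      ((not_eventually.1 hl).mono fun n hn => (not_le.1 hn).le)
  have hyl : ∀ l, ∀ δ ∈ (y l).support, δ < lam := fun l δ hδ => by
    rw [← ht l] at hδ
    obtain ⟨i, -, h1⟩ := reduce_supp _ hδ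
    exact hgl i δ h1
  have hyn : ∀ l, ‖ofFin ρ 𝕜 (y l)‖ ≤ 1 := fun l => Z.norm_le (hy1 l)
  have htb : ∀ l n, ‖t l n‖ ≤ 2 / c := fun l n => by
    have h1 := norm_proj_le _ (hull_ordConnected (g n).support) (ofFin ρ 𝕜 (y l))
    rw [proj_ofFin, ← ht l, reduce_res hsucc, map_smul, norm_smul, ht l] at h1
    have h2 := mul_le_mul_of_nonneg_left (hgc n) (norm_nonneg (t l n))
    have h3 := hyn l
    rw [le_div_iff₀ hc]
    linarith
  have ht0 : ∀ N, ∀ᶠ l in atTop, ∀ n ∈ (t l).support, N ≤ n := by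
    intro N
    have : ∀ n ∈ range N, ∀ᶠ l in atTop, t l n = 0 := by
      intro n _
      filter_upwards [hyS.eventually_disjoint (g n).support] with l hl
      by_contra h
      obtain ⟨δ, hδ⟩ := Finsupp.support_nonempty_iff.2 (hg0 n)
      refine Finset.disjoint_left.1 hl hδ (Finsupp.mem_support_iff.2 ?_)
      rw [← res_apply_of_mem (y l) (mem_hull_of_mem hδ), ← ht l, reduce_res hsucc]
      simpa [h] using hδ
    filter_upwards [(eventually_all_finset _).2 this] with l hl n hn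
    by_contra h
    exact Finsupp.mem_support_iff.1 hn (hl n (mem_range.2 (not_le.1 h)))
  set a' : ℕ → Z ρ 𝕜 := fun l => ∑ n ∈ (t l).support, t l n • a n with ha'
  have ha'G : ∀ l, a' l ∈ G' := fun l => G'.sum_mem fun n _ => G'.smul_mem _ (haG n)
  have hdiff : ∀ l N, (∀ n ∈ (t l).support, N ≤ n) →
      ‖pIio ρ 𝕜 lam (a' l) - ofFin ρ 𝕜 (y l)‖ ≤ (1 / 2) ^ N := by
    intro l N hN
    have h1 : pIio ρ 𝕜 lam (a' l) - ofFin ρ 𝕜 (y l) =
        ∑ n ∈ (t l).support, t l n • (pIio ρ 𝕜 lam (a n) - ofFin ρ 𝕜 (g n)) := by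
      rw [← ht l, Finsupp.sum, ha', map_sum, map_sum, ← sum_sub_distrib]
      exact sum_congr rfl fun n _ => by rw [map_smul, map_smul, smul_sub]
    rw [h1]
    refine (norm_sum_le _ _).trans ?_
    have h2 : ∑ n ∈ (t l).support, ‖t l n • (pIio ρ 𝕜 lam (a n) - ofFin ρ 𝕜 (g n))‖ ≤
        ∑ n ∈ (t l).support, (1 / 2 : ℝ) * (1 / 2) ^ n := by
      refine sum_le_sum fun n _ => ?_
      rw [norm_smul]
      refine (mul_le_mul (htb l n) (hag n) (norm_nonneg _) (by positivity)).trans (le_of_eq ?_)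
      field_simp
      ring
    rw [← mul_sum] at h2
    linarith [reduce_geom _ N hN]
  have hbw : ∀ i, ∀ δ ∈ (b.w i).support, δ < lam := by
    intro i δ hδ
    by_contra hle
    have h1 : ∀ᶠ l in atTop, ∀ᶠ n in atTop, ‖act (b.psum n) (y l)‖ ≤ η := by
      filter_upwards [hyS.eventually_disjoint ((range (i + 1)).biUnion fun k => (b.w k).support)]
        with l hl
      refine Eventually.of_forall fun n => ?_
      rw [Branch.psum, act_sum, sum_eq_zero, norm_zero]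
      · exact hη.le
      · intro k _
        refine act_eq_zero_of_disjoint _ _ (Finset.disjoint_left.2 fun ξ hξ hξ' => ?_)
        by_cases hk : k ≤ i
        · exact Finset.disjoint_left.1 hl
            (mem_biUnion.2 ⟨k, mem_range.2 (Nat.lt_succ_of_le hk), hξ⟩) hξ'
        · exact hle ((b.succ (not_le.1 hk) δ hδ ξ hξ).trans (hyl l ξ hξ'))
    exact hfreq h1
  have hBB : ∀ x : Z ρ 𝕜, BB 𝕜 b (pIio ρ 𝕜 lam x) = BB 𝕜 b x := fun x => by
    refine tendsto_nhds_unique (tendsto_BB b _) ((tendsto_BB b x).congr fun n => ?_)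
    refine act_congr _ fun δ hδ => ?_
    obtain ⟨i, -, h2⟩ := mem_biUnion.1 (Finsupp.support_finsetSum hδ)
    simp [hbw i δ h2]
  refine ⟨a', 2 / c, fun l => heG (hG'0 (ha'G l)), fun l => ?_, fun k => ?_, fun δ => ?_, b,
    fun hlim => ?_⟩
  · have h1 := hcG _ (ha'G l)
    have h2 := hdiff l 0 fun _ _ => Nat.zero_le _
    have h3 := norm_sub_norm_le (pIio ρ 𝕜 lam (a' l)) (ofFin ρ 𝕜 (y l))
    have h4 := hyn l
    rw [pow_zero] at h2
    rw [le_div_iff₀ hc]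
    linarith
  · filter_upwards [ht0 (k + 1)] with l hl
    rw [ha', map_sum]
    exact sum_eq_zero fun n hn => by rw [map_smul, (ha0 n k (hl n hn)).1, smul_zero]
  · by_cases hδ : δ ∈ S
    · obtain ⟨k, rfl⟩ := hs hδ
      filter_upwards [ht0 (k + 1)] with l hl
      rw [ha', Z.val_sum, Finset.sum_apply]
      exact sum_eq_zero fun n hn => by simp [(ha0 n k (hl n hn)).2]
    · exact Eventually.of_forall fun l => hS0 _ (hG'0 (ha'G l)) δ hδ
  · obtain ⟨N, hN⟩ := exists_pow_lt_of_lt_one (show 0 < η / 4 by positivity)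
      (show (1 / 2 : ℝ) < 1 by norm_num)
    have h1 : ∀ᶠ l in atTop, ‖BB 𝕜 b (a' l)‖ < η / 2 := by
      have := hlim.norm
      rw [norm_zero] at this
      exact this.eventually (gt_mem_nhds (by positivity))
    obtain ⟨l, h2, h3, h4⟩ := (hfreq'.and_eventually (h1.and (ht0 N))).exists
    have h5 := hdiff l N h4
    have h6 := norm_BB_le b (pIio ρ 𝕜 lam (a' l) - ofFin ρ 𝕜 (y l))
    rw [map_sub, hBB] at h6
    have h7 := norm_sub_norm_le (BB 𝕜 b (ofFin ρ 𝕜 (y l))) (BB 𝕜 b (a' l))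
    rw [norm_sub_rev] at h7
    linarith

end Crest.Agent.R114
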