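import Mathlib
import Crest.Agent.R114.DefsQ

/-!
# Row 114: iterated almost-everywhere selection (`SelStmt`)
-/

set_option autoImplicit false

open Filter Finset Topology MeasureTheory

namespace Crest.Agent.R114

universe u

/-- prepend a point to a sequence -/
def selCons {Ω : Type} (v : Ω) (θ : ℕ → Ω) : ℕ → Ω := fun n => Nat.casesOn n v θ

/-- iterated "for almost all" over the first `r` coordinates -/
def selGood {Ω : Type} (F : Filter Ω) (θ0 : ℕ → Ω) (r : ℕ) : ((ℕ → Ω) → Prop) → Prop :=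
  Nat.rec (fun P => P θ0) (fun _ G P => ∀ᶠ v in F, G (fun θ => P (selCons v θ))) r

theorem sel_good_zero {Ω : Type} (F : Filter Ω) (θ0 : ℕ → Ω) (P : (ℕ → Ω) → Prop) :
    selGood F θ0 0 P ↔ P θ0 := Iff.rfl

theorem sel_good_succ {Ω : Type} (F : Filter Ω) (θ0 : ℕ → Ω) (r : ℕ) (P : (ℕ → Ω) → Prop) :
    selGood F θ0 (r + 1) P ↔ ∀ᶠ v in F, selGood F θ0 r (fun θ => P (selCons v θ)) := Iff.rfl

theorem sel_step {Ω T : Type} (μ : @Measure Ω ⊤) (hμ : μ Set.univ = 1)
    (ν : @Measure T ⊤) (hν : ν Set.univ = 1) (c : Ω → T → T) :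
    ∃ ν' : @Measure T ⊤, ν' Set.univ = 1 ∧ ∀ P : T → Prop,
      (∀ᶠ θ in @ae T _ _ _ ν', P θ) →
        ∀ᶠ v in @ae Ω _ _ _ μ, ∀ᶠ θ in @ae T _ _ _ ν, P (c v θ) := by
  let _ : MeasurableSpace Ω := ⊤
  let _ : MeasurableSpace T := ⊤
  have hm : ∀ v, Measurable (c v) := fun v => measurable_from_top
  have hk : Measurable (fun v => ν.map (c v)) := measurable_from_top
  have happ : ∀ S : Set T, μ.bind (fun v => ν.map (c v)) S = ∫⁻ v, ν (c v ⁻¹' S) ∂μ := by
    intro S
    rw [Measure.bind_apply MeasurableSpace.measurableSet_top hk.aemeasurable]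
    refine lintegral_congr fun v => ?_
    rw [Measure.map_apply (hm v) MeasurableSpace.measurableSet_top]
  refine ⟨μ.bind (fun v => ν.map (c v)), ?_, ?_⟩
  · rw [happ]
    simp [hν, hμ]
  · intro P hP
    rw [ae_iff, happ, lintegral_eq_zero_iff measurable_from_top] at hP
    filter_upwards [hP] with v hv
    rw [ae_iff]
    exact hv

theorem sel_nu {Ω : Type} (μ : @Measure Ω ⊤) (hμ : μ Set.univ = 1) (θ0 : ℕ → Ω) (r : ℕ) :
    ∃ ν : @Measure (ℕ → Ω) ⊤, ν Set.univ = 1 ∧ ∀ P : (ℕ → Ω) → Prop,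
      (∀ᶠ θ in @ae (ℕ → Ω) _ _ _ ν, P θ) → selGood (@ae Ω _ _ _ μ) θ0 r P := by
  induction r with
  | zero =>
    refine ⟨@Measure.dirac (ℕ → Ω) ⊤ θ0, ?_, ?_⟩
    · exact @Measure.dirac_apply_of_mem (ℕ → Ω) ⊤ _ _ (Set.mem_univ _)
    · intro P hP
      rw [sel_good_zero]
      exact (@ae_dirac_iff (ℕ → Ω) ⊤ θ0 P MeasurableSpace.measurableSet_top).1 hP
  | succ r ih =>
    obtain ⟨ν, hν, hP⟩ := ih
    obtain ⟨ν', hν', hP'⟩ := sel_step μ hμ ν hν selCons
    refine ⟨ν', hν', fun P h => ?_⟩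
    rw [sel_good_succ]
    filter_upwards [hP' P h] with v hv
    exact hP _ hv

/-- the first `k` values of `w` followed by `θ` -/
def selApp {Ω : Type} (w : ℕ → Ω) (k : ℕ) (θ : ℕ → Ω) : ℕ → Ω :=
  fun n => if n < k then w n else θ (n - k)

theorem sel_app_zero {Ω : Type} (w θ : ℕ → Ω) : selApp w 0 θ = θ := by
  funext n
  simp [selApp]

theorem sel_app_succ {Ω : Type} (w θ : ℕ → Ω) (k : ℕ) (v : Ω) :
    selApp (Function.update w k v) (k + 1) θ = selApp w k (selCons v θ) := by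
  funext n
  unfold selApp
  rcases lt_trichotomy n k with h | h | h
  · rw [if_pos (by omega), if_pos h, Function.update_of_ne h.ne]
  · subst h
    rw [if_pos (by omega), if_neg (lt_irrefl _), Function.update_self, Nat.sub_self]
    rfl
  · rw [if_neg (by omega), if_neg (by omega)]
    have : n - k = (n - (k + 1)) + 1 := by omega
    rw [this]
    rfl

theorem sel_select {Ω T : Type} [Countable T] (F : Filter Ω) [CountableInterFilter F] [F.NeBot]
    (θ0 : ℕ → Ω) (r : T → ℕ) (P : T → (ℕ → Ω) → Prop) (hP : ∀ t, selGood F θ0 (r t) (P t))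
    (hdep : ∀ t θ θ', (∀ j < r t, θ j = θ' j) → P t θ → P t θ') :
    ∃ w : ℕ → Ω, ∀ t, P t w := by
  let Inv : ℕ → (ℕ → Ω) → Prop := fun k w =>
    ∀ t, k ≤ r t → selGood F θ0 (r t - k) (fun θ => P t (selApp w k θ))
  have hstep : ∀ k w, ∃ v, Inv k w → Inv (k + 1) (Function.update w k v) := by
    intro k w
    by_cases hI : Inv k w
    · have : ∀ᶠ v in F, ∀ t, k + 1 ≤ r t →
          selGood F θ0 (r t - (k + 1)) (fun θ => P t (selApp w k (selCons v θ))) := by
        rw [eventually_countable_forall]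
        intro t
        by_cases ht : k + 1 ≤ r t
        · have h1 := hI t (by omega)
          have e : r t - k = (r t - (k + 1)) + 1 := by omega
          rw [e, sel_good_succ] at h1
          filter_upwards [h1] with v hv
          exact fun _ => hv
        · exact Eventually.of_forall fun v h => absurd h ht
      obtain ⟨v, hv⟩ := this.exists
      refine ⟨v, fun _ t ht => ?_⟩
      simp only [sel_app_succ]
      exact hv t ht
    · exact ⟨θ0 0, fun h => absurd h hI⟩
  choose nx hnx using hstep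
  let W : ℕ → ℕ → Ω := fun k => Nat.rec θ0 (fun k w => Function.update w k (nx k w)) k
  have hWs : ∀ k, W (k + 1) = Function.update (W k) k (nx k (W k)) := fun k => rfl
  have hInv : ∀ k, Inv k (W k) := by
    intro k
    induction k with
    | zero =>
      intro t _
      simp only [sel_app_zero, Nat.sub_zero]
      exact hP t
    | succ k ih => rw [hWs]; exact hnx k _ ih
  have hW : ∀ k n, n < k → W k n = W (n + 1) n := by
    intro k
    induction k with
    | zero => intro n hn; omega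
    | succ k ih =>
      intro n hn
      rcases Nat.lt_succ_iff_lt_or_eq.1 hn with h | h
      · rw [hWs, Function.update_of_ne h.ne, ih n h]
      · subst h; rfl
  refine ⟨fun n => W (n + 1) n, fun t => ?_⟩
  have h1 := hInv (r t) t le_rfl
  rw [Nat.sub_self, sel_good_zero] at h1
  refine hdep t _ _ (fun j hj => ?_) h1
  simp only [selApp, if_pos hj]
  exact hW _ _ hj

variable {𝕜 : Type} [RCLike 𝕜] {X : Type u} [NormedAddCommGroup X] [NormedSpace 𝕜 X]

theorem sel_nv (φ : StrongDual 𝕜 X) : ∃ x : X, ‖x‖ ≤ 1 ∧ ‖φ‖ ≤ 2 * ‖φ x‖ := by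
  by_cases h : φ = 0
  · exact ⟨0, by simp, by simp [h]⟩
  · have hpos : 0 < ‖φ‖ := norm_pos_iff.2 h
    obtain ⟨x, hx, hx'⟩ := φ.exists_lt_apply_of_lt_opNorm (r := ‖φ‖ / 2) (by linarith)
    exact ⟨x, hx.le, by linarith⟩

theorem sel_zero_smul (φ : StrongDual 𝕜 X) : (0 : 𝕜) • φ = 0 := by
  ext x
  simp

theorem sel_sub_smul (a b : 𝕜) (φ : StrongDual 𝕜 X) : (a - b) • φ = a • φ - b • φ := by
  ext x
  simp [sub_mul]

theorem sel : SelStmt 𝕜 X := by
  intro Ω μ hμ Y h hY hzero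
  classical
  have hne : Nonempty Ω := by
    by_contra hc
    rw [not_nonempty_iff] at hc
    rw [Set.univ_eq_empty_iff.2 hc] at hμ
    simp at hμ
  obtain ⟨v0⟩ := hne
  let θ0 : ℕ → Ω := fun _ => v0
  let F : Filter Ω := @ae Ω _ _ _ μ
  have : CountableInterFilter F := by
    let _ : MeasurableSpace Ω := ⊤
    exact inferInstanceAs (CountableInterFilter (ae μ))
  have : F.NeBot := by
    let _ : MeasurableSpace Ω := ⊤
    refine ae_neBot.2 ?_
    rintro rfl
    simp at hμ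
  choose nv hnv1 hnv2 using (sel_nv : ∀ φ : StrongDual 𝕜 X, _)
  have req : ∀ i r, i < r → ∀ (ψ : StrongDual 𝕜 X) (a : ℕ → 𝕜), a i = 0 →
      selGood F θ0 r (fun θ => nv (ψ + ∑ j ∈ range r, a j • h (θ j)) ∈ Y (θ i)) := by
    intro i
    induction i with
    | zero =>
      intro r hr ψ a ha
      obtain ⟨r, rfl⟩ : ∃ r', r = r' + 1 := ⟨r - 1, by omega⟩
      obtain ⟨ν, hν, hP⟩ := sel_nu μ hμ θ0 r
      rw [sel_good_succ]
      have := hY ν hν (fun θ => nv (ψ + ∑ j ∈ range r, a (j + 1) • h (θ j))) (fun θ => hnv1 _)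
      filter_upwards [this] with v hv
      have h2 := hP _ hv
      have e : (fun θ : ℕ → Ω => nv (ψ + ∑ j ∈ range (r + 1), a j • h (selCons v θ j)) ∈
          Y (selCons v θ 0)) =
          fun θ : ℕ → Ω => nv (ψ + ∑ j ∈ range r, a (j + 1) • h (θ j)) ∈ Y v := by
        funext θ
        rw [Finset.sum_range_succ', ha, sel_zero_smul, add_zero]
        rfl
      rw [e]
      exact h2
    | succ i ih =>
      intro r hr ψ a ha
      obtain ⟨r, rfl⟩ : ∃ r', r = r' + 1 := ⟨r - 1, by omega⟩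
      rw [sel_good_succ]
      refine Eventually.of_forall fun v => ?_
      have h2 := ih r (by omega) (ψ + a 0 • h v) (fun j => a (j + 1)) ha
      have e : (fun θ : ℕ → Ω => nv (ψ + ∑ j ∈ range (r + 1), a j • h (selCons v θ j)) ∈
          Y (selCons v θ (i + 1))) =
          fun θ : ℕ → Ω => nv (ψ + a 0 • h v + ∑ j ∈ range r, a (j + 1) • h (θ j)) ∈
            Y (θ i) := by
        funext θ
        rw [Finset.sum_range_succ', add_assoc, add_comm (a 0 • h v)]
        rfl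
      rw [e]
      exact h2
  let q : ℕ → 𝕜 := fun n => Nat.casesOn n 0 (TopologicalSpace.denseSeq 𝕜)
  have hq0 : q 0 = 0 := rfl
  have hq : ∀ (z : 𝕜) (ε : ℝ), 0 < ε → ∃ n, ‖z - q n‖ ≤ ε := by
    intro z ε hε
    obtain ⟨n, hn⟩ := (TopologicalSpace.denseRange_denseSeq 𝕜).exists_dist_lt z hε
    exact ⟨n + 1, by rw [← dist_eq_norm]; exact hn.le⟩
  let co : (r : ℕ) → (Fin r → ℕ) → ℕ → 𝕜 := fun r b j => if hj : j < r then q (b ⟨j, hj⟩) else 0
  let T := {t : Σ r : ℕ, ℕ × (Fin r → ℕ) // t.2.1 < t.1 ∧ co t.1 t.2.2 t.2.1 = 0}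
  obtain ⟨w, hw⟩ := sel_select (T := T) F θ0 (fun t => t.1.1)
    (fun t θ => nv (0 + ∑ j ∈ range t.1.1, co t.1.1 t.1.2.2 j • h (θ j)) ∈ Y (θ t.1.2.1))
    (fun t => req _ _ t.2.1 0 _ t.2.2) (by
      intro t θ θ' hθ hP
      have e : ∑ j ∈ range t.1.1, co t.1.1 t.1.2.2 j • h (θ j) =
          ∑ j ∈ range t.1.1, co t.1.1 t.1.2.2 j • h (θ' j) :=
        Finset.sum_congr rfl fun j hj => by rw [hθ j (Finset.mem_range.1 hj)]
      rw [← e, ← hθ _ t.2.1]
      exact hP)
  refine ⟨w, fun s a => ?_⟩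
  set φ : StrongDual 𝕜 X := ∑ j ∈ s, a j • h (w j) with hφ
  by_cases h0 : φ = 0
  · exact ⟨0, by simp, by simp, by simp [h0]⟩
  have hpos : 0 < ‖φ‖ := norm_pos_iff.2 h0
  set S : ℝ := ∑ j ∈ s, ‖h (w j)‖ with hS
  have hS0 : 0 ≤ S := Finset.sum_nonneg fun j _ => norm_nonneg _
  have hε : 0 < ‖φ‖ / 6 / (S + 1) := by positivity
  choose b0 hb0 using fun j => hq (a j) _ hε
  let b : ℕ → ℕ := fun j => if j ∈ s then b0 j else 0
  set φ' : StrongDual 𝕜 X := ∑ j ∈ s, q (b j) • h (w j) with hφ'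
  have hd : ‖φ - φ'‖ ≤ ‖φ‖ / 6 := by
    have e : φ - φ' = ∑ j ∈ s, (a j - q (b j)) • h (w j) := by
      rw [hφ, hφ', ← Finset.sum_sub_distrib]
      exact Finset.sum_congr rfl fun j _ => by rw [sel_sub_smul]
    rw [e]
    calc ‖∑ j ∈ s, (a j - q (b j)) • h (w j)‖
        ≤ ∑ j ∈ s, ‖(a j - q (b j)) • h (w j)‖ := norm_sum_le _ _
      _ ≤ ∑ j ∈ s, ‖φ‖ / 6 / (S + 1) * ‖h (w j)‖ := by
          refine Finset.sum_le_sum fun j hj => ?_
          rw [norm_smul]
          refine mul_le_mul_of_nonneg_right ?_ (norm_nonneg _)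
          simp only [b, if_pos hj]
          exact hb0 j
      _ = ‖φ‖ / 6 / (S + 1) * S := by rw [← Finset.mul_sum]
      _ ≤ ‖φ‖ / 6 / (S + 1) * (S + 1) := mul_le_mul_of_nonneg_left (by linarith) hε.le
      _ = ‖φ‖ / 6 := by field_simp
  refine ⟨nv φ', hnv1 _, fun i hi => ?_, ?_⟩
  · let r := max (s.sup id) i + 1
    have hir : i < r := by
      have := le_max_right (s.sup id) i
      omega
    have hsr : ∀ j ∈ s, j < r := by
      intro j hj
      have h1 : j ≤ s.sup id := Finset.le_sup (f := id) hj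
      have := le_max_left (s.sup id) i
      omega
    have hco : ∀ j, j < r → co r (fun k => b k) j = q (b j) := by
      intro j hj
      simp only [co, dif_pos hj]
    have hi0 : co r (fun k => b k) i = 0 := by
      rw [hco i hir]
      simp only [b, if_neg hi]
      exact hq0
    have h1 := hw ⟨⟨r, i, fun k => b k⟩, hir, hi0⟩
    have e : (0 : StrongDual 𝕜 X) + ∑ j ∈ range r, co r (fun k => b k) j • h (w j) = φ' := by
      rw [zero_add, hφ']
      symm
      rw [← Finset.sum_subset (s₁ := s) (fun j hj => Finset.mem_range.2 (hsr j hj))]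
      · exact Finset.sum_congr rfl fun j hj => by rw [hco j (hsr j hj)]
      · intro j hj hjs
        rw [hco j (Finset.mem_range.1 hj)]
        simp only [b, if_neg hjs]
        rw [hq0, sel_zero_smul]
    simp only at h1
    rw [e] at h1
    exact hzero _ _ h1
  · have h1 := hnv2 φ'
    have h2 : ‖φ‖ ≤ ‖φ'‖ + ‖φ - φ'‖ := by
      have := norm_add_le φ' (φ - φ')
      rwa [add_sub_cancel] at this
    have h3 : ‖φ' (nv φ')‖ ≤ ‖φ (nv φ')‖ + ‖φ - φ'‖ := by
      have e : φ' (nv φ') = φ (nv φ') - (φ - φ') (nv φ') := by simp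
      have h4 : ‖(φ - φ') (nv φ')‖ ≤ ‖φ - φ'‖ :=
        ((φ - φ').le_opNorm _).trans (mul_le_of_le_one_right (norm_nonneg _) (hnv1 _))
      rw [e]
      exact (norm_sub_le _ _).trans (by linarith)
    linarith

end Crest.Agent.R114
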