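import Crest.Agent.R114.Basic
import Crest.Agent.R114.Det

/-!
# Row 114: the separation lemma
-/

set_option autoImplicit false
set_option linter.unusedSectionVars false

open Filter Finset Topology

namespace Crest.Agent.R114

variable {Γ : Type} [LinearOrder Γ] {ρ : Rho Γ} {𝕜 : Type} [RCLike 𝕜]

theorem sep_enum (R : Set ℕ) (K0 : ℕ)
    (h : ∀ f : ℕ → ℕ, (∀ c < K0, f c ∈ R) → (∀ c c', c < c' → c' < K0 → f c < f c') → False) :
    ∃ r : ℕ → ℕ, ∀ x ∈ R, ∃ c < K0, r c = x := by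
  classical
  refine ⟨Nat.nth (· ∈ R), fun x hx => ⟨Nat.count (· ∈ R) x, ?_, Nat.nth_count hx⟩⟩
  by_contra hc
  refine h (Nat.nth (· ∈ R)) (fun c hc' => Nat.nth_mem (p := (· ∈ R)) c fun hf => ?_)
    fun c c' h1 h2 => Nat.nth_lt_nth' h1 fun hf => ?_
  · exact lt_of_lt_of_le (by omega) (Nat.count_lt_card hf hx).le
  · exact lt_of_lt_of_le (by omega) (Nat.count_lt_card hf hx).le

/-- the window estimate -/
theorem sep_est {y : Γ →₀ 𝕜} {K η : ℝ} {J0 A B : ℕ} (hK : 0 ≤ K) (hSW : SW ρ K A y)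
    (h1 : K * (2 / mm J0) ≤ η) (h2 : l1 y * (2 / mm B) ≤ η) {n : ℕ} {w : ℕ → Fn Γ} {j : ℕ → ℕ}
    (hs : Spec ρ n w j) (I : Finset ℕ) (hI : ∀ i ∈ I, i < n ∧ J0 ≤ j i) {E : Set Γ}
    (hE : E.OrdConnected) :
    ‖∑ i ∈ I, act (res E (w i)) y -
      ∑ i ∈ I.filter (fun i => A ≤ j i ∧ j i < B), act (res E (w i)) y‖ ≤ 2 * η := by
  classical
  set f : ℕ → 𝕜 := fun i => act (res E (w i)) y with hf
  rw [← sum_filter_add_sum_filter_not I (fun i => A ≤ j i ∧ j i < B) f, add_sub_cancel_left]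
  refine (norm_sum_le _ _).trans ?_
  have hT : ∀ i ∈ I, T ρ (some (j i)) (res E (w i)) := fun i hi => T_res (hs.1 i (hI i hi).1) hE
  have hinj : ∀ s ⊆ I, Set.InjOn j s := fun s hs' => hs.2.injOn.mono fun i hi => (hI i (hs' hi)).1
  have a1 : ∑ i ∈ I.filter (fun i => j i < A), ‖f i‖ ≤ η := by
    calc ∑ i ∈ I.filter (fun i => j i < A), ‖f i‖
        ≤ ∑ i ∈ I.filter (fun i => j i < A), K * (1 / mm (j i)) := by
          refine sum_le_sum fun i hi => ?_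
          rw [mul_one_div]
          exact hSW _ (mem_filter.1 hi).2.le _ (hT i (mem_filter.1 hi).1)
      _ ≤ K * (2 / mm J0) := by
          rw [← mul_sum]
          exact mul_le_mul_of_nonneg_left (sum_inv_mm_of_injOn _ j J0 (hinj _ (filter_subset _ _))
            fun i hi => (hI i (mem_filter.1 hi).1).2) hK
      _ ≤ η := h1
  have a2 : ∑ i ∈ I.filter (fun i => B ≤ j i), ‖f i‖ ≤ η := by
    calc ∑ i ∈ I.filter (fun i => B ≤ j i), ‖f i‖
        ≤ ∑ i ∈ I.filter (fun i => B ≤ j i), l1 y * (1 / mm (j i)) :=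
          sum_le_sum fun i hi => act_le_l1_wt (hT i (mem_filter.1 hi).1) y
      _ ≤ l1 y * (2 / mm B) := by
          rw [← mul_sum]
          exact mul_le_mul_of_nonneg_left (sum_inv_mm_of_injOn _ j B (hinj _ (filter_subset _ _))
            fun i hi => (mem_filter.1 hi).2) (l1_nonneg y)
      _ ≤ η := h2
  have a3 : ∑ i ∈ I.filter (fun i => ¬ (A ≤ j i ∧ j i < B)), ‖f i‖ ≤
      ∑ i ∈ I.filter (fun i => j i < A) ∪ I.filter (fun i => B ≤ j i), ‖f i‖ := by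
    refine sum_le_sum_of_subset_of_nonneg (fun i hi => ?_) fun _ _ _ => norm_nonneg _
    simp only [mem_filter, mem_union] at hi ⊢
    by_cases h : j i < A
    · exact Or.inl ⟨hi.1, h⟩
    · exact Or.inr ⟨hi.1, by omega⟩
  have a4 := sum_union_inter (s₁ := I.filter (fun i => j i < A))
    (s₂ := I.filter (fun i => B ≤ j i)) (f := fun i => ‖f i‖)
  have a5 : 0 ≤ ∑ i ∈ I.filter (fun i => j i < A) ∩ I.filter (fun i => B ≤ j i), ‖f i‖ :=
    sum_nonneg fun _ _ => norm_nonneg _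
  linarith

/-- a subsequence together with windows of weights -/
structure SepW (ρ : Rho Γ) (𝕜 : Type) [RCLike 𝕜] (η : ℝ) (J0 K0 : ℕ) where
  y : ℕ → Γ →₀ 𝕜
  L : ℕ → ℕ
  mono : StrictMono L
  hJ : J0 ≤ L 0
  hK : K0 ≤ L 0
  succ : Succ y
  nle : ∀ l, NLe ρ (y l) 1
  coh : ∀ l l' p, L (l + 1) ≤ p → L (l' + 1) ≤ p → ∀ δ ∈ (y l).support, ∀ δ' ∈ (y l').support,
    δ < δ' → δ ∈ ρ.F δ' p
  est : ∀ l n w j, Spec ρ n w j → ∀ I : Finset ℕ, (∀ i ∈ I, i < n ∧ J0 ≤ j i) →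
    ∀ E : Set Γ, E.OrdConnected → ‖∑ i ∈ I, act (res E (w i)) (y l) -
      ∑ i ∈ I.filter (fun i => L l ≤ j i ∧ j i < L (l + 1)), act (res E (w i)) (y l)‖ ≤ 2 * η
  null : NullSeq ρ y

theorem sep_exists_W (y : ℕ → Γ →₀ 𝕜) (K η : ℝ) (J0 K0 : ℕ) (hs : Succ y)
    (hn : ∀ l, NLe ρ (y l) 1) (hSW : ∀ l, SW ρ K l (y l)) (hK : 0 ≤ K) (hη : 0 < η)
    (hKη : K * (2 / mm J0) ≤ η) (hnull : NullSeq ρ y) :
    ∃ W : SepW ρ 𝕜 η J0 K0, ∀ l, W.y l = y (W.L l) := by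
  classical
  have hB : ∀ b : ℕ, ∃ B, b < B ∧ l1 (y b) * (2 / mm B) ≤ η ∧
      ∀ p, B ≤ p → ρ.Coh p ((range (b + 1)).biUnion fun b' => (y b').support) := by
    intro b
    obtain ⟨p0, hp0⟩ := exists_coh ρ _
      ((range (b + 1)).biUnion fun b' => (y b').support).finite_toSet
    obtain ⟨J, hJ1, hJ2⟩ := exists_mm_small (l1 (y b)) η hη (max p0 (b + 1))
    exact ⟨J, by omega, hJ2 J le_rfl, fun p hp => hp0 p (by omega)⟩
  choose B hB1 hB2 hB3 using hB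
  let L : ℕ → ℕ := fun l => Nat.rec (max J0 K0) (fun _ a => B a) l
  have hL : ∀ l, L (l + 1) = B (L l) := fun l => rfl
  have hmono : StrictMono L := strictMono_nat_of_lt_succ fun l => hB1 _
  refine ⟨⟨fun l => y (L l), L, hmono, le_max_left _ _, le_max_right _ _, hs.comp hmono,
    fun l => hn _, ?_, ?_, ?_⟩, fun l => rfl⟩
  · intro l l' p hp hp' δ hδ δ' hδ' hlt
    have h1 : B (L (max l l')) ≤ p := by
      rcases le_total l l' with h | h
      · rw [max_eq_right h]; exact hp'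
      · rw [max_eq_left h]; exact hp
    refine hB3 _ p h1 δ ?_ δ' ?_ hlt
    · exact mem_coe.2 (mem_biUnion.2 ⟨L l,
        mem_range.2 (Nat.lt_succ_of_le (hmono.monotone (le_max_left _ _))), hδ⟩)
    · exact mem_coe.2 (mem_biUnion.2 ⟨L l',
        mem_range.2 (Nat.lt_succ_of_le (hmono.monotone (le_max_right _ _))), hδ'⟩)
  · intro l n w j hsp I hI E hE
    exact sep_est hK (hSW _) hKη (hB2 _) hsp I hI hE
  · intro b ε hε
    exact hmono.tendsto_atTop.eventually (hnull b ε hε)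

/-- the history of a member of a special sequence -/
structure SepDat (Γ : Type) where
  i : ℕ
  w : ℕ → Fn Γ
  j : ℕ → ℕ
  p : ℕ

/-- legitimate data -/
def SepDat.OK (ρ : Rho Γ) (h : SepDat Γ) : Prop :=
  Spec ρ (h.i + 1) h.w h.j ∧ CodeAt ρ h.p h.i h.w h.j

namespace SepW

variable {η : ℝ} {J0 K0 : ℕ} (W : SepW ρ 𝕜 η J0 K0)

/-- the history acts on `y l` through the window `l` -/
def A (h : SepDat Γ) (l : ℕ) : Prop :=
  3 * η < ‖∑ k ∈ (range h.i).filter (fun k => W.L l ≤ h.j k ∧ h.j k < W.L (l + 1)),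
    act (h.w k) (W.y l)‖

/-- anchors -/
def Anc (h : SepDat Γ) (l : ℕ) : Prop :=
  W.L (l + 1) ≤ h.p ∧ ∃ δ ∈ hist h.i h.w, δ ∈ (W.y l).support

/-- first weights of segments acting through the window `l` -/
def R (l : ℕ) : Set ℕ :=
  {jj | ∃ t : Seg Γ, t.OK ρ ∧ (∀ i ∈ Ico t.a t.n, W.L l ≤ t.j i) ∧ 3 * η < ‖act t.val (W.y l)‖ ∧
    ∃ i, t.j i = jj ∧ W.L l ≤ t.j i ∧ ∀ k < i, t.j k < W.L l}

theorem width (hK : 1 ≤ K0 * η) (l : ℕ) : ∃ r : ℕ → ℕ, ∀ x ∈ W.R l, ∃ c < K0, r c = x := by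
  refine sep_enum _ _ fun f hf hlt => ?_
  have : Inhabited (Seg Γ) := ⟨⟨0, 0, fun _ => 0, fun _ => 0, Set.univ⟩⟩
  choose! t hok hge hact i hi1 hi2 hi3 using hf
  have hL : K0 ≤ W.L l := W.hK.trans (W.mono.monotone (Nat.zero_le l))
  have key : ∀ c < K0, ∀ c' < K0, ∀ a ∈ Ico (t c).a (t c).n, ∀ a' ∈ Ico (t c').a (t c').n,
      (t c).j a = (t c').j a' → f c = f c' := by
    intro c hc c' hc' a ha a' ha' e
    obtain ⟨p, hp⟩ := (hok c hc).1.2.code a (mem_Ico.1 ha).2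
    obtain ⟨p', hp'⟩ := (hok c' hc').1.2.code a' (mem_Ico.1 ha').2
    obtain ⟨-, rfl, -, h4⟩ := share hp hp' e
    have b1 : i c ≤ a := by
      by_contra h
      exact absurd (hi3 c hc a (not_le.1 h)) (not_lt.2 (hge c hc a ha))
    have b2 : i c' ≤ a := by
      by_contra h
      exact absurd (hi3 c' hc' a (not_le.1 h)) (not_lt.2 (hge c' hc' a ha'))
    have b3 : i c = i c' := by
      rcases lt_trichotomy (i c) (i c') with h | h | h
      · have := hi3 c' hc' _ h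
        have := hi2 c hc
        have := h4 _ b1
        omega
      · exact h
      · have := hi3 c hc _ h
        have := hi2 c' hc'
        have := h4 _ b2
        omega
    rw [← hi1 c hc, ← hi1 c' hc', ← b3, h4 _ b1]
  have h1 := sum_segs_le (W.nle l) K0 t hok (fun c hc a ha => hL.trans (hge c hc a ha))
    (fun c hc c' hc' hne a ha a' ha' e => by
      have := key c hc c' hc' a ha a' ha' e
      rcases lt_or_gt_of_ne hne with h | h
      · exact absurd this (hlt c c' h hc').ne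
      · exact absurd this (hlt c' c h hc).ne')
  have h2 : ∑ _c ∈ range K0, 3 * η ≤ ∑ c ∈ range K0, ‖act (t c).val (W.y l)‖ :=
    sum_le_sum fun c hc => (hact c (mem_range.1 hc)).le
  rw [sum_const, card_range, nsmul_eq_mul] at h2
  linarith

theorem transfer (hD : DetStmt ρ) {h H : SepDat Γ} (h1 : h.OK ρ) (h2 : H.OK ρ)
    (e : h.j h.i = H.j H.i) {l l1 l2 : ℕ} (a1 : W.Anc h l1) (a2 : W.Anc H l2) (b1 : l < l1)
    (b2 : l < l2) (hA : W.A h l) : W.A H l := by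
  obtain ⟨i, w, j, p⟩ := h
  obtain ⟨i', w', j', p'⟩ := H
  obtain ⟨hp, hi, hcode, hj⟩ := share h1.2 h2.2 e
  dsimp only at hp hi hcode hj
  subst hp hi
  obtain ⟨c1, δ, hδ, hδy⟩ := a1
  obtain ⟨c2, δ', hδ', hδy'⟩ := a2
  dsimp only at c1 c2 hδ hδ'
  have agree : ∀ k < i, ∀ ξ ∈ (W.y l).support, w k ξ = w' k ξ := by
    intro k hk ξ hξ
    rcases le_total δ δ' with hle | hle
    · exact hD p i i w w' j j' h1.2.2.1 h2.2.2.1 hcode δ hδ δ' hδ'
        (hle.eq_or_lt.imp id fun hlt => W.coh l1 l2 p c1 c2 δ hδy δ' hδy' hlt) k hk ξ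
        (W.succ l l1 b1 ξ hξ δ hδy).le
    · exact (hD p i i w' w j' j h2.2.2.1 h1.2.2.1 hcode.symm δ' hδ' δ hδ
        (hle.eq_or_lt.imp id fun hlt => W.coh l2 l1 p c2 c1 δ' hδy' δ hδy hlt) k hk ξ
        (W.succ l l2 b2 ξ hξ δ' hδy').le).symm
  unfold A at hA ⊢
  dsimp only at hA ⊢
  have e1 : (range i).filter (fun k => W.L l ≤ j' k ∧ j' k < W.L (l + 1)) =
      (range i).filter (fun k => W.L l ≤ j k ∧ j k < W.L (l + 1)) :=
    filter_congr fun k hk => by rw [hj k (mem_range.1 hk).le]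
  rw [e1, sum_congr rfl fun k hk => act_congr_left (w := w' k) (w' := w k) (W.y l) fun ξ hξ =>
    (agree k (mem_range.1 (mem_filter.1 hk).1) ξ (Finsupp.mem_support_iff.2 hξ)).symm]
  exact hA

/-- representatives with maximal anchor -/
theorem exists_rep (hD : DetStmt ρ) (jj : ℕ) : ∃ H : SepDat Γ, ∀ h : SepDat Γ, h.OK ρ →
    h.j h.i = jj → ∀ l l', l < l' → W.Anc h l' → W.A h l → H.OK ρ ∧ W.A H l := by
  by_cases h0 : ∃ l', ∃ h : SepDat Γ, h.OK ρ ∧ h.j h.i = jj ∧ W.Anc h l'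
  · obtain ⟨l0, g, g1, g2, g3⟩ := h0
    have hfin : {l' | ∃ h : SepDat Γ, h.OK ρ ∧ h.j h.i = jj ∧ W.Anc h l'}.Finite := by
      refine (Set.finite_Iic g.p).subset ?_
      rintro l' ⟨h, k1, k2, k3⟩
      have := (share k1.2 g1.2 (k2.trans g2.symm)).1
      have h3 := k3.1
      have h4 : l' + 1 ≤ W.L (l' + 1) := W.mono.le_apply
      show l' ≤ g.p
      omega
    obtain ⟨m, ⟨H, k1, k2, k3⟩, hm⟩ := Set.exists_max_image _ id hfin ⟨l0, g, g1, g2, g3⟩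
    refine ⟨H, fun h c1 c2 l l' hl c3 c4 => ⟨k1, ?_⟩⟩
    exact W.transfer hD c1 k1 (c2.trans k2.symm) c3 k3 hl
      (lt_of_lt_of_le hl (hm l' ⟨h, c1, c2, c3⟩)) c4
  · exact ⟨⟨0, fun _ => 0, fun _ => 0, 0⟩, fun h c1 c2 l l' _ c3 _ => absurd ⟨l', h, c1, c2, c3⟩ h0⟩

theorem A.exists {W : SepW ρ 𝕜 η J0 K0} (hη : 0 < η) {h : SepDat Γ} {l : ℕ} (hA : W.A h l) :
    ∃ k < h.i, W.L l ≤ h.j k ∧ h.j k < W.L (l + 1) ∧
      ∃ δ ∈ (W.y l).support, δ ∈ (h.w k).support := by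
  have h1 : ∑ k ∈ (range h.i).filter (fun k => W.L l ≤ h.j k ∧ h.j k < W.L (l + 1)),
      act (h.w k) (W.y l) ≠ 0 := by
    intro h0
    unfold A at hA
    rw [h0, norm_zero] at hA
    linarith
  obtain ⟨k, hk, h2⟩ := exists_ne_zero_of_sum_ne_zero h1
  obtain ⟨δ, h3, h4⟩ := exists_mem_of_act_ne_zero h2
  have := mem_filter.1 hk
  exact ⟨k, mem_range.1 this.1, this.2.1, this.2.2, δ, h4, h3⟩

theorem lt_of_window {n : ℕ} {w : ℕ → Fn Γ} {j : ℕ → ℕ} (h : Comb ρ n w j) {a b l l' : ℕ}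
    (ha : a < n) (hb : b < n) (h1 : j a < W.L (l + 1)) (h2 : W.L l' ≤ j b) (hl : l < l') :
    a < b := by
  by_contra h3
  have h4 := (h.le_iff hb ha).2 (not_lt.1 h3)
  have h5 : W.L (l + 1) ≤ W.L l' := W.mono.monotone hl
  omega

section limit

variable (𝒰 : Ultrafilter ℕ) (G : ℕ → SepDat Γ)

theorem claim1 (hη : 0 < η) (hfr : ∃ᶠ l in atTop, ∀ᶠ m in 𝒰, (G m).OK ρ ∧ W.A (G m) l) (k : ℕ) :
    ∃ l, ∀ᶠ m in 𝒰, ∃ i' < (G m).i, k ≤ i' ∧ (G m).j i' < W.L (l + 1) := by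
  induction k with
  | zero =>
    obtain ⟨l, hl⟩ := hfr.exists
    refine ⟨l, hl.mono fun m hm => ?_⟩
    obtain ⟨k, h1, -, h2, -⟩ := hm.2.exists hη
    exact ⟨k, h1, Nat.zero_le _, h2⟩
  | succ k ih =>
    obtain ⟨l, hl⟩ := ih
    obtain ⟨l1, h1, h2⟩ := (hfr.and_eventually (eventually_gt_atTop l)).exists
    refine ⟨l1, ?_⟩
    filter_upwards [hl, h1] with m hm hm1
    obtain ⟨i', b1, b2, b3⟩ := hm
    obtain ⟨i1, c1, c2, c3, -⟩ := hm1.2.exists hη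
    have := W.lt_of_window hm1.1.1.2 (a := i') (b := i1) (by omega) (by omega) b3 c2 h2
    exact ⟨i1, c1, by omega, c3⟩

theorem claim2 (hD : DetStmt ρ) (hη : 0 < η)
    (hfr : ∃ᶠ l in atTop, ∀ᶠ m in 𝒰, (G m).OK ρ ∧ W.A (G m) l) (k : ℕ) :
    ∃ (u : Fn Γ) (v : ℕ), ∀ᶠ m in 𝒰, k < (G m).i ∧ (G m).w k = u ∧ (G m).j k = v := by
  classical
  obtain ⟨l, hl⟩ := W.claim1 𝒰 G hη hfr k
  obtain ⟨l1, h1, h1'⟩ := (hfr.and_eventually (eventually_gt_atTop l)).exists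
  obtain ⟨l2, h2, h2'⟩ := (hfr.and_eventually (eventually_gt_atTop l1)).exists
  have h3 : ∀ᶠ m in 𝒰, ∃ x ∈ (((W.y l1).support ×ˢ range (W.L (l2 + 1)) : Finset _) : Set (Γ × ℕ)),
      (G m).OK ρ ∧ ∃ i1 i2, k < i1 ∧ i1 < i2 ∧ i2 < (G m).i ∧ x.1 ∈ ((G m).w i1).support ∧
        (G m).j i2 = x.2 := by
    filter_upwards [hl, h1, h2] with m hm hm1 hm2
    obtain ⟨i', b1, b2, b3⟩ := hm
    obtain ⟨i1, c1, c2, c3, δ, c4, c5⟩ := hm1.2.exists hη
    obtain ⟨i2, d1, d2, d3, -⟩ := hm2.2.exists hη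
    have e1 := W.lt_of_window hm1.1.1.2 (a := i') (b := i1) (by omega) (by omega) b3 c2 h1'
    have e2 := W.lt_of_window hm1.1.1.2 (a := i1) (b := i2) (by omega) (by omega) c3 d2 h2'
    exact ⟨(δ, (G m).j i2), mem_coe.2 (mem_product.2 ⟨c4, mem_range.2 d3⟩), hm1.1, i1, i2,
      by omega, e2, d1, c5, rfl⟩
  obtain ⟨⟨δ, jp⟩, -, h4⟩ := (Ultrafilter.eventually_exists_mem_iff (finite_toSet _)).1 h3
  obtain ⟨m0, g0, a1, a2, g1, g2, g3, g4, g5⟩ := h4.exists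
  refine ⟨(G m0).w k, (G m0).j k, h4.mono ?_⟩
  rintro m ⟨k0, i1, i2, k1, k2, k3, k4, k5⟩
  dsimp only at g4 g5 k4 k5
  obtain ⟨p, hp⟩ := k0.1.2.code i2 (by omega)
  obtain ⟨p', hp'⟩ := g0.1.2.code a2 (by omega)
  obtain ⟨rfl, rfl, hcode, hj⟩ := share hp hp' (k5.trans g5.symm)
  refine ⟨by omega, ?_, hj k (by omega)⟩
  ext ξ
  rcases le_or_gt ξ δ with hle | hlt
  · exact hD p i2 i2 _ _ _ _ hp.2.1 hp'.2.1 hcode δ ⟨i1, k2, k4⟩ δ ⟨a1, g2, g4⟩ (Or.inl rfl) k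
      (by omega) ξ hle
  · have z1 : (G m).w k ξ = 0 := by
      by_contra h
      exact lt_asymm hlt (k0.1.2.succ k i1 k1 (by omega) ξ (Finsupp.mem_support_iff.2 h) δ k4)
    have z2 : (G m0).w k ξ = 0 := by
      by_contra h
      exact lt_asymm hlt (g0.1.2.succ k a1 g1 (by omega) ξ (Finsupp.mem_support_iff.2 h) δ g4)
    rw [z1, z2]

theorem limit (hD : DetStmt ρ) (hη : 0 < η) :
    ∀ᶠ l in atTop, ∀ᶠ m in 𝒰, ¬ ((G m).OK ρ ∧ W.A (G m) l) := by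
  classical
  by_contra hcon
  have hfr : ∃ᶠ l in atTop, ∀ᶠ m in 𝒰, (G m).OK ρ ∧ W.A (G m) l := by
    refine (not_eventually.1 hcon).mono fun l hl => ?_
    by_contra h
    exact hl (Ultrafilter.eventually_not.2 h)
  choose u v huv using W.claim2 𝒰 G hD hη hfr
  have hall : ∀ n, ∀ᶠ m in 𝒰, ∀ k ∈ range (n + 1), k < (G m).i ∧ (G m).w k = u k ∧
      (G m).j k = v k := fun n => (eventually_all_finset _).2 fun k _ => huv k
  have hok : ∀ᶠ m in 𝒰, (G m).OK ρ := hfr.exists.elim fun l hl => hl.mono fun m hm => hm.1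
  have hspec : ∀ n, Spec ρ n u v := by
    intro n
    obtain ⟨m, h1, h2⟩ := ((hall n).and hok).exists
    have h3 := (h1 n (self_mem_range_succ n)).1
    exact spec_congr (fun i hi => (h1 i (mem_range.2 (by omega))).2.1)
      (fun i hi => (h1 i (mem_range.2 (by omega))).2.2) (spec_mono (by omega) h2.1)
  let b : Branch ρ := ⟨u, v, hspec⟩
  have hv : ∀ k, k ≤ v k := fun k => b.strictMono.le_apply
  have hdis : ∀ᶠ l in atTop, ∀ k ∈ range J0, Disjoint (u k).support (W.y l).support :=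
    (eventually_all_finset _).2 fun k _ => W.succ.eventually_disjoint _
  obtain ⟨l, hl, hd, hn⟩ := (hfr.and_eventually (hdis.and (W.null b η hη))).exists
  obtain ⟨n, hn1, hn2⟩ := (hn.and (eventually_ge_atTop (W.L (l + 1)))).exists
  obtain ⟨m, ⟨hm1, hm2⟩, hm3⟩ := (hl.and (hall (W.L (l + 1)))).exists
  have hJ : J0 ≤ W.L l := W.hJ.trans (W.mono.monotone (Nat.zero_le l))
  have hest := W.est l n u v (hspec n) ((range n).filter fun k => J0 ≤ v k)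
    (fun i hi => ⟨mem_range.1 (mem_filter.1 hi).1, (mem_filter.1 hi).2⟩) Set.univ
    Set.ordConnected_univ
  simp only [res_univ] at hest
  have e1 : ∑ k ∈ (range n).filter (fun k => J0 ≤ v k), act (u k) (W.y l) =
      act (b.psum n) (W.y l) := by
    rw [Branch.psum, act_sum]
    refine sum_filter_of_ne fun k _ hk => ?_
    by_contra h
    exact hk (act_eq_zero_of_disjoint _ _ (hd k (mem_range.2 (by have := hv k; omega))))
  have e2 : ((range n).filter (fun k => J0 ≤ v k)).filter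
      (fun k => W.L l ≤ v k ∧ v k < W.L (l + 1)) =
      (range (G m).i).filter (fun k => W.L l ≤ (G m).j k ∧ (G m).j k < W.L (l + 1)) := by
    ext k
    simp only [mem_filter, mem_range]
    constructor
    · rintro ⟨-, c1, c2⟩
      have := hm3 k (mem_range.2 (by have := hv k; omega))
      rw [this.2.2]
      exact ⟨this.1, c1, c2⟩
    · rintro ⟨c0, c1, c2⟩
      have c3 := hm1.1.2.self_le (i := k) (by omega)
      have := hm3 k (mem_range.2 (by omega))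
      rw [← this.2.2]
      exact ⟨⟨by omega, by omega⟩, c1, c2⟩
  have e3 : ∑ k ∈ (range (G m).i).filter
      (fun k => W.L l ≤ (G m).j k ∧ (G m).j k < W.L (l + 1)), act (u k) (W.y l) =
      ∑ k ∈ (range (G m).i).filter
      (fun k => W.L l ≤ (G m).j k ∧ (G m).j k < W.L (l + 1)), act ((G m).w k) (W.y l) := by
    refine sum_congr rfl fun k hk => ?_
    have c := mem_filter.1 hk
    have c0 := mem_range.1 c.1
    have c3 := hm1.1.2.self_le (i := k) (by omega)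
    rw [(hm3 k (mem_range.2 (by omega))).2.1]
  rw [e1, e2, e3] at hest
  unfold A at hm2
  have := norm_sub_norm_le (∑ k ∈ (range (G m).i).filter
      (fun k => W.L l ≤ (G m).j k ∧ (G m).j k < W.L (l + 1)), act ((G m).w k) (W.y l))
      (act (b.psum n) (W.y l))
  rw [norm_sub_rev] at this
  linarith

end limit

theorem window {t : Seg Γ} (ht : t.OK ρ) (hJ : t.Above J0) {l : ℕ}
    (h : 5 * η < ‖act t.val (W.y l)‖) :
    3 * η < ‖∑ i ∈ (Ico t.a t.n).filter (fun i => W.L l ≤ t.j i ∧ t.j i < W.L (l + 1)),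
      act (res t.E (t.w i)) (W.y l)‖ := by
  have hest := W.est l t.n t.w t.j ht.1 (Ico t.a t.n) (fun i hi => ⟨(mem_Ico.1 hi).2, hJ i hi⟩)
    t.E ht.2
  rw [Seg.val, act_sum] at h
  have := (norm_sub_norm_le _ _).trans hest
  linarith

theorem window_point (hη : 0 < η) {t : Seg Γ} (ht : t.OK ρ) (hJ : t.Above J0) {l : ℕ}
    (h : 5 * η < ‖act t.val (W.y l)‖) :
    ∃ i, t.a ≤ i ∧ i < t.n ∧ W.L l ≤ t.j i ∧ t.j i < W.L (l + 1) ∧
      ∃ δ ∈ t.E, δ ∈ (t.w i).support ∧ δ ∈ (W.y l).support := by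
  have h0 := W.window ht hJ h
  have h1 : ∑ i ∈ (Ico t.a t.n).filter (fun i => W.L l ≤ t.j i ∧ t.j i < W.L (l + 1)),
      act (res t.E (t.w i)) (W.y l) ≠ 0 := by
    intro h2
    rw [h2, norm_zero] at h0
    linarith
  obtain ⟨k, hk, h2⟩ := exists_ne_zero_of_sum_ne_zero h1
  obtain ⟨δ, h3, h4⟩ := exists_mem_of_act_ne_zero h2
  have h5 := mem_filter.1 hk
  have h6 := mem_Ico.1 h5.1
  have h7 := mem_support_res.1 h3
  exact ⟨k, h6.1, h6.2, h5.2.1, h5.2.2, δ, h7.1, h7.2, h4⟩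

theorem five (hη : 0 < η) {t : Seg Γ} (ht : t.OK ρ) (hJ : t.Above J0) {l0 l1 l2 l3 l4 : ℕ}
    (h01 : l0 < l1) (h12 : l1 < l2) (h23 : l2 < l3) (h34 : l3 < l4)
    (a0 : 5 * η < ‖act t.val (W.y l0)‖) (a1 : 5 * η < ‖act t.val (W.y l1)‖)
    (a2 : 5 * η < ‖act t.val (W.y l2)‖) (a3 : 5 * η < ‖act t.val (W.y l3)‖)
    (a4 : 5 * η < ‖act t.val (W.y l4)‖) :
    ∃ h : SepDat Γ, h.OK ρ ∧ h.j h.i ∈ W.R l4 ∧ W.Anc h l2 ∧ W.A h l1 := by
  classical
  obtain ⟨i0, b0, c0, -, e0, δ0, f0, -, g0⟩ := W.window_point hη ht hJ a0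
  obtain ⟨i2, -, c2, -, e2, δ2, f2, k2, g2⟩ := W.window_point hη ht hJ a2
  obtain ⟨i3, -, c3, d3, e3, -⟩ := W.window_point hη ht hJ a3
  obtain ⟨i4, b4, c4, d4, e4, -⟩ := W.window_point hη ht hJ a4
  have hex : ∃ i, W.L l4 ≤ t.j i := ⟨i4, d4⟩
  set i := Nat.find hex with hi
  have hi1 : W.L l4 ≤ t.j i := Nat.find_spec hex
  have hi2 : ∀ k < i, t.j k < W.L l4 := fun k hk => not_le.1 (Nat.find_min hex hk)
  have hi4 : i ≤ i4 := Nat.find_min' hex d4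
  have hin : i < t.n := by omega
  obtain ⟨p, hp⟩ := ht.1.2.code i hin
  refine ⟨⟨i, t.w, t.j, p⟩, ⟨spec_mono hin ht.1, hp⟩, ?_, ⟨?_, δ2, ⟨i2, ?_, k2⟩, g2⟩, ?_⟩
  · obtain ⟨a', n', h1, h2⟩ := ht.exists_window (fun x => W.L l4 ≤ x ∧ x < W.L (l4 + 1))
      fun a b c hab hbc ha hc => ⟨by omega, by omega⟩
    refine ⟨t.sub a' n', ht.sub a' h1, fun k hk => ?_, ?_, i, rfl, hi1, hi2⟩
    · have hk' : k ∈ Ico a' n' := hk
      rw [h2] at hk'
      exact (mem_filter.1 hk').2.1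
    · have := W.window ht hJ a4
      rw [← h2, ← act_sum] at this
      exact this
  · have h1 := W.lt_of_window ht.1.2 c3 hin e3 hi1 h34
    have h2 := hp.1 i3 h1
    have h3 : W.L (l2 + 1) ≤ W.L l3 := W.mono.monotone h23
    show W.L (l2 + 1) ≤ p
    omega
  · exact W.lt_of_window ht.1.2 c2 hin e2 hi1 (by omega)
  · have h0 := W.window ht hJ a1
    have e1 : (Ico t.a t.n).filter (fun k => W.L l1 ≤ t.j k ∧ t.j k < W.L (l1 + 1)) =
        (range i).filter (fun k => W.L l1 ≤ t.j k ∧ t.j k < W.L (l1 + 1)) := by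
      ext k
      simp only [mem_filter, mem_range, mem_Ico]
      constructor
      · rintro ⟨⟨-, m1⟩, m2, m3⟩
        exact ⟨W.lt_of_window ht.1.2 m1 hin m3 hi1 (by omega), m2, m3⟩
      · rintro ⟨m1, m2, m3⟩
        have := W.lt_of_window ht.1.2 c0 (b := k) (by omega) e0 m2 h01
        exact ⟨⟨by omega, by omega⟩, m2, m3⟩
    have e2 : ∀ k, act (res t.E (t.w k)) (W.y l1) = act (t.w k) (W.y l1) := fun k =>
      act_res_of_subset _ fun δ hδ => ht.2.out f0 f2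
        ⟨(W.succ l0 l1 h01 δ0 g0 δ (Finsupp.mem_support_iff.2 hδ)).le,
          (W.succ l1 l2 h12 δ (Finsupp.mem_support_iff.2 hδ) δ2 g2).le⟩
    simp only [e1, e2] at h0
    exact h0

theorem main (hD : DetStmt ρ) (hη : 0 < η) (hK : 1 ≤ K0 * η) :
    ∃ φ : ℕ → ℕ, StrictMono φ ∧ ∀ t : Seg Γ, t.OK ρ → t.Above J0 →
      ∀ S : Finset ℕ, (∀ q ∈ S, 5 * η < ‖act t.val (W.y (φ q))‖) → S.card ≤ 4 := by
  choose r hr using W.width hK
  choose H hH using W.exists_rep hD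
  have h1 : ∀ᶠ l in atTop, ∀ᶠ m in hyperfilter ℕ, ∀ c ∈ range K0,
      ¬ ((H (r m c)).OK ρ ∧ W.A (H (r m c)) l) := by
    have := (eventually_all_finset (range K0)).2 fun c _ =>
      W.limit (hyperfilter ℕ) (fun m => H (r m c)) hD hη
    exact this.mono fun l hl => (eventually_all_finset _).2 hl
  obtain ⟨φ, -, hφ⟩ := exists_seq_of_forall_finset_exists
    (fun l => ∀ᶠ m in hyperfilter ℕ, ∀ c ∈ range K0, ¬ ((H (r m c)).OK ρ ∧ W.A (H (r m c)) l))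
    (fun l m => l < m ∧ ∀ c ∈ range K0, ¬ ((H (r m c)).OK ρ ∧ W.A (H (r m c)) l)) (by
      intro s hs
      have h2 : ∀ᶠ m in hyperfilter ℕ, ∀ l ∈ s, l < m ∧
          ∀ c ∈ range K0, ¬ ((H (r m c)).OK ρ ∧ W.A (H (r m c)) l) :=
        (eventually_all_finset s).2 fun l hl =>
          ((eventually_gt_atTop l).filter_mono Nat.hyperfilter_le_atTop).and (hs l hl)
      exact ((h1.filter_mono Nat.hyperfilter_le_atTop).and h2).exists)
  have hmono : StrictMono φ := fun a b hab => (hφ a b hab).1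
  refine ⟨φ, hmono, fun t ht hJ S hS => ?_⟩
  by_contra hc
  have h5 : 5 ≤ S.card := by omega
  set e := S.orderEmbOfCardLe h5 with he
  have hm : ∀ a, e a ∈ S := S.orderEmbOfCardLe_mem h5
  have hlt : ∀ a b : Fin 5, a < b → e a < e b := fun a b h => e.strictMono h
  obtain ⟨h, k1, k2, k3, k4⟩ := W.five hη ht hJ (hmono (hlt 0 1 (by decide)))
    (hmono (hlt 1 2 (by decide))) (hmono (hlt 2 3 (by decide))) (hmono (hlt 3 4 (by decide)))
    (hS _ (hm 0)) (hS _ (hm 1)) (hS _ (hm 2)) (hS _ (hm 3)) (hS _ (hm 4))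
  obtain ⟨c, hc1, hc2⟩ := hr _ _ k2
  exact (hφ (e 1) (e 4) (hlt 1 4 (by decide))).2 c (mem_range.2 hc1)
    (hH _ h k1 hc2.symm _ _ (hmono (hlt 1 2 (by decide))) k3 k4)

end SepW

/-- Gowers' separation lemma. -/
theorem sep (ρ : Rho Γ) (𝕜 : Type) [RCLike 𝕜] (hD : DetStmt ρ) : SepStmt ρ 𝕜 := by
  intro y K η J0 hs hn hSW hK hη _ hKη hnull
  obtain ⟨K0, hK0⟩ := exists_nat_ge (1 / η)
  obtain ⟨W, hW⟩ := sep_exists_W y K η J0 K0 hs hn hSW hK hη hKη hnull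
  obtain ⟨φ, h1, h2⟩ := W.main hD hη ((div_le_iff₀ hη).1 hK0)
  refine ⟨fun q => W.L (φ q), W.mono.comp h1, fun t ht hJ S hS => h2 t ht hJ S fun q hq => ?_⟩
  rw [hW]
  exact hS q hq

end Crest.Agent.R114
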