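import Crest.Agent.R114.Basic

/-!
# Row 114: the space `Z`
-/

set_option autoImplicit false
set_option linter.unusedSectionVars false

open Filter Finset Topology

namespace Crest.Agent.R114

variable {Γ : Type} [LinearOrder Γ] {ρ : Rho Γ} {𝕜 : Type} [RCLike 𝕜]

/-- functions of finite norm -/
def ZS (ρ : Rho Γ) (𝕜 : Type) [RCLike 𝕜] : Submodule 𝕜 (Γ → 𝕜) where
  carrier := {a | ∃ C, NLe ρ a C}
  add_mem' := fun ⟨_, h⟩ ⟨_, h'⟩ => ⟨_, h.add h'⟩
  zero_mem' := ⟨0, fun w _ => by rw [act_zero_right, norm_zero]⟩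
  smul_mem' := fun c _ ⟨_, h⟩ => ⟨_, h.smul c⟩

/-- the space `Z` -/
def Z (ρ : Rho Γ) (𝕜 : Type) [RCLike 𝕜] : Type := ↥(ZS ρ 𝕜)

noncomputable instance : AddCommGroup (Z ρ 𝕜) := inferInstanceAs (AddCommGroup ↥(ZS ρ 𝕜))
noncomputable instance : Module 𝕜 (Z ρ 𝕜) := inferInstanceAs (Module 𝕜 ↥(ZS ρ 𝕜))

/-- the underlying function -/
def Z.val (a : Z ρ 𝕜) : Γ → 𝕜 := Subtype.val a

/-- constructor -/
def Z.mk (a : Γ → 𝕜) (h : ∃ C, NLe ρ a C) : Z ρ 𝕜 := (⟨a, h⟩ : ↥(ZS ρ 𝕜))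

@[simp] theorem Z.val_mk (a : Γ → 𝕜) (h : ∃ C, NLe ρ a C) : (Z.mk a h).val = a := rfl
theorem Z.bdd (a : Z ρ 𝕜) : ∃ C, NLe ρ a.val C := Subtype.property a
@[ext] theorem Z.ext {a b : Z ρ 𝕜} (h : a.val = b.val) : a = b := Subtype.ext h
@[simp] theorem Z.val_add (a b : Z ρ 𝕜) : (a + b).val = a.val + b.val := rfl
@[simp] theorem Z.val_sub (a b : Z ρ 𝕜) : (a - b).val = a.val - b.val := rfl
@[simp] theorem Z.val_neg (a : Z ρ 𝕜) : (-a).val = -a.val := rfl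
@[simp] theorem Z.val_zero : (0 : Z ρ 𝕜).val = 0 := rfl
@[simp] theorem Z.val_smul (c : 𝕜) (a : Z ρ 𝕜) : (c • a).val = c • a.val := rfl

/-- the underlying function, as a linear map -/
def Z.valL : Z ρ 𝕜 →ₗ[𝕜] (Γ → 𝕜) where
  toFun := Z.val
  map_add' := Z.val_add
  map_smul' := Z.val_smul

theorem Z.val_sum {ι : Type*} (s : Finset ι) (a : ι → Z ρ 𝕜) :
    (∑ i ∈ s, a i).val = ∑ i ∈ s, (a i).val := map_sum Z.valL a s

/-- the norm -/
noncomputable def Z.nrm (a : Z ρ 𝕜) : ℝ := sSup {r | ∃ w, T ρ none w ∧ r = ‖act w a.val‖}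

theorem Z.nle_nrm (a : Z ρ 𝕜) : NLe ρ a.val a.nrm := by
  obtain ⟨C, hC⟩ := a.bdd
  exact fun w hw => le_csSup ⟨C, by rintro _ ⟨w, hw, rfl⟩; exact hC w hw⟩ ⟨w, hw, rfl⟩

theorem Z.nrm_le {a : Z ρ 𝕜} {C : ℝ} (h : NLe ρ a.val C) : a.nrm ≤ C :=
  csSup_le ⟨_, 0, T_zero, rfl⟩ (by rintro _ ⟨w, hw, rfl⟩; exact h w hw)

noncomputable instance : NormedAddCommGroup (Z ρ 𝕜) :=
  AddGroupNorm.toNormedAddCommGroup
    { toFun := Z.nrm
      map_zero' := le_antisymm (Z.nrm_le fun w _ => by simp [act_zero_right])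
        (Z.nle_nrm 0).nonneg
      add_le' := fun a b => Z.nrm_le (a.nle_nrm.add b.nle_nrm)
      neg' := fun a => by
        have key : ∀ a : Z ρ 𝕜, (-a).nrm ≤ a.nrm := fun a => Z.nrm_le <| by
          have := a.nle_nrm.smul (-1)
          simpa using this
        exact le_antisymm (key a) (by simpa using key (-a))
      eq_zero_of_map_eq_zero' := fun a ha => by
        ext δ
        have := a.nle_nrm.apply δ
        rw [ha] at this
        simpa using this }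

theorem Z.nle (a : Z ρ 𝕜) : NLe ρ a.val ‖a‖ := a.nle_nrm

theorem Z.norm_le {a : Z ρ 𝕜} {C : ℝ} (h : NLe ρ a.val C) : ‖a‖ ≤ C := Z.nrm_le h

theorem Z.norm_le_iff {a : Z ρ 𝕜} {C : ℝ} : ‖a‖ ≤ C ↔ NLe ρ a.val C :=
  ⟨fun h => a.nle.mono h, Z.norm_le⟩

noncomputable instance : NormedSpace 𝕜 (Z ρ 𝕜) where
  norm_smul_le c a := Z.norm_le (a.nle.smul c)

theorem Z.exists_lt {a : Z ρ 𝕜} {c : ℝ} (h : c < ‖a‖) : ∃ w, T ρ none w ∧ c < ‖act w a.val‖ := by
  by_contra h1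
  push Not at h1
  exact absurd (Z.norm_le h1) (not_le.2 h)

theorem Z.norm_apply_le (a : Z ρ 𝕜) (δ : Γ) : ‖a.val δ‖ ≤ ‖a‖ := a.nle.apply δ

/-- a finitely supported rational functional as an element of the dual of `Z` -/
noncomputable def ev (ρ : Rho Γ) (𝕜 : Type) [RCLike 𝕜] (w : Fn Γ) : StrongDual 𝕜 (Z ρ 𝕜) :=
  LinearMap.mkContinuous
    { toFun := fun a => act w a.val
      map_add' := fun a b => act_add_right w _ _
      map_smul' := fun c a => act_smul_right w c _ }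
    (∑ δ ∈ w.support, |(w δ : ℝ)|) fun a => by
      refine (norm_sum_le _ _).trans ?_
      rw [sum_mul]
      refine sum_le_sum fun δ _ => ?_
      rw [norm_mul, norm_ratCast']
      exact mul_le_mul_of_nonneg_left (a.norm_apply_le δ) (abs_nonneg _)

@[simp] theorem ev_apply (w : Fn Γ) (a : Z ρ 𝕜) : ev ρ 𝕜 w a = act w a.val := rfl

theorem norm_ev_le {w : Fn Γ} (h : T ρ none w) : ‖ev ρ 𝕜 w‖ ≤ 1 :=
  ContinuousLinearMap.opNorm_le_bound _ zero_le_one fun a => by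
    rw [one_mul]; exact a.nle w h

/-- coordinate functional -/
noncomputable def coord (ρ : Rho Γ) (𝕜 : Type) [RCLike 𝕜] (δ : Γ) : StrongDual 𝕜 (Z ρ 𝕜) :=
  ev ρ 𝕜 (Finsupp.single δ 1)

@[simp] theorem coord_apply (δ : Γ) (a : Z ρ 𝕜) : coord ρ 𝕜 δ a = a.val δ := by
  simp [coord, act_single]

/-- projection onto an order-convex set -/
noncomputable def proj (ρ : Rho Γ) (𝕜 : Type) [RCLike 𝕜] (E : Set Γ) (hE : E.OrdConnected) :
    Z ρ 𝕜 →L[𝕜] Z ρ 𝕜 :=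
  LinearMap.mkContinuous
    { toFun := fun a => Z.mk (E.indicator a.val) ⟨_, a.nle.indicator hE⟩
      map_add' := fun a b => Z.ext (by
        funext δ; by_cases h : δ ∈ E <;> simp [h])
      map_smul' := fun c a => Z.ext (by
        funext δ; by_cases h : δ ∈ E <;> simp [h]) }
    1 fun a => by rw [one_mul]; exact Z.norm_le (a.nle.indicator hE)

@[simp] theorem proj_val (E : Set Γ) (hE : E.OrdConnected) (a : Z ρ 𝕜) :
    (proj ρ 𝕜 E hE a).val = E.indicator a.val := rfl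

theorem norm_proj_le (E : Set Γ) (hE : E.OrdConnected) (a : Z ρ 𝕜) :
    ‖proj ρ 𝕜 E hE a‖ ≤ ‖a‖ := Z.norm_le (a.nle.indicator hE)

/-- projection onto `Iio α` -/
noncomputable abbrev pIio (ρ : Rho Γ) (𝕜 : Type) [RCLike 𝕜] (α : Γ) : Z ρ 𝕜 →L[𝕜] Z ρ 𝕜 :=
  proj ρ 𝕜 (Set.Iio α) Set.ordConnected_Iio

/-- projection onto `Iic α` -/
noncomputable abbrev pIic (ρ : Rho Γ) (𝕜 : Type) [RCLike 𝕜] (α : Γ) : Z ρ 𝕜 →L[𝕜] Z ρ 𝕜 :=
  proj ρ 𝕜 (Set.Iic α) Set.ordConnected_Iic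

/-- finitely supported vectors -/
noncomputable def ofFin (ρ : Rho Γ) (𝕜 : Type) [RCLike 𝕜] : (Γ →₀ 𝕜) →ₗ[𝕜] Z ρ 𝕜 where
  toFun y := Z.mk y ⟨_, NLe_l1 y⟩
  map_add' _ _ := rfl
  map_smul' _ _ := rfl

@[simp] theorem ofFin_val (y : Γ →₀ 𝕜) : (ofFin ρ 𝕜 y).val = y := rfl

theorem proj_ofFin (E : Set Γ) (hE : E.OrdConnected) (y : Γ →₀ 𝕜) :
    proj ρ 𝕜 E hE (ofFin ρ 𝕜 y) = ofFin ρ 𝕜 (res E y) :=
  Z.ext (by simp [coe_res])

theorem pIic_eq (α : Γ) (a : Z ρ 𝕜) :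
    pIic ρ 𝕜 α a = pIio ρ 𝕜 α a + a.val α • ofFin ρ 𝕜 (Finsupp.single α 1) := by
  ext δ
  simp only [proj_val, Z.val_add, Z.val_smul, ofFin_val, Pi.add_apply, Pi.smul_apply, smul_eq_mul]
  rcases lt_trichotomy δ α with h | h | h
  · simp [h, h.le, Finsupp.single_eq_of_ne h.ne]
  · subst h; simp
  · simp [h.not_ge, h.not_gt, Finsupp.single_eq_of_ne h.ne']

theorem mem_closure_proj (a : Z ρ 𝕜) (L : Set Γ) (hL : IsLowerSet L)
    (h : ∀ μ ∈ L, pIic ρ 𝕜 μ a ∈ (LinearMap.range (ofFin ρ 𝕜)).topologicalClosure) :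
    proj ρ 𝕜 L hL.ordConnected a ∈ (LinearMap.range (ofFin ρ 𝕜)).topologicalClosure := by
  classical
  set C := (LinearMap.range (ofFin ρ 𝕜)).topologicalClosure with hC
  by_contra hn
  have hcl : IsClosed (C : Set (Z ρ 𝕜)) := Submodule.isClosed_topologicalClosure _
  obtain ⟨δ, hδ, hd⟩ : ∃ δ > 0, ∀ c ∈ C, δ ≤ ‖proj ρ 𝕜 L hL.ordConnected a - c‖ := by
    obtain ⟨δ, hδ, hb⟩ := Metric.isOpen_iff.1 hcl.isOpen_compl _ hn
    refine ⟨δ, hδ, fun c hc => ?_⟩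
    by_contra h1
    exact hb (by rw [Metric.mem_ball, dist_comm, dist_eq_norm]; exact not_le.1 h1) hc
  have step : ∀ s : Finset Γ, (∀ x ∈ s, x ∈ L) → ∃ u : Fn Γ, T ρ none u ∧
      (∀ x ∈ u.support, x ∈ L) ∧ SLt s u.support ∧ δ / 2 < ‖act u a.val‖ := by
    intro s hs
    set E : Set Γ := {x | x ∈ L ∧ ∀ ξ ∈ s, ξ < x} with hEdef
    have hE : E.OrdConnected :=
      ⟨fun x hx y hy z hz => ⟨hL hz.2 hy.1, fun ξ hξ => (hx.2 ξ hξ).trans_le hz.1⟩⟩
    have h1 : δ ≤ ‖proj ρ 𝕜 E hE a‖ := by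
      rcases s.eq_empty_or_nonempty with h0 | h0
      · have := hd 0 C.zero_mem
        rw [sub_zero] at this
        convert this using 2
        ext x; simp [hEdef, h0]
      · have := hd _ (h _ (hs _ (s.max'_mem h0)))
        convert this using 2
        ext x
        simp only [proj_val, Z.val_sub, Pi.sub_apply]
        by_cases hx : x ≤ s.max' h0
        · have h2 : x ∉ E := fun h3 => absurd (h3.2 _ (s.max'_mem h0)) (not_lt.2 hx)
          have h3 : x ∈ L := hL hx (hs _ (s.max'_mem h0))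
          simp [h2, h3, hx]
        · by_cases h3 : x ∈ L
          · have h2 : x ∈ E := ⟨h3, fun ξ hξ => (s.le_max' ξ hξ).trans_lt (not_le.1 hx)⟩
            simp [h2, h3, hx]
          · have h2 : x ∉ E := fun h4 => h3 h4.1
            simp [h2, h3, hx]
    obtain ⟨w, hw, h2⟩ := Z.exists_lt ((half_lt_self hδ).trans_le h1)
    refine ⟨res E w, T_res hw hE, fun x hx => (mem_support_res.1 hx).1.1,
      fun ξ hξ x hx => (mem_support_res.1 hx).1.2 ξ hξ, ?_⟩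
    rw [act_res]; exact h2
  choose! f hf1 hf2 hf3 hf4 using step
  let S : ℕ → Finset Γ := fun n => Nat.rec ∅ (fun _ s => s ∪ (f s).support) n
  have hS : ∀ n, S (n + 1) = S n ∪ (f (S n)).support := fun n => rfl
  have hSL : ∀ n, ∀ x ∈ S n, x ∈ L := by
    intro n
    induction n with
    | zero => simp [S]
    | succ n ih =>
      intro x hx
      rw [hS, mem_union] at hx
      exact hx.elim (ih x) (hf2 _ ih x)
  have hmono : Monotone S := monotone_nat_of_le_succ fun n => by rw [hS]; exact subset_union_left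
  obtain ⟨j, hj⟩ := exists_nn_ge (4 * (‖a‖ + 1) / δ)
  obtain ⟨w, hw, h1, -⟩ := exists_avg (ρ := ρ) j (nn j) (fun i => f (S i)) le_rfl
    (fun i _ => hf1 _ (hSL i))
    (fun i i' h1 _ => (hf3 _ (hSL i')).mono
      (subset_union_right.trans ((hS i).ge.trans (hmono (Nat.succ_le_of_lt h1)))) subset_rfl) a.val
  have h2 : (nn j : ℝ) * (δ / 2) ≤ ∑ i ∈ range (nn j), ‖act (f (S i)) a.val‖ := by
    calc (nn j : ℝ) * (δ / 2) = ∑ _i ∈ range (nn j), δ / 2 := by simp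
      _ ≤ _ := sum_le_sum fun i _ => (hf4 _ (hSL i)).le
  have h3 := a.nle.wt hw
  have h4 := mm_posR j
  rw [div_le_iff₀ (by positivity)] at h1
  rw [div_mul_eq_mul_div, div_le_iff₀ hδ] at hj
  nlinarith [mul_le_mul_of_nonneg_right h3 (show (0 : ℝ) ≤ 2 * mm j by positivity)]

/-- Bounded completeness: finitely supported vectors are dense. -/
theorem dense_ofFin [WellFoundedLT Γ] : DenseRange (ofFin ρ 𝕜) := by
  intro a
  have h1 : ∀ μ, pIic ρ 𝕜 μ a ∈ (LinearMap.range (ofFin ρ 𝕜)).topologicalClosure := by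
    intro μ
    induction μ using WellFoundedLT.induction with
    | ind μ ih =>
      rw [pIic_eq]
      refine Submodule.add_mem _ (mem_closure_proj a _ (isLowerSet_Iio μ) ih) ?_
      exact Submodule.smul_mem _ _ (Submodule.le_topologicalClosure _ ⟨_, rfl⟩)
  have h2 := mem_closure_proj a Set.univ isLowerSet_univ fun μ _ => h1 μ
  have h3 : proj ρ 𝕜 Set.univ isLowerSet_univ.ordConnected a = a := Z.ext (by simp)
  rw [h3] at h2
  exact h2

theorem exists_fin_approx [WellFoundedLT Γ] (a : Z ρ 𝕜) {ε : ℝ} (hε : 0 < ε) :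
    ∃ y : Γ →₀ 𝕜, ‖a - ofFin ρ 𝕜 y‖ < ε := by
  obtain ⟨y, hy⟩ := dense_ofFin.exists_dist_lt a hε
  exact ⟨y, by rwa [dist_eq_norm] at hy⟩

theorem Z.countable_support [WellFoundedLT Γ] (a : Z ρ 𝕜) : {δ | a.val δ ≠ 0}.Countable := by
  choose y hy using fun n : ℕ => exists_fin_approx a (ε := 1 / ((n : ℝ) + 1)) (by positivity)
  refine (Set.countable_iUnion fun n => (y n).support.countable_toSet).mono fun δ hδ => ?_
  by_contra h1
  simp only [Set.mem_iUnion, not_exists, mem_coe, Finsupp.notMem_support_iff] at h1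
  obtain ⟨n, hn⟩ := exists_nat_one_div_lt (norm_pos_iff.2 hδ)
  have h2 := ((a - ofFin ρ 𝕜 (y n)).norm_apply_le δ).trans_lt (hy n)
  simp only [Z.val_sub, ofFin_val, Pi.sub_apply, h1 n, sub_zero] at h2
  linarith

theorem Branch.cauchy [WellFoundedLT Γ] (b : Branch ρ) (a : Z ρ 𝕜) :
    CauchySeq fun n => act (b.psum n) a.val := by
  rw [Metric.cauchySeq_iff']
  intro ε hε
  obtain ⟨y, hy⟩ := exists_fin_approx a (ε := ε / 4) (by positivity)
  obtain ⟨N, hN⟩ := b.psum_eventually_const y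
  refine ⟨N, fun n hn => ?_⟩
  have h1 := b.norm_psum_le (a - ofFin ρ 𝕜 y).nle n
  have h2 := b.norm_psum_le (a - ofFin ρ 𝕜 y).nle N
  simp only [Z.val_sub, ofFin_val, act_sub_right] at h1 h2
  rw [hN n hn] at h1
  rw [dist_eq_norm]
  calc _ = ‖(act (b.psum n) a.val - act (b.psum N) y) - (act (b.psum N) a.val - act (b.psum N) y)‖ := by
        congr 1; ring
    _ ≤ _ := norm_sub_le _ _
    _ < ε := by linarith

theorem Branch.tendsto_lim [WellFoundedLT Γ] (b : Branch ρ) (a : Z ρ 𝕜) :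
    Tendsto (fun n => act (b.psum n) a.val) atTop
      (𝓝 (limUnder atTop fun n => act (b.psum n) a.val)) := (b.cauchy a).tendsto_limUnder

/-- the functional of a branch -/
noncomputable def BB [WellFoundedLT Γ] (𝕜 : Type) [RCLike 𝕜] (b : Branch ρ) :
    StrongDual 𝕜 (Z ρ 𝕜) :=
  LinearMap.mkContinuous
    { toFun := fun a => limUnder atTop fun n => act (b.psum n) a.val
      map_add' := fun a a' => tendsto_nhds_unique (b.tendsto_lim (a + a')) (by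
        simp only [Z.val_add, act_add_right]
        exact (b.tendsto_lim a).add (b.tendsto_lim a'))
      map_smul' := fun c a => tendsto_nhds_unique (b.tendsto_lim (c • a)) (by
        simp only [Z.val_smul, act_smul_right, RingHom.id_apply, smul_eq_mul]
        exact (b.tendsto_lim a).const_mul c) }
    2 fun a => le_of_tendsto' (b.tendsto_lim a).norm fun n => b.norm_psum_le a.nle n

theorem tendsto_BB [WellFoundedLT Γ] (b : Branch ρ) (a : Z ρ 𝕜) :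
    Tendsto (fun n => act (b.psum n) a.val) atTop (𝓝 (BB 𝕜 b a)) := b.tendsto_lim a

theorem norm_BB_le [WellFoundedLT Γ] (b : Branch ρ) (a : Z ρ 𝕜) : ‖BB 𝕜 b a‖ ≤ 2 * ‖a‖ :=
  le_of_tendsto' (tendsto_BB b a).norm fun n => b.norm_psum_le a.nle n

/-! ## statements about the predual -/

/-- the properties of the family `x α` spanning the space `X` -/
structure IsFrame [WellFoundedLT Γ] (ρ : Rho Γ) (x : Γ → StrongDual 𝕜 (Z ρ 𝕜)) : Prop where
  diag : ∀ α, x α (ofFin ρ 𝕜 (Finsupp.single α 1)) = 1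
  tri : ∀ α a, x α (pIic ρ 𝕜 α a) = x α a
  norming : ∀ α (a : Z ρ 𝕜) (C : ℝ), 0 ≤ C → pIic ρ 𝕜 α a = a →
    (∀ u ∈ Submodule.span 𝕜 (x '' Set.Iic α), ‖u a‖ ≤ C * ‖u‖) → ‖a‖ ≤ 4 * C
  null : ∀ (a : ℕ → Z ρ 𝕜) (C : ℝ), (∀ l, ‖a l‖ ≤ C) →
    (∀ α, Tendsto (fun l => x α (a l)) atTop (𝓝 0)) →
    (∀ δ, Tendsto (fun l => (a l).val δ) atTop (𝓝 0)) →
    ∀ b : Branch ρ, Tendsto (fun l => BB 𝕜 b (a l)) atTop (𝓝 0)

/-- reduction from infinite-dimensional subspaces to block sequences -/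
def ReduceStmt [WellFoundedLT Γ] (ρ : Rho Γ) (𝕜 : Type) [RCLike 𝕜] : Prop :=
  ∀ (G : Submodule 𝕜 (Z ρ 𝕜)), ¬ FiniteDimensional 𝕜 G → ∀ D : ℕ → StrongDual 𝕜 (Z ρ 𝕜),
    ∃ (a : ℕ → Z ρ 𝕜) (C : ℝ), (∀ l, a l ∈ G) ∧ (∀ l, ‖a l‖ ≤ C) ∧
      (∀ k, ∀ᶠ l in atTop, D k (a l) = 0) ∧ (∀ δ, ∀ᶠ l in atTop, (a l).val δ = 0) ∧
      ∃ b : Branch ρ, ¬ Tendsto (fun l => BB 𝕜 b (a l)) atTop (𝓝 0)

end Crest.Agent.R114
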