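import Crest.Agent.R114.Basic
import Crest.Agent.R114.Det

/-!
# Row 114: the null case is impossible
-/

set_option autoImplicit false
set_option linter.unusedSectionVars false

open Filter Finset Topology

namespace Crest.Agent.R114

variable {Γ : Type} [LinearOrder Γ] {ρ : Rho Γ} {𝕜 : Type} [RCLike 𝕜]

/-- prefix-dependent choice -/
theorem zmain_choice {A : Type} [Nonempty A] (P : ℕ → (ℕ → A) → A → Prop)
    (hcongr : ∀ i f g a, (∀ k < i, f k = g k) → P i f a → P i g a)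
    (hex : ∀ i f, (∀ k < i, P k f (f k)) → ∃ a, P i f a) : ∃ f : ℕ → A, ∀ i, P i f (f i) := by
  classical
  let F : ℕ → ℕ → A := fun n => Nat.rec (fun _ => Classical.arbitrary A)
    (fun i g => Function.update g i (Classical.epsilon (P i g))) n
  have hF : ∀ i, F (i + 1) = Function.update (F i) i (Classical.epsilon (P i (F i))) :=
    fun _ => rfl
  have h1 : ∀ i k, k < i → F i k = F (k + 1) k := by
    intro i k hk
    induction i, hk using Nat.le_induction with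
    | base => rfl
    | succ n hn ih => rw [hF n, Function.update_of_ne (by omega), ih]
  refine ⟨fun k => F (k + 1) k, fun i => ?_⟩
  induction i using Nat.strong_induction_on with
  | _ i ih =>
    have h2 : ∃ a, P i (F i) a := by
      obtain ⟨a, ha⟩ := hex i _ ih
      exact ⟨a, hcongr i _ _ a (fun k hk => (h1 i k hk).symm) ha⟩
    have h3 := Classical.epsilon_spec h2
    have h4 : F (i + 1) i = Classical.epsilon (P i (F i)) := by
      rw [hF, Function.update_self]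
    simp only [h4]
    exact hcongr i _ _ _ (fun k hk => h1 i k hk) h3

theorem zmain_supp {v : ℕ → Γ →₀ 𝕜} (hv : Succ v) {n i : ℕ} (hi : i < n) :
    (v i).support ⊆ (∑ s ∈ range n, v s).support := by
  intro δ hδ
  rw [Finsupp.mem_support_iff, Finsupp.finsetSum_apply, sum_eq_single i]
  · exact Finsupp.mem_support_iff.1 hδ
  · intro b _ hbi
    by_contra h
    have hb : δ ∈ (v b).support := Finsupp.mem_support_iff.2 h
    rcases lt_or_gt_of_ne hbi with h1 | h1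
    · exact lt_irrefl _ (hv b i h1 δ hb δ hδ)
    · exact lt_irrefl _ (hv i b h1 δ hδ δ hb)
  · intro h; exact absurd (mem_range.2 hi) h

theorem zmain_hull_mono {s t : Finset Γ} (h : s ⊆ t) : hull s ⊆ hull t :=
  fun _ ⟨⟨a, ha, h1⟩, b, hb, h2⟩ => ⟨⟨a, h ha, h1⟩, b, h hb, h2⟩

/-- rapidly increasing sequences exist -/
theorem zmain_ris (hG : GoodStmt ρ 𝕜) {V : Submodule 𝕜 (Γ →₀ 𝕜)} (hF : Far V) (hN : NullV ρ V)
    (j0 : ℕ) {z : Γ →₀ 𝕜} (hz : z ∈ V) :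
    ∃ (v : ℕ → Γ →₀ 𝕜) (J : ℕ → ℕ), StrictMono J ∧ j0 ≤ J 0 ∧ Succ v ∧ (∀ s, v s ∈ V) ∧
      (∀ s, SLt z.support (v s).support) ∧ (∀ s, NLe ρ (v s) 1) ∧ (∀ s, NGe ρ (v s) (1 / 2)) ∧
      (∀ s, SW ρ 2 (J s) (v s)) ∧ (∀ s, SegSmall ρ (J s) (v s)) ∧
      ∀ s, l1 (v s) * (2 / mm (J (s + 1))) ≤ 1 / mm j0 := by
  let Q : ℕ × (Γ →₀ 𝕜) → Prop := fun p => p.2 ∈ V ∧ SLt z.support p.2.support ∧ NLe ρ p.2 1 ∧
    NGe ρ p.2 (1 / 2) ∧ SW ρ 2 p.1 p.2 ∧ SegSmall ρ p.1 p.2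
  have hne : ∀ p, Q p → p.2.support.Nonempty := fun p hp =>
    Finsupp.support_nonempty_iff.2 (hp.2.2.2.1.ne_zero (by norm_num))
  have hstep : ∀ p : {p // Q p}, ∃ q : {p // Q p}, p.1.1 < q.1.1 ∧
      SLt p.1.2.support q.1.2.support ∧ l1 p.1.2 * (2 / mm q.1.1) ≤ 1 / mm j0 := by
    rintro ⟨p, hp⟩
    obtain ⟨K, hK1, hK2⟩ := exists_mm_small (l1 p.2) (1 / mm j0)
      (by have := mm_posR j0; positivity) (p.1 + 1)
    obtain ⟨v, hv, h1, h2, h3, h4, h5⟩ := hG V hF hN (2 * K) (even_two_mul K) p.2 hp.1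
    exact ⟨⟨(2 * K, v), hv, hp.2.1.trans h1 (hne p hp), h2, h3, h4, h5⟩,
      show p.1 < 2 * K by omega, h1, hK2 (2 * K) (by omega)⟩
  choose f hf1 hf2 hf3 using hstep
  obtain ⟨v0, hv0, h1, h2, h3, h4, h5⟩ := hG V hF hN (2 * j0) (even_two_mul j0) z hz
  let p0 : {p // Q p} := ⟨(2 * j0, v0), hv0, h1, h2, h3, h4, h5⟩
  let g : ℕ → {p // Q p} := fun s => f^[s] p0
  have hg : ∀ s, g (s + 1) = f (g s) := fun s => Function.iterate_succ_apply' f s p0
  refine ⟨fun s => (g s).1.2, fun s => (g s).1.1, strictMono_nat_of_lt_succ fun s => ?_,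
    show j0 ≤ 2 * j0 by omega, ?_, fun s => (g s).2.1, fun s => (g s).2.2.1,
    fun s => (g s).2.2.2.1, fun s => (g s).2.2.2.2.1, fun s => (g s).2.2.2.2.2.1,
    fun s => (g s).2.2.2.2.2.2, fun s => ?_⟩
  · rw [hg]; exact hf1 _
  · intro l l' hl
    induction l', hl using Nat.le_induction with
    | base => simp only [Nat.succ_eq_add_one, hg]; exact hf2 _
    | succ n _ ih =>
      refine SLt.trans ih ?_ (hne _ (g n).2)
      simp only [hg]; exact hf2 _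
  · simp only [hg]; exact hf3 _

/-- exact pairs -/
theorem zmain_pair (hG : GoodStmt ρ 𝕜) (hR : RISStmt ρ 𝕜) {V : Submodule 𝕜 (Γ →₀ 𝕜)}
    (hF : Far V) (hN : NullV ρ V) {j0 : ℕ} (hj0 : 1 ≤ j0) {z : Γ →₀ 𝕜} (hz : z ∈ V) :
    ∃ y ∈ V, ∃ w, T ρ (some j0) w ∧ SLt z.support y.support ∧ NLe ρ y 1 ∧
      1 / 48 ≤ ‖act w y‖ ∧ ∀ δ ∈ w.support, δ ∈ hull y.support := by
  classical
  obtain ⟨v, J, hJ, hJ0, hv, hV, hzv, hle, hge, hsw, hss, hl1⟩ := zmain_ris hG hF hN j0 hz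
  have h1 := hR j0 v J hj0 hJ hJ0 hv hle hsw hss hl1
  obtain ⟨w, hw, h2, h3⟩ := lower_est (ρ := ρ) j0 (nn j0) v (1 / 2) le_rfl
    (fun i i' h _ => hv i i' h) fun i _ => hge i
  have hm := mm_posR j0
  have hn : (0 : ℝ) < nn j0 := by exact_mod_cast nn_pos j0
  set x : Γ →₀ 𝕜 := ∑ s ∈ range (nn j0), v s with hx
  set c : ℝ := mm j0 / (12 * nn j0) with hc
  have hc0 : 0 < c := by positivity
  have hcn : ‖(c : 𝕜)‖ = c := by rw [RCLike.norm_ofReal, abs_of_pos hc0]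
  have hsupp : ((c : 𝕜) • x).support = x.support :=
    Finsupp.support_smul_eq (by simpa using hc0.ne')
  refine ⟨(c : 𝕜) • x, V.smul_mem _ (V.sum_mem fun s _ => hV s), w, hw, ?_, ?_, ?_, ?_⟩
  · rw [hsupp]
    intro δ hδ ξ hξ
    obtain ⟨s, -, hs⟩ := mem_biUnion.1 (Finsupp.support_finsetSum hξ)
    exact hzv s δ hδ ξ hs
  · have h4 := h1.smul (c : 𝕜)
    rw [hcn] at h4
    rw [Finsupp.coe_smul]
    refine h4.mono (le_of_eq ?_)
    rw [hc]; field_simp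
  · rw [act_fsmul, norm_mul, hcn]
    refine le_trans (le_of_eq ?_) (mul_le_mul_of_nonneg_left h2 hc0.le)
    rw [hc]; field_simp; norm_num
  · intro δ hδ
    obtain ⟨i, hi, h4⟩ := h3 δ hδ
    rw [hsupp]
    exact zmain_hull_mono (zmain_supp hv hi) h4

theorem zmain (ρ : Rho Γ) (𝕜 : Type) [RCLike 𝕜] (hG : GoodStmt ρ 𝕜) (hR : RISStmt ρ 𝕜) :
    ZStmt ρ 𝕜 := by
  intro V hF hN
  let P : ℕ → (ℕ → Fn Γ × ℕ × (Γ →₀ 𝕜)) → Fn Γ × ℕ × (Γ →₀ 𝕜) → Prop := fun i f a =>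
    (a.2.2 ∈ V ∧ T ρ (some a.2.1) a.1 ∧ NLe ρ a.2.2 1 ∧ 1 / 48 ≤ ‖act a.1 a.2.2‖ ∧
      ∀ δ ∈ a.1.support, δ ∈ hull a.2.2.support) ∧
    (∀ k < i, SLt (f k).2.2.support a.2.2.support) ∧ (∀ k < i, (f k).2.1 < a.2.1) ∧
    ∃ p, (∀ k < i, (f k).2.1 ≤ p) ∧ ρ.Coh p (hist i fun k => (f k).1) ∧
      a.2.1 = 2 * sig (p, code ρ p i (fun k => (f k).1) fun k => (f k).2.1)
  obtain ⟨f, hf⟩ := zmain_choice P (by
    rintro i f g a hfg ⟨h1, h2, h3, p, h4, h5, h6⟩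
    refine ⟨h1, fun k hk => hfg k hk ▸ h2 k hk, fun k hk => hfg k hk ▸ h3 k hk, p,
      fun k hk => hfg k hk ▸ h4 k hk, ?_, ?_⟩
    · rwa [← det_hist_congr (w := fun k => (f k).1) fun k hk => by rw [hfg k hk]]
    · rwa [← det_code_congr ρ p (w := fun k => (f k).1) (j := fun k => (f k).2.1)
        (fun k hk => by rw [hfg k hk]) fun k hk => by rw [hfg k hk]]) (by
    intro i f hf
    obtain ⟨p, h1, h2, h3⟩ := exists_next ρ i (fun k => (f k).1) (fun k => (f k).2.1)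
      ((range i).sup (fun k => (f k).2.1) + 1)
    have hz : ∃ z ∈ V, ∀ y : Γ →₀ 𝕜, SLt z.support y.support →
        ∀ k < i, SLt (f k).2.2.support y.support := by
      rcases i with _ | i
      · exact ⟨0, V.zero_mem, fun _ _ k hk => absurd hk (Nat.not_lt_zero k)⟩
      · have hi := hf i (Nat.lt_succ_self i)
        refine ⟨(f i).2.2, hi.1.1, fun y hy k hk => ?_⟩
        rcases (Nat.lt_succ_iff.1 hk).eq_or_lt with rfl | hk'
        · exact hy
        · refine (hi.2.1 k hk').trans hy ?_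
          have h4 : act (f i).1 (f i).2.2 ≠ 0 := by
            intro h5
            have := hi.1.2.2.2.1
            rw [h5, norm_zero] at this
            norm_num at this
          obtain ⟨δ, -, hδ⟩ := exists_mem_of_act_ne_zero h4
          exact ⟨δ, hδ⟩
    obtain ⟨z, hz, hz'⟩ := hz
    obtain ⟨y, hy, w, h4, h5, h6, h7, h8⟩ := zmain_pair hG hR hF hN
      (le_trans (Nat.le_add_left 1 _) h3) hz
    refine ⟨(w, _, y), ⟨hy, h4, h6, h7, h8⟩, hz' y h5, fun k hk => ?_, p, h1, h2, rfl⟩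
    have := le_sup (f := fun k => (f k).2.1) (mem_range.2 hk)
    exact lt_of_lt_of_le (Nat.lt_succ_of_le this) h3)
  have hs : ∀ k i, k < i → SLt (f k).2.2.support (f i).2.2.support :=
    fun k i hk => (hf i).2.1 k hk
  let b : Branch ρ := ⟨fun k => (f k).1, fun k => (f k).2.1, fun n =>
    ⟨fun i _ => (hf i).1.2.1,
      ⟨fun k i hk _ δ hδ ξ hξ => (hs k i hk).hull ((hf k).1.2.2.2.2 δ hδ) ((hf i).1.2.2.2.2 ξ hξ),
       fun k i hk _ => (hf i).2.2.1 k hk, fun i _ => (hf i).2.2.2⟩⟩⟩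
  have h1 := hN (fun k => (f k).2.2) (fun l => (hf l).1.1) hs (fun l => (hf l).1.2.2.1) b
    (1 / 100) (by norm_num)
  obtain ⟨l, hl⟩ := h1.exists
  obtain ⟨n, hn1, hn2⟩ := (hl.and (eventually_gt_atTop l)).exists
  have h2 : act (b.psum n) (f l).2.2 = act (f l).1 (f l).2.2 := by
    rw [Branch.psum, act_sum, sum_eq_single l]
    · intro k _ hkl
      refine act_eq_zero _ fun δ hδ => ?_
      by_contra h3
      have h4 : δ ∈ hull (f l).2.2.support := mem_hull_of_mem (Finsupp.mem_support_iff.2 h3)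
      have h5 := (hf k).1.2.2.2.2 δ hδ
      rcases lt_or_gt_of_ne hkl with h6 | h6
      · exact lt_irrefl _ ((hs k l h6).hull h5 h4)
      · exact lt_irrefl _ ((hs l k h6).hull h4 h5)
    · intro h; exact absurd (mem_range.2 hn2) h
  have h3 := (hf l).1.2.2.2.1
  simp only [h2] at hn1
  linarith

end Crest.Agent.R114
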